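import Vale.Agent.P284Z.L.S3.A
import Vale.Agent.P284Z.L.S1.Loc
import Vale.Agent.P284Z.K.Bas
import Vale.Agent.P272.K.C2.PosLin

/-!
# P284Y, row X6: pointwise algebra
-/

open scoped ContDiff Topology ComplexOrder ComplexConjugate ENNReal Matrix
open Filter Set Function Metric

noncomputable section

namespace Vale.Agent.P284Y.X56.Alg

open Vale.Agent.P272.K Vale.Agent.P284.H608.K Vale.Agent.P284Z Vale.Agent.P284Z.J
  Vale.Agent.P284.H619.K

variable {n p : ℕ}

theorem det_add_sq {h : Mx n} (hh : h.PosDef) (L : Cm n →L[ℂ] Cm p) (c : ℂ) :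
    (h + c • P284.H619.K.sq (tL L)).det = h.det * (1 + c • (gm h L)ᵀ).det := by
  set B : Matrix (Fin p) (Fin n) ℂ := Matrix.of fun l c => conj (tL L l c) with hB
  have h1 : h * h⁻¹ = 1 :=
    Matrix.mul_nonsing_inv _ ((Matrix.isUnit_iff_isUnit_det _).mp hh.isUnit)
  have h2 : h + c • P284.H619.K.sq (tL L) = h * (1 + (h⁻¹ * Bᴴ) * (c • B)) := by
    rw [sq_tL, mul_add, mul_one, ← Matrix.mul_assoc, ← Matrix.mul_assoc, h1, Matrix.one_mul,
      Matrix.mul_smul]
  rw [h2, Matrix.det_mul, Matrix.det_one_add_mul_comm, gm_eq, Matrix.smul_mul, Matrix.mul_assoc]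

/-- `|D|²_w dV_w` does not see the basic part of the metric -/
theorem pf_det {h w : Mx n} (hh : h.PosDef) (hw : w.PosDef) {L : Cm n →L[ℂ] Cm p} {D : Af n p}
    (hD : IsDet L D) {l : ℝ} (hl : (h + (l : ℂ) • P284.H619.K.sq (tL L) - w).PosSemidef) :
    (hn w D D).re * w.det.re ≤ (hn h D D).re * h.det.re := by
  set G := (gm h L)ᵀ with hG
  have key : ∀ ε : ℝ, 0 < ε → (hn w D D).re * w.det.re ≤
      (h.det * ((ε : ℂ) • (1 : Mx p) + (((l * ε + 1 : ℝ)) : ℂ) • G).det).re := by
    intro ε hε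
    have hc : 0 < ε⁻¹ := inv_pos.2 hε
    have h1 := mass_sq hw hD hc
    have h2 := det_mono (B := h + (((l + ε⁻¹ : ℝ)) : ℂ) • P284.H619.K.sq (tL L))
      (hw.add_posSemidef ((sq_posSemidef (tL L)).smul (Complex.zero_le_real.mpr hc.le))) (by
        convert hl using 1
        rw [Complex.ofReal_add, add_smul]
        abel)
    have h3 := (Complex.le_def.1 (h1.trans h2)).1
    rw [Complex.re_ofReal_mul, re_mul_det hw, det_add_sq hh] at h3
    have h4 : (ε : ℂ) • (1 : Mx p) + (((l * ε + 1 : ℝ)) : ℂ) • G =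
        (ε : ℂ) • (1 + (((l + ε⁻¹ : ℝ)) : ℂ) • G) := by
      rw [smul_add, smul_smul, ← Complex.ofReal_mul, mul_add, mul_inv_cancel₀ hε.ne', mul_comm]
    rw [h4, Matrix.det_smul, Fintype.card_fin, mul_left_comm, ← Complex.ofReal_pow,
      Complex.re_ofReal_mul]
    have h5 := mul_le_mul_of_nonneg_left h3 (pow_pos hε p).le
    rwa [← mul_assoc, ← mul_pow, mul_inv_cancel₀ hε.ne', one_pow, one_mul] at h5
  have hc : Continuous fun ε : ℝ =>
      (h.det * ((ε : ℂ) • (1 : Mx p) + (((l * ε + 1 : ℝ)) : ℂ) • G).det).re := by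
    refine Complex.continuous_re.comp (continuous_const.mul (Continuous.matrix_det ?_))
    fun_prop
  have h6 := ge_of_tendsto ((hc.tendsto 0).mono_left (nhdsWithin_le_nhds (s := Ioi 0)))
    (eventually_nhdsWithin_of_forall key)
  simp only [Complex.ofReal_zero, zero_smul, mul_zero, zero_add, Complex.ofReal_one,
    one_smul] at h6
  rwa [hG, Matrix.det_transpose, ← hn_det h hD, mul_comm h.det, re_mul_det hh] at h6

theorem pb_psd (S : Matrix (Fin p) (Fin n) ℂ) {H : Mx p} (hH : H.PosSemidef) :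
    (pb S H).PosSemidef := by
  have h := hH.conjTranspose_mul_mul_same (S.map (starRingEnd ℂ))
  have e : (S.map (starRingEnd ℂ))ᴴ = S.transpose := by
    ext i j
    simp
  rwa [e] at h

/-- the metric `A G + b^* H` -/
theorem pf_pb {G : Mx n} (hG : G.PosDef) (A : ℝ) {H : Mx p} (hH : H.IsHermitian)
    (b : Cm n → Cm p) (z : Cm n) (hw : ((A : ℂ) • G + pb (jm b z) H).PosDef) :
    (hn ((A : ℂ) • G + pb (jm b z) H) (L.dF b z) (L.dF b z)).re *
        ((A : ℂ) • G + pb (jm b z) H).det.re ≤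
      (hn (((|A| + 1 : ℝ) : ℂ) • G) (L.dF b z) (L.dF b z)).re *
        (((|A| + 1 : ℝ) : ℂ) • G).det.re := by
  obtain ⟨l, -, hl⟩ := K.exists_dom (Y := Unit) (K := univ) isCompact_univ (A := fun _ => H)
    (B := fun _ => (1 : Mx p)) continuousOn_const continuousOn_const (fun _ _ => hH)
    fun _ _ => Matrix.PosDef.one
  refine pf_det (L := fderiv ℂ b z) (l := l)
    (hG.smul (Complex.zero_lt_real.2 (by positivity))) hw (fun ξ => L.dF_apply b z ξ) ?_
  have h1 := pb_psd (jm b z) (hl () trivial)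
  have h2 := hG.posSemidef.smul
    (Complex.zero_le_real.2 (by linarith [le_abs_self A] : (0 : ℝ) ≤ |A| + 1 - A))
  convert h2.add h1 using 1
  rw [← L.S1.pb_eq]
  simp only [pb, Matrix.mul_sub, Matrix.sub_mul, Matrix.mul_smul, Matrix.smul_mul,
    Complex.ofReal_sub, sub_smul]
  abel

/-- one component of `T` is controlled by the norm of `T` -/
theorem tn_cs {w : Mx n} (hw : w.PosDef) (T : Fin n → Af n p) (c : Fin n) :
    (hn w (T c) (T c)).re ≤ (w c c).re * (Tn w T).re := by
  set N : Mx n := Matrix.of fun b b' => hn w (T b') (T b) with hN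
  have h1 : N.PosSemidef := by
    refine Matrix.PosSemidef.of_dotProduct_mulVec_nonneg ?_ fun x => ?_
    · ext b b'
      exact (hn_symm hw _ _).symm
    · have h2 := hn_self_nonneg hw (∑ b, x b • T b)
      rw [hn_sum_right] at h2
      simp only [hn_sum_left, hn_smul_left, hn_smul_right] at h2
      convert h2 using 1
      simp only [dotProduct, Matrix.mulVec, hN, Matrix.of_apply, Finset.mul_sum, Pi.star_apply]
      exact Finset.sum_congr rfl fun b _ => Finset.sum_congr rfl fun b' _ => by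
        rw [RCLike.star_def]; ring
  have h3 : (w⁻¹ * N).trace = Tn w T := rfl
  have h4 := (C2.trace_smul_sub_posSemidef hw h1).diag_nonneg (i := c)
  rw [h3, Matrix.sub_apply, Matrix.smul_apply, smul_eq_mul, sub_nonneg] at h4
  have h5 := (Complex.le_def.1 h4).1
  have h6 := (Complex.le_def.1 (hw.posSemidef.diag_nonneg (i := c))).2
  rw [Complex.mul_re, ← h6, Complex.zero_im, mul_zero, sub_zero, mul_comm] at h5
  exact h5

end Vale.Agent.P284Y.X56.Alg
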