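import Vale.Agent.P284Y.X56.Lt2

/-!
# P284Y, row X6b: propagation of the relation between the tensor and the conormal forms
-/

open scoped ContDiff Topology ENNReal
open Filter Set Function Metric MeasureTheory

noncomputable section

namespace Vale.Agent.P284Y.X56.Lt

open Vale.Agent.P272.K Vale.Agent.P284.H608.K Vale.Agent.P284Z Vale.Agent.P284Z.L
  Vale.Agent.P284Y.X

variable {n p k : ℕ} {Γ E : Type} [Group Γ] [TopologicalSpace E] [MulAction Γ E] {C : Cov n Γ E}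
  {γ γ' g : Γ} {a b : C.I} {z z' : Cm n}

theorem exists_tr (hz : z ∈ C.B 4 a) (hz' : z' ∈ C.B 4 b) (e : C.pt γ a z = C.pt γ' b z') :
    ∃ g, C.Ov g a b z ∧ C.tr g a b z = z' ∧ γ' * g = γ :=
  ⟨_, (C.Ov_of_eq hz hz' e).1, (C.Ov_of_eq hz hz' e).2, mul_inv_cancel_left _ _⟩

theorem ds_trv {s : E → Cm p} {O : Set E} (hs : C.HolOn s O) (h : C.Ov g a b z)
    (hO : C.pt (γ * g) a z ∈ O) (ξ : Fin p → Cm n) :
    ds C s (γ * g) a z ξ = ds C s γ b (C.tr g a b z) (trv C g a b z ξ) := by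
  have h1 : (fun w => s (C.pt (γ * g) a w)) =ᶠ[𝓝 z] fun w => s (C.pt γ b (C.tr g a b w)) :=
    (C.ev_Ov h).mono fun w hw => by simp only [C.pt_tr hw]
  rw [ds, S8b.dd_congr h1]
  exact S8b.dd_comp (b := fun w => s (C.pt γ b w))
    (hs γ b _ (C.tr_mem h) (by rwa [C.pt_tr h])).differentiableAt (C.an_tr h).differentiableAt ξ

theorem an_τ (T : Ten C p k) (γ : Γ) (hz : z ∈ C.B 4 a) (ξ : Fin p → Cm n) :
    AnalyticAt ℂ (fun w => T.τ γ a w ξ) z :=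
  AnalyticAt.comp (g := fun q : Cm n × (Fin p → Cm n) => T.τ γ a q.1 q.2) (f := fun w => (w, ξ))
    (T.an γ a (z, ξ) (mk_mem_prod hz (mem_univ _))) (analyticAt_id.prod analyticAt_const)

variable (X : XL C p) (T : Ten C p k)

theorem U4 {I : Fin p → Fin n} (hz : z ∈ X.U a I) : z ∈ C.B 4 a :=
  C.B_mono (by norm_num) a (X.U_sub a I hz)

theorem an_ds (hz : z ∈ C.B 4 a) (hT : C.pt γ a z ∈ X.T) (ξ : Fin p → Cm n) :
    AnalyticAt ℂ (fun w => ds C X.s γ a w ξ) z := S8b.an_dd (X.sub.hol γ a z hz hT) ξ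

/-- the tensor is a multiple of the power of the frame -/
def Rel (y : E) : Prop := ∀ γ a I, ∀ z ∈ X.U a I, C.pt γ a z = y → ∀ ξ,
  T.τ γ a z ξ = T.τ γ a z (eb I) * X.θ a I z ξ ^ k

variable {X T}

theorem rel_of {J : Fin p → Fin n} (hz' : z' ∈ X.U b J)
    (h : ∀ ξ, T.τ γ' b z' ξ = T.τ γ' b z' (eb J) * X.θ b J z' ξ ^ k) : Rel X T (C.pt γ' b z') := by
  intro γ a I z hz e ξ
  obtain ⟨g, h1, rfl, rfl⟩ := exists_tr (U4 X hz) (U4 X hz') e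
  have h2 := (X.θ_ch g a b I J z h1 hz hz').2 ξ
  rw [T.ch γ' g a b z h1, T.ch γ' g a b z h1, h, h (fun i => fderiv ℂ (C.tr g a b) z (eb I i)),
    mul_assoc, ← mul_pow]
  exact congrArg (fun t => _ * t ^ k) h2

/-- transport of the relation with `ds` -/
theorem ds_of (γ₁ : Γ) (hz' : z' ∈ C.B 4 b) (hT : C.pt γ' b z' ∈ X.T) {c : ℂ}
    (h : ∀ ξ, T.τ (γ₁ * γ') b z' ξ = c * ds C X.s γ' b z' ξ ^ k) (hz : z ∈ C.B 4 a)
    (e : C.pt γ a z = C.pt γ' b z') (ξ : Fin p → Cm n) :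
    T.τ (γ₁ * γ) a z ξ = c * ds C X.s γ a z ξ ^ k := by
  obtain ⟨g, h1, rfl, rfl⟩ := exists_tr hz hz' e
  rw [ds_trv X.sub.hol h1 (e ▸ hT), ← h, ← mul_assoc, T.ch _ g a b z h1]
  rfl

theorem rel_all {r : ℝ} (hr : 0 < r)
    (h : ∀ z ∈ ball X.z₀ r, z ∈ C.B 4 X.a₀ ∧ C.pt 1 X.a₀ z ∈ X.T ∧
      ∃ c, ∀ ξ, T.τ 1 X.a₀ z ξ = c * ds C X.s 1 X.a₀ z ξ ^ k) {I : Fin p → Fin n}
    (hz : z ∈ X.U a I) (γ : Γ) : Rel X T (C.pt γ a z) := by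
  have ho := C.isOpen_image_pt 1 isOpen_ball fun z hz => (h z hz).1
  have h0 : ∀ y ∈ C.pt 1 X.a₀ '' ball X.z₀ r, Rel X T y := by
    rintro _ ⟨w, hw, rfl⟩ γ a I z hz e ξ
    obtain ⟨h1, h2, c, h3⟩ := h w hw
    have h4 := ds_of (T := T) 1 h1 h2 (c := c) (by simpa using h3) (U4 X hz) e
    have h5 := (X.tube_U γ a I z (X.U_sub a I hz) (e ▸ h2) hz).2 ξ
    rw [one_mul] at h4
    rw [h4, h4, h5, mul_pow, mul_assoc]
  obtain ⟨y, y1, y2⟩ := X.dense.inter_open_nonempty _ ho ⟨_, _, mem_ball_self hr, rfl⟩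
  have h1 : (⋃ γ, ⋃ a, ⋃ I, C.pt γ a '' X.U a I) ⊆ {y | ∀ᶠ y' in 𝓝 y, Rel X T y'} := by
    refine X.conn.subset_of_closure_inter_subset isOpen_setOfPred_eventually_nhds
      ⟨y, y2, mem_of_superset (ho.mem_nhds y1) h0⟩ ?_
    rintro x ⟨x1, x2⟩
    simp only [mem_iUnion] at x2
    obtain ⟨γ, a, I, z, hz, rfl⟩ := x2
    obtain ⟨ρ, hρ, h2⟩ := Metric.isOpen_iff.1 (X.U_opn a I) z hz
    rw [mem_closure_iff_frequently, ← C.map_pt' (U4 X hz), frequently_map] at x1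
    obtain ⟨w, w1, w2⟩ := (x1.and_eventually (ball_mem_nhds z hρ)).exists
    have h3 : ∀ ξ, EqOn (fun u => T.τ γ a u ξ) (fun u => T.τ γ a u (eb I) * X.θ a I u ξ ^ k)
        (ball z ρ) := fun ξ => by
      refine AnalyticOnNhd.eqOn_of_preconnected_of_eventuallyEq (𝕜 := ℂ)
        (fun u hu => an_τ T γ (U4 X (h2 hu)) ξ) (fun u hu => (an_τ T γ (U4 X (h2 hu)) _).mul
          ((((ContinuousAlternatingMap.apply ℂ (Cm n) ℂ ξ).analyticAt _).comp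
            (X.θ_an a I u (h2 hu))).pow k)) (convex_ball z ρ).isPreconnected w2 ?_
      filter_upwards [(C.ev_pt (U4 X (h2 w2)) γ).1 w1, isOpen_ball.mem_nhds w2] with u u1 u2
      exact u1 γ a I u (h2 u2) rfl ξ
    refine (C.ev_pt (U4 X hz) γ).2 ?_
    filter_upwards [ball_mem_nhds z hρ] with u hu
    exact rel_of (h2 hu) fun ξ => h3 ξ hu
  exact (h1 (mem_iUnion.2 ⟨γ, mem_iUnion₂.2 ⟨a, I, z, hz, rfl⟩⟩)).self_of_nhds

/-- the quotient of the tensor by the power of `ds` -/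
theorem exists_quot (h : ∀ γ a I, ∀ z ∈ X.U a I, Rel X T (C.pt γ a z)) (γ₁ : Γ) :
    ∃ F : E → ℂ, C.HolOn F X.T ∧ ∀ γ a, ∀ z ∈ C.B 4 a, C.pt γ a z ∈ X.T → ∀ ξ,
      T.τ (γ₁ * γ) a z ξ = F (C.pt γ a z) * ds C X.s γ a z ξ ^ k := by
  have key : ∀ y, ∃ c, y ∈ X.T → ∀ γ a, ∀ z ∈ C.B 4 a, C.pt γ a z = y → ∀ ξ,
      T.τ (γ₁ * γ) a z ξ = c * ds C X.s γ a z ξ ^ k := fun y => by
    obtain ⟨g, b, w, hw, rfl⟩ := C.exists_pt y
    by_cases hT : C.pt g b w ∈ X.T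
    swap
    · exact ⟨0, fun h => (hT h).elim⟩
    have hw4 := C.B14 hw
    obtain ⟨σ, hσ⟩ := exists_eb (X.sub.surj g b w hw4 hT)
    refine ⟨T.τ (γ₁ * g) b w (eb σ) / ds C X.s g b w (eb σ) ^ k, fun _ γ a z hz e =>
      ds_of γ₁ hw4 hT (fun ξ => ?_) hz e⟩
    rw [div_mul_eq_mul_div]
    refine (eq_div_iff (pow_ne_zero _ hσ)).2 ?_
    obtain ⟨I, f, f1, f2, f3⟩ := X.thin b
    have hw' : w ∈ C.B (3 / 2) b := C.B_mono (by norm_num) b hw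
    refine S8b.eq_of_dense (f := fun w => T.τ (γ₁ * g) b w ξ * ds C X.s g b w (eb σ) ^ k)
      (g := fun w => T.τ (γ₁ * g) b w (eb σ) * ds C X.s g b w ξ ^ k)
      ((an_τ T _ hw4 _).mul ((an_ds X hw4 hT _).pow k)).continuousAt
      ((an_τ T _ hw4 _).mul ((an_ds X hw4 hT _).pow k)).continuousAt
      (dense_ne_zero (C.preconn_B _ b) f1 f2 hw') ?_
    filter_upwards [(C.isOpen_B _ b).mem_nhds hw',
      (C.continuousAt_pt hw4 g).eventually_mem (X.sub.opn.mem_nhds hT)] with u u1 u2 u3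
    have h1 := f3 u u1 u3
    have h2 := h (γ₁ * g) b I u h1 _ _ _ u h1 rfl
    have h3 := (X.tube_U g b I u (X.U_sub b I h1) u2 h1).2
    rw [h2 ξ, h2 (eb σ), h3 ξ, h3 (eb σ)]
    ring
  choose F hF using key
  refine ⟨F, fun γ a z hz hT => ?_, fun γ a z hz hT => hF _ hT γ a z hz rfl⟩
  obtain ⟨σ, hσ⟩ := exists_eb (X.sub.surj γ a z hz hT)
  have h1 := (an_ds X hz hT (eb σ)).pow k
  refine ((an_τ T (γ₁ * γ) hz (eb σ)).div h1 (pow_ne_zero _ hσ)).congr ?_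
  filter_upwards [(C.isOpen_B _ a).mem_nhds hz,
    (C.continuousAt_pt hz γ).eventually_mem (X.sub.opn.mem_nhds hT),
    h1.continuousAt.eventually_ne (pow_ne_zero _ hσ)] with u u1 u2 u3
  exact (div_eq_iff u3).2 (hF _ u2 γ a u u1 rfl _)

/-- **the tensor is basic** -/
theorem basic {r : ℝ} (hr : 0 < r)
    (h : ∀ z ∈ ball X.z₀ r, z ∈ C.B 4 X.a₀ ∧ C.pt 1 X.a₀ z ∈ X.T ∧
      ∃ c, ∀ ξ, T.τ 1 X.a₀ z ξ = c * ds C X.s 1 X.a₀ z ξ ^ k) (γ : Γ) :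
    ∃ f : Cm p → ℂ, AnalyticAt ℂ f X.t₀ ∧ ∀ z ∈ C.B 1 X.a₀, C.pt 1 X.a₀ z ∈ X.T → ∀ ξ,
      T.τ γ X.a₀ z ξ = ds C X.s 1 X.a₀ z ξ ^ k * f (X.s (C.pt 1 X.a₀ z)) := by
  obtain ⟨F, F1, F2⟩ := exists_quot (fun γ a I z hz => rel_all hr h hz γ) γ
  obtain ⟨σ, σ1, σ2, σ3⟩ := X.sec
  refine ⟨fun t => F (C.pt 1 X.a₀ (σ t)), ?_, fun z hz hT ξ => ?_⟩
  · exact (F1 1 _ _ (C.B14 X.mem₀) X.base.1).comp_of_eq (σ1 _ (mem_ball_self X.R_pos)) σ2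
  · obtain ⟨-, h1, h2⟩ := σ3 _ (X.mem _ hT)
    beta_reduce
    rw [X.desc F F1 _ h1 _ hT h2, mul_comm, ← F2 1 _ z (C.B14 hz) hT, mul_one]

end Vale.Agent.P284Y.X56.Lt
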