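import Vale.Agent.P284Y.X56.Spec
import Vale.Agent.P284Y.X56.Alg
import Vale.Agent.P284Y.X56.Lt4
import Vale.Agent.P284Z.J.JB
import Vale.Agent.P284.H451.K1bA
import Vale.Agent.P284.H419.K.Alg

/-!
# P284Y, row X6a: the pointwise facts of one stage, in the charts
-/

open scoped ContDiff Topology ComplexOrder ComplexConjugate ENNReal
open Filter Set Function Metric MeasureTheory

noncomputable section

namespace Vale.Agent.P284Y.X56.Pt

open Vale.Agent.P272.K Vale.Agent.P284.H608.K Vale.Agent.P284Z Vale.Agent.P284Z.J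
  Vale.Agent.P284Z.L Vale.Agent.P284Y.X Vale.Agent.P284Y.X4 Vale.Agent.P284.H619.K

section loc
variable {n p : ℕ} {z : Cm n}

theorem two {f : Cm n → ℝ} (h : ContDiffAt ℝ ∞ f z) : ContDiffAt ℝ 2 f z :=
  h.of_le (by norm_cast)

theorem hn_re {w : Mx n} (hw : w.PosDef) (A : Af n p) : 0 ≤ (hn w A A).re :=
  (Complex.le_def.1 (hn_self_nonneg hw A)).1

theorem det_re {w : Mx n} (hw : w.PosDef) : 0 < w.det.re := (Complex.lt_def.1 hw.det_pos).1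

theorem ad_w_le {w : Mx n} (hw : w.PosDef) (τ : Af n p) : (Ad w w τ).re ≤ n * (hn w τ τ).re := by
  rcases le_or_gt p n with h | h
  · rw [P284.H451.K1.Adw h hw, ← Complex.ofReal_natCast, Complex.re_ofReal_mul]
    exact mul_le_mul_of_nonneg_right (Nat.cast_le.2 (Nat.sub_le _ _)) (hn_re hw τ)
  · have h1 : ∀ c, wdz c τ = 0 := fun c => P284.H419.K.af_zero_of_lt (h.trans (Nat.lt_succ_self p)) _
    have h2 : Ad w w τ = 0 := by simp [Ad, h1, hn, ev]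
    rw [h2]
    exact mul_nonneg n.cast_nonneg (hn_re hw τ)

theorem ad_le {w H : Mx n} (hw : w.PosDef) {e : ℝ} (he : 0 ≤ e) (τ : Af n p) :
    (Ad w (H + (e : ℂ) • w) τ).re ≤ (Ad w H τ).re + e * n * (hn w τ τ).re := by
  rw [Ad_add, Ad_smul, Complex.add_re, Complex.re_ofReal_mul, mul_assoc]
  exact add_le_add_right (mul_le_mul_of_nonneg_left (ad_w_le hw τ) he) _

theorem bb_comp {b : Cm n → Cm p} {g : Cm p → ℂ} (hb : DifferentiableAt ℂ b z)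
    (hg : DifferentiableAt ℝ g (b z)) : bb (fun w => g (b w)) z = pb (jm b z) (bb g (b z)) := by
  refine Eq.trans ?_ (pb_rk1 (jm b z) (fun c => conj (dzb c g (b z))) fun c => dzb c g (b z)).symm
  ext j k
  simp only [bb, P284.H650.rk1, Matrix.of_apply, (dz_comp hb hg _).2, map_sum, map_mul,
    Complex.conj_conj]
  rfl

theorem pb_lin (S : Matrix (Fin p) (Fin n) ℂ) (c d : ℂ) (H G : Mx p) :
    pb S (c • H - d • G) = c • pb S H - d • pb S G := by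
  simp only [pb, Matrix.mul_sub, Matrix.sub_mul, Matrix.mul_smul, Matrix.smul_mul]

end loc

variable {n p k j : ℕ} {Γ E : Type} [Group Γ] [TopologicalSpace E] [MulAction Γ E] {C : Cov n Γ E}
  {X : XL C p} {F : XF X} {Pf : Cm p → ℂ} {N e : ℝ} (S : XS F k Pf j N e)
  {γ g : Γ} {a b : C.I} {I J : Fin p → Fin n} {z : Cm n}

/-- the form `g ds ⊗ ds^k` in the frame `θ a I` -/
def s0 (γ : Γ) (a : C.I) (I : Fin p → Fin n) (z : Cm n) : Af n p :=
  S.gb (X.s (C.pt γ a z)) • sg X k γ a I z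

/-- the curvature term -/
def qe {q : ℕ} (γ : Γ) (a : C.I) (I : Fin p → Fin n) (z : Cm n) (τ : Af n q) : ℝ :=
  (Ad (C.om F.A S.κ γ a z) (cHess (S.ψ γ a I) z) τ).re +
    e * n * (hn (C.om F.A S.κ γ a z) τ τ).re

variable (F) in
/-- the compact part of the tube -/
def K1 : Set E := {y ∈ X.T | ‖X.s y - X.t₀‖ ≤ F.R₁}

theorem w_pos (hz : z ∈ C.B 4 a) : (C.om F.A S.κ γ a z).PosDef := by
  have := (C.ρ_pos a z hz).add_posSemidef (S.κ_ge γ a z hz (mem_univ _))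
  simpa only [Cov.om, Pi.sub_apply, one_mul, add_zero, add_sub_cancel] using this

theorem qe_ge (he : 0 ≤ e) (hz : z ∈ X.U a I) {q : ℕ} (τ : Af n q) :
    (Ad (C.om F.A S.κ γ a z) (cHess (S.ψ γ a I) z + (e : ℂ) • C.om F.A S.κ γ a z) τ).re ≤
      qe S γ a I z τ := ad_le (w_pos S (Lt.U4 X hz)) he τ

theorem qe_nonneg (he : 0 ≤ e) (hz : z ∈ X.U a I) (hO : C.pt γ a z ∈ S.O) {q : ℕ} (τ : Af n q) :
    0 ≤ qe S γ a I z τ :=
  (Complex.le_def.1 (Ad_nonneg (w_pos S (Lt.U4 X hz)) (S.ψ_psd γ a I z hz hO) τ)).1.trans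
    (qe_ge S he hz τ)

theorem K1_cpt : IsCompact (K1 F) := X.cpt _ (F.R₁_lt.trans (F.R₂_lt.trans F.R₃_lt))

theorem K1_R₂ {y : E} (h : y ∈ K1 F) : X.s y ∈ ball X.t₀ F.R₂ :=
  mem_ball_iff_norm.2 (h.2.trans_lt F.R₁_lt)

theorem R₂₃ {t : Cm p} (h : t ∈ ball X.t₀ F.R₂) : t ∈ ball X.t₀ F.R₃ := ball_subset_ball F.R₂_lt.le h

theorem s0_zero (h : C.pt γ a z ∉ K1 F) : s0 S γ a I z = 0 := by
  ext v
  by_cases hT : C.pt γ a z ∈ X.T
  · rw [s0, (S.bs.supp _ (not_le.1 fun k => h ⟨hT, k⟩).le).1]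
    exact zero_mul _
  · rw [s0, sg, if_neg hT]
    exact mul_zero _

theorem chi_one (h : s0 S γ a I z ≠ 0) : S.χ (C.pt γ a z) = 1 := by
  have h1 : C.pt γ a z ∈ K1 F := not_not.1 fun k => h (s0_zero S k)
  refine (S.one _ h1.1 (subset_tsupport _ fun k => h ?_)).self_of_nhds
  ext v
  rw [s0, k]
  exact zero_mul _

theorem s0_ev [T2Space E] (hz : z ∈ C.B 4 a) (h : C.pt γ a z ∉ K1 F) :
    s0 S γ a I =ᶠ[𝓝 z] fun _ => 0 :=
  ((C.continuousAt_pt hz γ).eventually_mem (K1_cpt.isClosed.isOpen_compl.mem_nhds h)).mono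
    fun _ k => s0_zero S k

theorem sg_ev (hz : z ∈ C.B 4 a) (hT : C.pt γ a z ∈ X.T) : sg X k γ a I =ᶠ[𝓝 z]
    fun w => ds C X.s γ a w (eb I) ^ k • dF (fun w => X.s (C.pt γ a w)) w :=
  ((C.continuousAt_pt hz γ).eventually_mem (X.sub.opn.mem_nhds hT)).mono fun _ k => if_pos k

theorem sg_an (hz : z ∈ C.B 4 a) (hT : C.pt γ a z ∈ X.T) : AnalyticAt ℂ (sg X k γ a I) z :=
  (((Lt.an_ds X hz hT _).pow k).smul (S1.dF_an (X.sub.hol γ a z hz hT))).congr (sg_ev hz hT).symm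

theorem comp_sm {V : Type} [NormedAddCommGroup V] [NormedSpace ℝ V] {u : Cm p → V}
    (hz : z ∈ C.B 4 a) (hT : C.pt γ a z ∈ X.T) (hu : ContDiffAt ℝ ∞ u (X.s (C.pt γ a z))) :
    ContDiffAt ℝ ∞ (fun w => u (X.s (C.pt γ a w))) z :=
  ContDiffAt.comp (g := u) z hu
    (((X.sub.hol γ a z hz hT).contDiffAt (n := ∞)).restrict_scalars ℝ)

theorem s0_sm [T2Space E] (hz : z ∈ C.B 4 a) : ContDiffAt ℝ ∞ (s0 S γ a I) z := by
  by_cases h : C.pt γ a z ∈ K1 F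
  · exact (comp_sm hz h.1 (S.bs.g_sm _ (R₂₃ (K1_R₂ h)))).smul
      (((sg_an hz h.1).contDiffAt (n := ∞)).restrict_scalars ℝ)
  · exact contDiffAt_const.congr_of_eventuallyEq (s0_ev S hz h)

theorem sg_ch (h : C.Ov g a b z) (hz' : C.tr g a b z ∈ X.U b J) (ξ : Fin p → Cm n) :
    sg X k (γ * g) a I z ξ = X.θ b J (C.tr g a b z) (trv C g a b z (eb I)) ^ k *
      sg X k γ b J (C.tr g a b z) (trv C g a b z ξ) := by
  unfold sg
  rw [C.pt_tr h]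
  split_ifs with hT
  · have h1 := (X.tube_U γ b J _ (X.U_sub b J hz') ((C.pt_tr h γ).symm ▸ hT) hz').2
      (trv C g a b z (eb I))
    have h2 := Lt.ds_trv X.sub.hol h hT
    rw [ContinuousAlternatingMap.smul_apply, ContinuousAlternatingMap.smul_apply, dF_apply,
      dF_apply, h2, h1, smul_eq_mul, smul_eq_mul, mul_pow, mul_comm (ds _ _ _ _ _ _ ^ k), mul_assoc]
    exact congrArg _ (congrArg _ (h2 ξ))
  · exact (mul_zero _).symm

theorem s0_ch (h : C.Ov g a b z) (hz' : C.tr g a b z ∈ X.U b J) :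
    s0 S (γ * g) a I z = X.θ b J (C.tr g a b z) (trv C g a b z (eb I)) ^ k •
      (s0 S γ b J (C.tr g a b z)).compContinuousLinearMap (fderiv ℂ (C.tr g a b) z) := by
  ext ξ
  change _ * sg X k (γ * g) a I z ξ = _ * (_ * sg X k γ b J _ (trv C g a b z ξ))
  rw [sg_ch h hz', C.pt_tr h, mul_left_comm]

theorem psi_ev (hz : z ∈ X.U a I) (hT : C.pt γ a z ∈ X.T)
    (hb : X.s (C.pt γ a z) ∈ ball X.t₀ F.R₃) : ∀ᶠ w in 𝓝 z, ds C X.s γ a w (eb I) ≠ 0 ∧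
      S.ψ γ a I w = S.ψb (X.s (C.pt γ a w)) + k * Real.log (‖ds C X.s γ a w (eb I)‖ ^ 2) := by
  have h4 := Lt.U4 X hz
  filter_upwards [(X.U_opn a I).mem_nhds hz,
    (C.continuousAt_pt h4 γ).eventually_mem (X.sub.opn.mem_nhds hT),
    (X.sub.hol γ a z h4 hT).continuousAt.eventually_mem (isOpen_ball.mem_nhds hb)] with w k1 k2 k3
  exact ⟨(X.tube_U γ a I w (X.U_sub a I k1) k2 k1).1, S.ψ_tube γ a I w k1 k2 k3⟩

theorem exp_ev (hz : z ∈ X.U a I) (hT : C.pt γ a z ∈ X.T)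
    (hb : X.s (C.pt γ a z) ∈ ball X.t₀ F.R₃) : ∀ᶠ w in 𝓝 z,
      Real.exp (-S.ψ γ a I w) * ‖ds C X.s γ a w (eb I) ^ k‖ ^ 2 =
        Real.exp (-S.ψb (X.s (C.pt γ a w))) :=
  (psi_ev S hz hT hb).mono fun w hw => by
    have h := pow_pos (norm_pos_iff.2 hw.1) 2
    rw [hw.2, neg_add, Real.exp_add, Real.exp_neg (_ * _), Real.exp_nat_mul, Real.exp_log h,
      norm_pow, ← pow_mul, ← pow_mul, mul_comm k, inv_mul_cancel_right₀]
    exact pow_ne_zero _ (norm_ne_zero_iff.2 hw.1)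

theorem hess_psi (hz : z ∈ X.U a I) (hT : C.pt γ a z ∈ X.T)
    (hb : X.s (C.pt γ a z) ∈ ball X.t₀ F.R₃) : cHess (S.ψ γ a I) z =
      pb (jm (fun w => X.s (C.pt γ a w)) z) (cHess S.ψb (X.s (C.pt γ a z))) := by
  have h4 := Lt.U4 X hz
  have h1 := psi_ev S hz hT hb
  have h2 := Lt.an_ds X h4 hT (eb I)
  have h3 : ContDiffAt ℝ ∞ (fun w => Real.log (‖ds C X.s γ a w (eb I)‖ ^ 2)) z :=
    (((h2.contDiffAt (n := ∞)).restrict_scalars ℝ).norm_sq ℂ).log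
      (pow_pos (norm_pos_iff.2 h1.self_of_nhds.1) 2).ne'
  rw [C2.cHess_congr (h1.mono fun _ k => k.2), C2.cHess_add (two (comp_sm h4 hT (S.bs.ψ_sm _ hb)))
    (two (contDiffAt_const.mul h3)), C2.cHess_const_mul _ (two h3), hess_log h2 h1.self_of_nhds.1,
    smul_zero, add_zero]
  exact hess_comp (X.sub.hol γ a z h4 hT) (two (S.bs.ψ_sm _ hb))

theorem dh_s0 [T2Space E] (hz : z ∈ X.U a I) (hO : C.pt γ a z ∈ S.O) :
    dhL (S.ψ γ a I) (s0 S γ a I) z = 0 := by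
  have h4 := Lt.U4 X hz
  by_cases h : C.pt γ a z ∈ K1 F
  · have hb := R₂₃ (K1_R₂ h)
    rw [P284.H136.K8.dhL_pull (η' := fun t => S.gb t • dt p) (X.sub.hol γ a z h4 h.1)
      ((Lt.an_ds X h4 h.1 (eb I)).pow k) (pow_ne_zero k (psi_ev S hz h.1 hb).self_of_nhds.1)
      ((S.ψ_sm γ a I z hz hO).differentiableAt (by simp))
      ((S.bs.ψ_sm _ hb).differentiableAt (by simp)) (exp_ev S hz h.1 hb)
      (((S.bs.g_sm _ hb).differentiableAt (by simp)).smul_const _)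
      ((sg_ev (k := k) (I := I) h4 h.1).mono fun w hw => by
        ext v
        change _ * sg X k γ a I w v = _ * (_ * dF (fun w => X.s (C.pt γ a w)) w v)
        rw [hw]
        exact mul_left_comm _ _ _), P284.H136.K8.af_zero (dhL _ _ _)]
    ext v
    exact mul_zero _
  · rw [S1.dhL_congr (s0_ev S h4 h)]
    ext v
    simp [dhL, dzV, ContinuousAlternatingMap.alternatizeUncurryFin_apply]

theorem low : ∀ q : ℕ, ∃ K : ℝ, 0 ≤ K ∧ ∀ (j : ℕ) (N e : ℝ) (S : XS F k Pf j N e) γ a,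
    ∀ z ∈ C.B 1 a, ∀ (A : Af n q) (ξ : Fin q → Cm n), ‖ξ‖ ≤ 1 →
      ‖A ξ‖ ^ 2 ≤ K * ((hn (C.om F.A S.κ γ a z) A A).re * (C.om F.A S.κ γ a z).det.re) := by
  intro q
  have h2 : ∀ a, ∃ K : ℝ, 0 ≤ K ∧ ∀ (j : ℕ) (N e : ℝ) (S : XS F k Pf j N e) γ,
      ∀ z ∈ C.B 1 a, ∀ (A : Af n q) (ξ : Fin q → Cm n), ‖ξ‖ ≤ 1 →
        ‖A ξ‖ ^ 2 ≤ K * ((hn (C.om F.A S.κ γ a z) A A).re * (C.om F.A S.κ γ a z).det.re) :=
    fun a => by
      obtain ⟨c, hc, h2⟩ := K.rho_dom (C := C) a (C.isCompact_cB 1 a) (C.cB_sub_B (by norm_num) a)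
        (A := fun _ => 1) continuousOn_const fun _ _ => Matrix.isHermitian_one
      obtain ⟨K, h0, h3⟩ := S3.low_pt n q (one_pos.trans_le hc)
      refine ⟨K, h0, fun j N e S γ z hz A ξ hξ => h3 _ (w_pos S (C.B14 hz)) ?_ A ξ hξ⟩
      have := (psd_smul (S.κ_ge γ a z (C.B14 hz) (mem_univ _)) (zero_le_one.trans hc)).add
        (h2 z (C.B_sub_cB 1 a hz))
      simpa only [Cov.om, Pi.sub_apply, one_mul, add_zero, smul_sub, sub_add_sub_cancel] using this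
  choose K h0 hK using h2
  refine ⟨∑ a, K a, Finset.sum_nonneg fun a _ => h0 a, fun j N e S γ a z hz A ξ hξ =>
    (hK a j N e S γ z hz A ξ hξ).trans (mul_le_mul_of_nonneg_right
      (Finset.single_le_sum (fun a _ => h0 a) (Finset.mem_univ a)) ?_)⟩
  exact mul_nonneg (hn_re (w_pos S (C.B14 hz)) A) (det_re (w_pos S (C.B14 hz))).le

theorem sg_hn (hz : z ∈ X.U a I) (hT : C.pt γ a z ∈ X.T) (hb : X.s (C.pt γ a z) ∈ ball X.t₀ F.R₃)
    (w : Mx n) : Real.exp (-S.ψ γ a I z) * (hn w (sg X k γ a I z) (sg X k γ a I z)).re =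
      Real.exp (-S.ψb (X.s (C.pt γ a z))) *
        (hn w (dF (fun w => X.s (C.pt γ a w)) z) (dF (fun w => X.s (C.pt γ a w)) z)).re := by
  rw [sg, if_pos hT, S1.hn_smul, ← mul_assoc, (exp_ev S hz hT hb).self_of_nhds]

theorem s0_hn (hz : z ∈ X.U a I) (hT : C.pt γ a z ∈ X.T) (hb : X.s (C.pt γ a z) ∈ ball X.t₀ F.R₃)
    (w : Mx n) : Real.exp (-S.ψ γ a I z) * (hn w (s0 S γ a I z) (s0 S γ a I z)).re =
      ‖S.gb (X.s (C.pt γ a z))‖ ^ 2 * Real.exp (-S.ψb (X.s (C.pt γ a z))) *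
        (hn w (dF (fun w => X.s (C.pt γ a w)) z) (dF (fun w => X.s (C.pt γ a w)) z)).re := by
  rw [s0, S1.hn_smul, mul_left_comm, sg_hn S hz hT hb, mul_assoc]

/-- one component of the anti-holomorphic derivative -/
theorem p1 : ∃ K : ℝ, 0 ≤ K ∧ ∀ (j : ℕ) (N e : ℝ) (S : XS F k Pf j N e) γ a, ∀ z ∈ C.B 1 a,
    ∀ y : Cm n → Af n p, DifferentiableAt ℝ y z → ∀ c σ, ‖dzb c (fun w => ev (y w) σ) z‖ ^ 2 ≤
      (C.om F.A S.κ γ a z c c).re * (K * ((Tn (C.om F.A S.κ γ a z) fun b => dbV b y z).re *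
        (C.om F.A S.κ γ a z).det.re)) := by
  obtain ⟨K, h0, hK⟩ := low (F := F) (k := k) (Pf := Pf) p
  refine ⟨K, h0, fun j N e S γ a z hz y hy c σ => ?_⟩
  have hw := w_pos S (γ := γ) (C.B14 hz)
  have h1 : dzb c (fun w => ev (y w) σ) z = dbV c y z (eb σ) := by
    have h2 := fun v => DFunLike.congr_fun ((((ContinuousAlternatingMap.apply ℂ (Cm n) ℂ
      (eb σ)).restrictScalars ℝ).hasFDerivAt (x := y z)).comp z hy.hasFDerivAt).fderiv v
    unfold dzb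
    erw [h2, h2]
    change (fderiv ℝ y z _ (eb σ) + _ * fderiv ℝ y z _ (eb σ)) / 2 =
      _ * (fderiv ℝ y z _ (eb σ) + _ * fderiv ℝ y z _ (eb σ))
    rw [div_eq_inv_mul]
  rw [h1, mul_left_comm, ← mul_assoc (Complex.re _)]
  exact (hK j N e S γ a z hz _ _ ((pi_norm_le_iff_of_nonneg zero_le_one).2 fun j => by
    rw [eb, Pi.norm_single, norm_one])).trans (mul_le_mul_of_nonneg_left
      (mul_le_mul_of_nonneg_right (Alg.tn_cs hw (fun b => dbV b y z) c) (det_re hw).le) h0)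

/-- the product with `ds_c` over the set `G` -/
theorem p2 : ∃ K : ℝ, 0 ≤ K ∧ ∀ (j : ℕ) (N e : ℝ) (S : XS F k Pf j N e), 0 ≤ e → ∀ γ a I,
    ∀ z ∈ C.B 1 a, z ∈ X.U a I → C.pt γ a z ∈ X.T → X.s (C.pt γ a z) ∈ F.G →
    X.s (C.pt γ a z) ∈ ball X.t₀ F.R₂ → ∀ (A : Af n p) c (v : Fin (p + 1) → Cm n), ‖v‖ ≤ 1 →
      ‖wd (tL (fderiv ℂ (fun w => X.s (C.pt γ a w)) z) c) A v‖ ^ 2 ≤
        K * (qe S γ a I z A * (C.om F.A S.κ γ a z).det.re) := by
  obtain ⟨K, h0, hK⟩ := low (F := F) (k := k) (Pf := Pf) (p + 1)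
  have hβ := F.β_pos
  refine ⟨K / F.β, by positivity, fun j N e S he γ a I z hz hI hT hG hb A c v hv => ?_⟩
  have hw := w_pos S (γ := γ) (C.B14 hz)
  have h1 := (pb_psd (jm (fun w => X.s (C.pt γ a w)) z) (S.bs.pos _ hG hb)).add
    (psd_smul hw.posSemidef he)
  rw [← one_smul ℂ (cHess S.ψb _), pb_lin, one_smul, ← hess_psi S hI hT (R₂₃ hb), S1.pb_eq,
    sub_add_eq_add_sub] at h1
  have h2 := (mul_le_mul_of_nonneg_left (Finset.single_le_sum (fun l _ => hn_re hw _)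
    (Finset.mem_univ c)) hβ.le).trans ((hn_lam_le hw h1 A).trans (qe_ge S he hI A))
  refine (hK j N e S γ a z hz _ v hv).trans ?_
  rw [div_mul_eq_mul_div, mul_div_assoc, mul_div_right_comm]
  exact mul_le_mul_of_nonneg_left (mul_le_mul_of_nonneg_right ((le_div_iff₀' hβ).2 h2)
    (det_re hw).le) h0

section succ
variable {r : ℕ} {X : XL C (r + 1)} {F : XF X} {Pf : Cm (r + 1) → ℂ} (S : XS F k Pf j N e)
  {I : Fin (r + 1) → Fin n}

theorem SL_zero [T2Space E] (hz : z ∈ C.B 4 a) (h : C.pt γ a z ∉ K1 F) (w : Cm n → Mx n) :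
    SL w (s0 S γ a I) z = 0 := by
  unfold SL
  rw [funext (S1.dbV_congr (s0_ev S hz h))]
  ext v
  simp [Lam, dbV]

theorem SL_le (he : 0 ≤ e) (hz : z ∈ X.U a I) (h : C.pt γ a z ∈ K1 F) (τ : Af n r) :
    ‖hn (C.om F.A S.κ γ a z) τ (SL (C.om F.A S.κ γ a) (s0 S γ a I) z)‖ ^ 2 ≤
      S.Λ (X.s (C.pt γ a z)) * qe S γ a I z τ *
        (hn (C.om F.A S.κ γ a z) (sg X k γ a I z) (sg X k γ a I z)).re := by
  have h4 := Lt.U4 X hz
  have hw := w_pos S (γ := γ) h4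
  have hb := R₂₃ (K1_R₂ h)
  have h0 := S.bs.Λ_nonneg (X.s (C.pt γ a z))
  have h1 := (pb_psd (jm (fun w => X.s (C.pt γ a w)) z) (S.bs.Λ_psd _ hb)).add
    (psd_smul (psd_smul hw.posSemidef he) h0)
  rw [← one_smul ℂ (bb S.gb _), pb_lin, one_smul, ← hess_psi S hz h.1 hb,
    ← bb_comp (X.sub.hol γ a z h4 h.1).differentiableAt
      ((S.bs.g_sm _ hb).differentiableAt (by simp)), sub_add_eq_add_sub, ← smul_add] at h1
  exact (S1.hn_SL hw ((comp_sm h4 h.1 (S.bs.g_sm _ hb)).differentiableAt (by simp))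
    (sg_an h4 h.1).differentiableAt h1 τ).trans (mul_le_mul_of_nonneg_right
      (mul_le_mul_of_nonneg_left (qe_ge S he hz τ) h0) (hn_re hw _))

end succ

end Vale.Agent.P284Y.X56.Pt
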