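import Vale.Agent.P284Y.X56.Kl
import Vale.Agent.P284Y.X56.Pt

/-!
# P284Y, row X6a, piece A1: the model is a closed test form; the cut-off function
-/

open scoped ContDiff Topology ComplexOrder ComplexConjugate ENNReal
open Filter Set Function Metric MeasureTheory

noncomputable section

namespace Vale.Agent.P284Y.X56

open Vale.Agent.P272.K Vale.Agent.P284.H608.K Vale.Agent.P284Z Vale.Agent.P284Z.J
  Vale.Agent.P284Z.L Vale.Agent.P284Y.X Vale.Agent.P284Y.X4 Vale.Agent.P284Z.L.S3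

section
variable {n p k j : ℕ} {Γ E : Type} [Group Γ] [TopologicalSpace E] [MulAction Γ E] {C : Cov n Γ E}
  {X : XL C p} {F : XF X} {Pf : Cm p → ℂ} {N e : ℝ} {z : Cm n} [MeasurableSpace E] [BorelSpace E]
  {S : XS F k Pf j N e} {P : Pre C S.O} {i : (KL S P).I}

theorem s0_in (hz : z ∈ ((KL S P).e i).target) : s0 S P i z = Pt.s0 S i.1 i.2.1 i.2.2 z := by
  rw [s0, sK_in hz, Pt.s0]

theorem s0_near (hz : z ∈ ((KL S P).e i).target) :
    s0 S P i =ᶠ[𝓝 z] Pt.s0 S i.1 i.2.1 i.2.2 :=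
  mem_of_superset (((KL S P).e i).open_target.mem_nhds hz) fun _ h => s0_in h

theorem pt_e {x : S.O} (hx : x ∈ ((KL S P).e i).source) :
    C.pt i.1 i.2.1 ((KL S P).e i x) = x := C.pt_co hx.1

theorem s0_form : (KL S P).IsForm (s0 S P) where
  off i z hz := by
    rw [s0, (sK_form S P).off i z hz]
    ext v
    exact mul_zero _
  change i l x hi hl := by
    rw [s0, s0, pt_e hi, pt_e hl, (sK_form S P).change i l x hi hl]
    ext v
    exact mul_left_comm _ _ _

theorem s0_ne {x : S.O} (hx : x ∈ ((KL S P).e i).source) (h : s0 S P i ((KL S P).e i x) ≠ 0) :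
    x.1 ∈ Pt.K1 F ∧ S.χ x = 1 := by
  rw [s0_in (((KL S P).e i).map_source hx)] at h
  rw [← pt_e hx]
  exact ⟨not_not.1 fun k => h (Pt.s0_zero S k), Pt.chi_one S h⟩

end

/-- **A1** -/
theorem stA1 : StA1 := by
  intro n p k Γ E _ _ _ _ _ _ C X F Pf j N e S P hP he
  obtain ⟨L, l1, l2, l3⟩ := S.χ_supp
  have hc : Continuous S.χ := continuous_iff_continuousAt.2 fun y => JGx.sm_cont (S.χ_sm y)
  have ev := fun (i : (KL S P).I) z (hz : z ∈ ((KL S P).e i).target) =>
    ev_symm (hO := P.hO) (y₀ := P.y₀) (i := (i.1, i.2.1)) hz.1 S.χ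
  refine ⟨⟨s0_form, fun i z hz => (Pt.s0_sm S hz.1.1).congr_of_eventuallyEq (s0_near hz),
    Subtype.val ⁻¹' (Pt.K1 F ∩ {y | S.χ y = 1}), Topology.IsInducing.subtypeVal.isCompact_preimage'
      (Pt.K1_cpt.inter_right (isClosed_eq hc continuous_const)) fun y hy => ?_,
    fun i x hx h => not_not.1 fun k => h (s0_ne hx k)⟩, funext fun i => funext fun z => ?_,
    fun i x hx h => not_not.1 fun k => h (s0_ne hx k).2,
    fun i z hz => (S.χ_sm _ _ _ z hz.1.1 rfl).congr_of_eventuallyEq (ev i z hz),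
    fun x => abs_le.2 ⟨neg_one_lt_zero.le.trans (S.χ_nonneg _), S.χ_le _⟩,
    ⟨Subtype.val ⁻¹' L, Topology.IsInducing.subtypeVal.isCompact_preimage' l1
      (Subtype.range_coe.symm ▸ l2), fun x hx => l3 _ hx⟩, fun x => ?_⟩
  · rw [Subtype.range_coe]
    exact l2 (not_not.1 fun k => one_ne_zero (hy.2.symm.trans (l3 y k)))
  · unfold KA.dh
    split_ifs with hz
    · exact (S1.dhL_congr (s0_near hz)).trans (Pt.dh_s0 S hz.2 hz.1.2)
    · rfl
  · obtain ⟨i, hi⟩ := (KL S P).cover x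
    have hz := ((KL S P).e i).map_source hi
    refine ⟨i, hi, (P284.H419.K.mn_le ((KL S P).wpos i _ hz) _ ?_).trans_eq (abs_of_nonneg he)⟩
    have h1 := S.χ_grad i.1 i.2.1 _ hz.1.1 (mem_univ _)
    rw [← hP] at h1
    have h2 : P284.H419.K.fc (KL S P) (fun x => S.χ x) i =ᶠ[𝓝 ((KL S P).e i x)]
        fun w => (S.χ (C.pt i.1 i.2.1 w) : ℂ) := (ev i _ hz).mono fun _ k => congrArg _ k
    refine (congrArg (fun A => Matrix.PosSemidef ((e : ℂ) • (KL S P).w i ((KL S P).e i x) - A))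
      (a₁ := C.gg S.χ S.χ i.1 i.2.1 ((KL S P).e i x)) ?_).mp h1
    ext a b
    simp only [INT.dz_congr h2, Cov.gg, P284.H650.gg, P284.H650.rk1, P284.H650.dzv,
      P284.H650.dzbv, AMP.dzb_real_eq, Matrix.of_apply]

end Vale.Agent.P284Y.X56
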