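import Mathlib.MeasureTheory.Function.Jacobian
import Mathlib.MeasureTheory.Measure.Haar.Unique
import Mathlib.MeasureTheory.Measure.Haar.Disintegration
import Mathlib.Analysis.Calculus.InverseFunctionTheorem.ContDiff

/-!
# The image of the volume under a submersion
-/

open scoped Topology ENNReal
open Filter Set Function Metric MeasureTheory MeasureTheory.Measure

namespace Vale.Agent.P284Y.X56.Pf

variable {E F : Type} [NormedAddCommGroup E] [NormedSpace ℝ E] [FiniteDimensional ℝ E]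
  [MeasurableSpace E] [BorelSpace E] [NormedAddCommGroup F] [NormedSpace ℝ F]
  [FiniteDimensional ℝ F] [MeasurableSpace F] [BorelSpace F] (μ : Measure E) (ν : Measure F)
  [IsAddHaarMeasure μ] [IsAddHaarMeasure ν]

/-- the linear case -/
theorem lin (L : E →L[ℝ] F) (R : F →L[ℝ] E) (hR : RightInverse R L) :
    (∀ r : ℝ, ∃ V < (⊤ : ℝ≥0∞), ∀ g : F → ℝ≥0∞, Measurable g →
      ∫⁻ v in ball 0 r, g (L v) ∂μ ≤ V * ∫⁻ t, g t ∂ν) ∧
    ∀ (v₀ : E) (G : Set F), (∀ r > 0, 0 < ν (G ∩ ball (L v₀) r)) →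
      ∀ W ∈ 𝓝 v₀, 0 < μ {v ∈ W | L v ∈ G} := by
  let e := ContinuousLinearEquiv.equivOfRightInverse L R hR
  have he : ∀ v, (e v).1 = L v := fun v => rfl
  let κ : Measure L.ker := addHaar
  obtain ⟨c, hc0, hc⟩ : ∃ c : NNReal, 0 < c ∧ μ.map e = c • ν.prod κ :=
    ⟨_, addHaarScalarFactor_pos_of_isAddHaarMeasure (μ.map e) (ν.prod κ),
      isAddLeftInvariant_eq_smul _ _⟩
  refine ⟨fun r => ⟨c * κ (closedBall 0 (‖(e : E →L[ℝ] F × L.ker)‖ * r)),
    ENNReal.mul_lt_top ENNReal.coe_lt_top measure_closedBall_lt_top, fun g hg => ?_⟩,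
    fun v₀ G hG W hW => ?_⟩
  · set B : Set L.ker := closedBall 0 (‖(e : E →L[ℝ] F × L.ker)‖ * r) with hB
    have h1 : ball (0 : E) r ⊆ e ⁻¹' (univ ×ˢ B) := fun v hv => by
      refine ⟨mem_univ _, mem_closedBall_zero_iff.2 ((norm_snd_le _).trans ?_)⟩
      exact ((e : E →L[ℝ] F × L.ker).le_opNorm v).trans
        (mul_le_mul_of_nonneg_left (mem_ball_zero_iff.1 hv).le (norm_nonneg _))
    refine (lintegral_mono_set h1).trans (le_of_eq ?_)
    have h2 := setLIntegral_map (μ := μ) (f := fun x : F × L.ker => g x.1) (g := e)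
      (MeasurableSet.univ.prod (measurableSet_closedBall : MeasurableSet B))
      (hg.comp measurable_fst) e.continuous.measurable
    simp only [he] at h2
    rw [← h2, hc, Measure.restrict_smul, lintegral_smul_measure, ← prod_restrict, restrict_univ,
      lintegral_prod (fun x : F × L.ker => g x.1) (hg.comp measurable_fst).aemeasurable]
    simp only [lintegral_const, restrict_apply_univ]
    rw [lintegral_mul_const _ hg, ENNReal.smul_def, smul_eq_mul, mul_assoc, mul_comm (κ B), hB]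
  · have h1 : e.symm ⁻¹' W ∈ 𝓝 (e v₀) :=
      e.symm.continuous.continuousAt.preimage_mem_nhds (by rwa [e.symm_apply_apply])
    obtain ⟨r, hr, h2⟩ := Metric.mem_nhds_iff.1 h1
    have h3 : e ⁻¹' ((G ∩ ball (L v₀) r) ×ˢ ball (e v₀).2 r) ⊆ {v ∈ W | L v ∈ G} := by
      rintro v ⟨⟨a1, a2⟩, a3⟩
      refine ⟨?_, a1⟩
      have a4 := h2 (show e v ∈ ball (e v₀) r by
        rw [← ball_prod_same]
        exact ⟨a2, a3⟩)
      rwa [mem_preimage, e.symm_apply_apply] at a4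
    refine lt_of_lt_of_le ?_ (measure_mono h3)
    have h4 := e.toHomeomorph.toMeasurableEquiv.map_apply (μ := μ)
      ((G ∩ ball (L v₀) r) ×ˢ ball (e v₀).2 r)
    refine lt_of_lt_of_le ?_ (le_of_eq h4)
    change 0 < μ.map e _
    rw [hc, Measure.smul_apply, prod_prod, ENNReal.smul_def, smul_eq_mul]
    exact ENNReal.mul_pos (ENNReal.coe_pos.2 hc0).ne'
      (ENNReal.mul_pos (hG r hr).ne' (measure_ball_pos κ _ hr).ne').ne'

/-- the local statement -/
theorem loc {b : E → F} {z₀ : E} (hb : ContDiffAt ℝ 1 b z₀) (hs : Surjective (fderiv ℝ b z₀)) :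
    (∃ U ∈ 𝓝 z₀, ∃ V < (⊤ : ℝ≥0∞), ∀ g : F → ℝ≥0∞, Measurable g →
      ∫⁻ z in U, g (b z) ∂μ ≤ V * ∫⁻ t, g t ∂ν) ∧
    ∀ G : Set F, (∀ r > 0, 0 < ν (G ∩ ball (b z₀) r)) →
      ∀ W ∈ 𝓝 z₀, 0 < μ {z ∈ W | b z ∈ G} := by
  set L := fderiv ℝ b z₀ with hL
  obtain ⟨R₀, hR⟩ := (L : E →ₗ[ℝ] F).exists_rightInverse_of_surjective
    (LinearMap.range_eq_top.2 hs)
  let R := R₀.toContinuousLinearMap
  have hR' : RightInverse R L := fun t => LinearMap.congr_fun hR t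
  let Θ : E → E := fun w => w + R (b w - L w)
  have hΘ : ∀ w, L (Θ w) = b w := fun w => by
    simp only [Θ, map_add, hR' _, add_sub_cancel]
  have c1 : ContDiffAt ℝ 1 Θ z₀ :=
    contDiffAt_id.add (R.contDiff.contDiffAt.comp z₀ (hb.sub L.contDiff.contDiffAt))
  have c2 : HasFDerivAt Θ (ContinuousLinearEquiv.refl ℝ E : E →L[ℝ] E) z₀ := by
    have c0 := (hasFDerivAt_id z₀).add (R.hasFDerivAt.comp z₀
      ((hb.differentiableAt one_ne_zero).hasFDerivAt.sub L.hasFDerivAt))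
    rw [← hL, sub_self, ContinuousLinearMap.comp_zero, add_zero] at c0
    exact c0
  have c3 := c1.hasStrictFDerivAt' c2 one_ne_zero
  have c4 : ∀ᶠ z in 𝓝 z₀, DifferentiableAt ℝ Θ z :=
    (c1.eventually (by simp)).mono fun z hz => hz.differentiableAt one_ne_zero
  obtain ⟨l1, l2⟩ := lin μ ν L R hR'
  constructor
  · have c5 : ∀ᶠ z in 𝓝 z₀, 1 / 2 < (fderiv ℝ Θ z).det := by
      refine (ContinuousLinearMap.continuous_det.continuousAt.comp
        (c1.continuousAt_fderiv one_ne_zero)).eventually (lt_mem_nhds ?_)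
      change 1 / 2 < (fderiv ℝ Θ z₀).det
      rw [c2.fderiv]
      change 1 / 2 < LinearMap.det (LinearMap.id : E →ₗ[ℝ] E)
      rw [LinearMap.det_id]
      norm_num
    have c6 : ∀ᶠ z in 𝓝 z₀, Θ z ∈ ball (0 : E) (‖Θ z₀‖ + 1) :=
      c1.continuousAt.eventually (isOpen_ball.mem_nhds (mem_ball_zero_iff.2 (lt_add_one _)))
    obtain ⟨U, hU, hUo, hz⟩ := _root_.mem_nhds_iff.1 (c4.and (c5.and (c6.and
      ((c3.toOpenPartialHomeomorph Θ).open_source.mem_nhds c3.mem_toOpenPartialHomeomorph_source))))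
    obtain ⟨V, hV, h1⟩ := l1 (‖Θ z₀‖ + 1)
    refine ⟨U, hUo.mem_nhds hz, 2 * V, ENNReal.mul_lt_top (by simp) hV, fun g hg => ?_⟩
    have h2 := lintegral_image_eq_lintegral_abs_det_fderiv_mul μ hUo.measurableSet
      (fun z hz => (hU hz).1.hasFDerivAt.hasFDerivWithinAt)
      ((c3.toOpenPartialHomeomorph Θ).injOn.mono fun z hz => (hU hz).2.2.2) fun v => g (L v)
    have h3 : Θ '' U ⊆ ball 0 (‖Θ z₀‖ + 1) := image_subset_iff.2 fun z hz => (hU hz).2.2.1
    rw [mul_assoc]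
    refine le_trans ?_ (mul_le_mul_right ((lintegral_mono_set h3).trans (h1 g hg)) 2)
    rw [h2, ← lintegral_const_mul' _ _ (by simp)]
    refine setLIntegral_mono' hUo.measurableSet fun z hz => ?_
    rw [hΘ, ← mul_assoc]
    refine le_mul_of_one_le_left' ?_
    have h4 : (1 : ℝ) ≤ 2 * |(fderiv ℝ Θ z).det| := by
      linarith [(hU hz).2.1, le_abs_self (fderiv ℝ Θ z).det]
    have h5 := ENNReal.ofReal_le_ofReal h4
    rwa [ENNReal.ofReal_one, ENNReal.ofReal_mul zero_le_two, ENNReal.ofReal_ofNat] at h5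
  · intro G hG W hW
    refine pos_iff_ne_zero.2 fun h0 => ?_
    have h1 : Θ '' (W ∩ {z | DifferentiableAt ℝ Θ z}) ∈ 𝓝 (Θ z₀) := by
      rw [← c3.map_nhds_eq_of_equiv]
      exact image_mem_map (inter_mem hW c4)
    refine (l2 (Θ z₀) G (by rwa [hΘ]) _ h1).ne' (measure_mono_null ?_
      (addHaar_image_eq_zero_of_differentiableOn_of_addHaar_eq_zero μ (f := Θ)
        (s := {z ∈ W | b z ∈ G} ∩ {z | DifferentiableAt ℝ Θ z})
        (fun z hz => hz.2.differentiableWithinAt) (measure_mono_null inter_subset_left h0)))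
    rintro _ ⟨⟨z, hz, rfl⟩, h2⟩
    exact ⟨z, ⟨⟨hz.1, hΘ z ▸ h2⟩, hz.2⟩, rfl⟩

/-- the upper bound on a compact set -/
theorem cpt {b : E → F} {K : Set E} (hK : IsCompact K)
    (h : ∀ z ∈ K, ContDiffAt ℝ 1 b z ∧ Surjective (fderiv ℝ b z)) :
    ∃ V < (⊤ : ℝ≥0∞), ∀ g : F → ℝ≥0∞, Measurable g →
      ∫⁻ z in K, g (b z) ∂μ ≤ V * ∫⁻ t, g t ∂ν := by
  refine hK.induction_on (p := fun S => ∃ V < (⊤ : ℝ≥0∞), ∀ g : F → ℝ≥0∞, Measurable g →
      ∫⁻ z in S, g (b z) ∂μ ≤ V * ∫⁻ t, g t ∂ν) ⟨0, by simp, fun g _ => by simp⟩ ?_ ?_ ?_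
  · rintro S T hST ⟨V, hV, H⟩
    exact ⟨V, hV, fun g hg => (lintegral_mono_set hST).trans (H g hg)⟩
  · rintro S T ⟨V, hV, H⟩ ⟨V', hV', H'⟩
    refine ⟨V + V', ENNReal.add_lt_top.2 ⟨hV, hV'⟩, fun g hg => ?_⟩
    rw [add_mul]
    exact (lintegral_union_le _ _ _).trans (add_le_add (H g hg) (H' g hg))
  · intro z hz
    obtain ⟨U, hU, H⟩ := (loc μ ν (h z hz).1 (h z hz).2).1
    exact ⟨U, nhdsWithin_le_nhds hU, H⟩

end Vale.Agent.P284Y.X56.Pf
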