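import Vale.Agent.P284Y.X56.Defs
import Vale.Agent.P284Y.X56.Pf0

/-!
# P284Y, row PF
-/

open Function MeasureTheory

namespace Vale.Agent.P284Y.X56

open Vale.Agent.P272.K

theorem Pf.real {n p : ℕ} {b : Cm n → Cm p} {z : Cm n} (h : AnalyticAt ℂ b z)
    (hs : Surjective (fderiv ℂ b z)) : ContDiffAt ℝ 1 b z ∧ Surjective (fderiv ℝ b z) := by
  refine ⟨h.contDiffAt.restrict_scalars ℝ, ?_⟩
  rw [h.differentiableAt.fderiv_restrictScalars ℝ]
  exact hs

/-- **PF** -/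
theorem pfSt : PfSt := fun _ _ _ =>
  ⟨fun _ hK h => Pf.cpt volume volume hK fun z hz => Pf.real (h z hz).1 (h z hz).2,
    fun _ h hs => (Pf.loc volume volume (Pf.real h hs).1 (Pf.real h hs).2).2⟩

end Vale.Agent.P284Y.X56
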