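import Vale.Agent.P284Y.X56.Alg
import Vale.Agent.P284Y.X56.Pf
import Vale.Agent.P284Y.X4.Defs
import Vale.Agent.P284Z.J.JB
import Vale.Agent.P284Z.J.G0

/-!
# P284Y, row X6: integrals over the closed tube, with bounds which do not depend on the stage
-/

open scoped ContDiff Topology ComplexOrder ComplexConjugate ENNReal Matrix
open Filter Set Function Metric MeasureTheory

noncomputable section

namespace Vale.Agent.P284Y.X56.Tub

open Vale.Agent.P272.K Vale.Agent.P284.H608.K Vale.Agent.P284Z Vale.Agent.P284Z.J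
  Vale.Agent.P284Z.L Vale.Agent.P284Y.X Vale.Agent.P284Y.X4

variable {n p : ℕ} {Γ E : Type} [Group Γ] [TopologicalSpace E] [MulAction Γ E] {C : Cov n Γ E}
  {X : XL C p} {r : ℝ}

/-- the piece of the closed tube of radius `r` in a chart -/
def tc (X : XL C p) (r : ℝ) (γ : Γ) (a : C.I) : Set (Cm n) :=
  {z ∈ C.cB 1 a | C.pt γ a z ∈ X.T ∧ ‖X.s (C.pt γ a z) - X.t₀‖ ≤ r}

theorem tc_B4 {γ : Γ} {a : C.I} {z : Cm n} (h : z ∈ tc X r γ a) : z ∈ C.B 4 a :=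
  C.cB_sub_B (by norm_num) a h.1

theorem tc_an {γ : Γ} {a : C.I} {z : Cm n} (h : z ∈ tc X r γ a) :
    AnalyticAt ℂ (fun w => X.s (C.pt γ a w)) z := X.sub.hol γ a z (tc_B4 h) h.2.1

theorem tc_cpt [T2Space E] (hr : r < X.R) (γ : Γ) (a : C.I) : IsCompact (tc X r γ a) :=
  (C.isCompact_cB 1 a).of_isClosed_subset
    (((C.continuousOn_pt γ a).mono (C.cB_sub_B (by norm_num) a)).preimage_isClosed_of_isClosed
      (C.isCompact_cB 1 a).isClosed (X.cpt r hr).isClosed) fun _ h => h.1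

theorem tc_fin (hr : r < X.R) : ∃ S : Finset Γ, ∀ γ ∉ S, ∀ a, tc X r γ a = ∅ := by
  obtain ⟨S, hS⟩ := JGx.fin_sheets C (X.cpt r hr)
  exact ⟨S, fun γ hγ a => eq_empty_of_forall_notMem fun z hz =>
    hS _ hz.2 γ hγ a ⟨z, hz.1, rfl⟩⟩

/-- a uniform bound from a bound in each chart -/
theorem unif (hr : r < X.R) {P : Γ → C.I → Cm n → ℝ → Prop}
    (hm : ∀ γ a z c c', c ≤ c' → P γ a z c → P γ a z c')
    (h : ∀ γ a, ∃ c, ∀ z ∈ tc X r γ a, P γ a z c) :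
    ∃ c, 0 ≤ c ∧ ∀ γ a, ∀ z ∈ tc X r γ a, P γ a z c := by
  obtain ⟨S, hS⟩ := tc_fin hr
  choose c hc using h
  refine ⟨∑ γ ∈ S, ∑ a, |c γ a|, by positivity, fun γ a z hz => hm _ _ _ _ _ ?_ (hc γ a z hz)⟩
  have hγ : γ ∈ S := by
    by_contra h
    rw [hS γ h a] at hz
    exact hz
  exact (le_abs_self _).trans ((Finset.single_le_sum (f := fun a => |c γ a|)
    (fun _ _ => abs_nonneg _) (Finset.mem_univ a)).trans
    (Finset.single_le_sum (f := fun γ => ∑ a, |c γ a|) (fun _ _ => by positivity) hγ))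

/-- the image of the volume of the tube -/
theorem pf_vol [T2Space E] (hr : r < X.R) : ∃ V < (⊤ : ℝ≥0∞), ∀ g : Cm p → ℝ≥0∞, Measurable g →
    ∑' γ : Γ, ∑ a, ∫⁻ z in tc X r γ a, g (X.s (C.pt γ a z)) ≤ V * ∫⁻ t, g t := by
  obtain ⟨S, hS⟩ := tc_fin hr
  choose V hV h using fun γ a => (pfSt n p fun w => X.s (C.pt γ a w)).1 _ (tc_cpt hr γ a)
    fun z hz => ⟨tc_an hz, X.sub.surj γ a z (tc_B4 hz) hz.2.1⟩
  refine ⟨∑ γ ∈ S, ∑ a, V γ a, ENNReal.sum_lt_top.2 fun _ _ => ENNReal.sum_lt_top.2 fun _ _ =>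
    hV _ _, fun g hg => ?_⟩
  rw [tsum_eq_sum (s := S) fun γ hγ => by simp [hS γ hγ], Finset.sum_mul]
  refine Finset.sum_le_sum fun γ _ => ?_
  rw [Finset.sum_mul]
  exact Finset.sum_le_sum fun a _ => h γ a g hg

/-- `ds` is bounded on the closed tube -/
theorem ds_bd [T2Space E] (hr : r < X.R) : ∃ c, 0 ≤ c ∧ ∀ γ a, ∀ z ∈ tc X r γ a,
    ∀ v : Fin p → Cm n, ‖v‖ ≤ 1 → ‖ds C X.s γ a z v‖ ≤ c := by
  refine unif hr (fun _ _ _ _ _ h h' v hv => (h' v hv).trans h) fun γ a => ?_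
  obtain ⟨c, hc⟩ := (tc_cpt hr γ a).exists_bound_of_continuousOn
    (f := dF fun w => X.s (C.pt γ a w))
    fun z hz => (S1.dF_an (tc_an hz)).continuousAt.continuousWithinAt
  refine ⟨c, fun z hz v hv => ?_⟩
  rw [ds, ← dF_apply]
  refine (ContinuousAlternatingMap.le_opNorm _ _).trans ((mul_le_of_le_one_right (norm_nonneg _)
    (Finset.prod_le_one (fun _ _ => norm_nonneg _) fun i _ => (norm_le_pi_norm v i).trans hv)
    ).trans (hc z hz))

/-- the metric of a stage in the tube -/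
theorem om_tube {F : XF X} {k : ℕ} {Pf : Cm p → ℂ} {j : ℕ} {N e : ℝ} (S : XS F k Pf j N e)
    {γ : Γ} {a : C.I} {z : Cm n} (hz : z ∈ C.B 4 a) (hT : C.pt γ a z ∈ X.T)
    (hs : X.s (C.pt γ a z) ∈ ball X.t₀ F.R₃) : ∃ H : Mx p, H.IsHermitian ∧
      C.om F.A S.κ γ a z = (F.A : ℂ) • cHess (C.ρ a) z + pb (jm (fun w => X.s (C.pt γ a w)) z) H := by
  obtain ⟨κb, h1, h2⟩ := S.κ_tube
  have ha := X.sub.hol γ a z hz hT
  have h3 : ContDiffAt ℝ 2 κb (X.s (C.pt γ a z)) := (h1 _ hs).of_le two_le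
  have h4 : (fun w => S.κ (C.pt γ a w)) =ᶠ[𝓝 z] fun w => κb (X.s (C.pt γ a w)) := by
    filter_upwards [(C.continuousAt_pt hz γ).eventually_mem (X.sub.opn.mem_nhds hT),
      ha.continuousAt.eventually_mem (isOpen_ball.mem_nhds hs)] with w k1 k2
    exact h2 _ k1 k2
  have h5 : ContDiffAt ℝ 2 (C.ρ a) z := (C.ρ_sm a z hz).of_le two_le
  refine ⟨cHess κb (X.s (C.pt γ a z)), cHess_isHermitian h3, ?_⟩
  rw [Cov.om, C2.cHess_add (contDiffAt_const.mul h5) ((S.κ_sm _ γ a z hz rfl).of_le two_le),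
    C2.cHess_const_mul _ h5, C2.cHess_congr h4, jb.hess_comp n p _ κb z ha h3]

theorem om_pos {F : XF X} {k : ℕ} {Pf : Cm p → ℂ} {j : ℕ} {N e : ℝ} (S : XS F k Pf j N e)
    (γ : Γ) {a : C.I} {z : Cm n} (hz : z ∈ C.B 4 a) : (C.om F.A S.κ γ a z).PosDef := by
  have h3 := (C.ρ_pos a z hz).add_posSemidef (S.κ_ge γ a z hz trivial)
  simpa only [Cov.om, Pi.sub_apply, one_mul, add_zero, add_sub_cancel] using h3

/-- `|ds|² dV` is bounded on the closed tube, for the metrics of all the stages -/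
theorem pf_bd [T2Space E] (F : XF X) (hr : r < F.R₃) : ∃ c, 0 ≤ c ∧ ∀ γ a, ∀ z ∈ tc X r γ a,
    ∀ (k : ℕ) (Pf : Cm p → ℂ) (j : ℕ) (N e : ℝ) (S : XS F k Pf j N e),
      (hn (C.om F.A S.κ γ a z) (dF (fun w => X.s (C.pt γ a w)) z)
        (dF (fun w => X.s (C.pt γ a w)) z)).re * (C.om F.A S.κ γ a z).det.re ≤ c := by
  have hr' := hr.trans F.R₃_lt
  refine unif hr' (fun _ _ _ _ _ h h' k Pf j N e S => (h' k Pf j N e S).trans h) fun γ a => ?_
  have hp : ∀ z ∈ tc X r γ a, (((|F.A| + 1 : ℝ) : ℂ) • cHess (C.ρ a) z).PosDef := fun z hz =>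
    (C.ρ_pos a z (tc_B4 hz)).smul (Complex.zero_lt_real.2 (by positivity))
  have hc : ∀ z ∈ tc X r γ a,
      ContinuousAt (fun z => ((|F.A| + 1 : ℝ) : ℂ) • cHess (C.ρ a) z) z := fun z hz =>
    (K.cont_cHess (C.ρ_sm a z (tc_B4 hz))).const_smul ((|F.A| + 1 : ℝ) : ℂ)
  obtain ⟨c, h⟩ := (tc_cpt hr' γ a).exists_bound_of_continuousOn
    (f := fun z => (hn (((|F.A| + 1 : ℝ) : ℂ) • cHess (C.ρ a) z) (dF (fun w => X.s (C.pt γ a w)) z)
      (dF (fun w => X.s (C.pt γ a w)) z)).re * (((|F.A| + 1 : ℝ) : ℂ) • cHess (C.ρ a) z).det.re)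
    fun z hz => ((S3.cont_hn (hc z hz) (hp z hz) (tc_an hz)).mul
      (S3.cont_det (hc z hz))).continuousWithinAt
  refine ⟨c, fun z hz k Pf j N e S => ?_⟩
  obtain ⟨H, h1, h2⟩ := om_tube S (tc_B4 hz) hz.2.1 (mem_ball_iff_norm.2 (hz.2.2.trans_lt hr))
  have h3 := om_pos S γ (tc_B4 hz)
  rw [h2] at h3 ⊢
  exact (Alg.pf_pb (C.ρ_pos a z (tc_B4 hz)) F.A h1 _ z h3).trans ((le_abs_self _).trans (h z hz))

/-- a lower bound of the weight with a pole -/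
theorem pw_ge (n : ℕ) (t₀ : Cm p) (R : ℝ) : ∃ c > (0 : ℝ), ∀ j, ∀ t ∈ ball t₀ R,
    c ≤ pw n t₀ j t := by
  refine ⟨((p * R ^ 2 + 1) ^ (n + 2))⁻¹, by positivity, fun j t ht => ?_⟩
  have h1 : nsq (t - t₀) ≤ p * R ^ 2 := by
    have := Finset.sum_le_card_nsmul Finset.univ (fun b => ‖(t - t₀) b‖ ^ 2) (R ^ 2) fun b _ =>
      pow_le_pow_left₀ (norm_nonneg _) ((norm_le_pi_norm _ b).trans (mem_ball_iff_norm.1 ht).le) 2
    simpa [nsq] using this
  have h2 : 0 ≤ nsq (t - t₀) := Finset.sum_nonneg fun _ _ => sq_nonneg _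
  have h3 : (1 : ℝ) / (j + 1) ≤ 1 := by
    rw [div_le_one (by positivity)]
    linarith [Nat.cast_nonneg (α := ℝ) j]
  exact inv_anti₀ (by positivity) (pow_le_pow_left₀ (by positivity) (by linarith) _)

/-- the cut-off of `Pf` is dominated by an integrable function which does not depend on the stage -/
theorem g_le (F : XF X) {Pf : Cm p → ℂ} (hP : Continuous Pf) : ∃ m : Cm p → ℝ≥0∞, Measurable m ∧
    ∫⁻ t, m t < ⊤ ∧ ∀ j N ψ g Λ, BS F Pf j N ψ g Λ → ∀ t, ‖g t‖ₑ ^ 2 ≤ m t := by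
  obtain ⟨c, hc, h1⟩ := pw_ge n X.t₀ F.R₂
  obtain ⟨M, hM⟩ := (isCompact_closedBall X.t₀ F.R₂).exists_bound_of_continuousOn hP.continuousOn
  refine ⟨(ball X.t₀ F.R₂).indicator fun t =>
    ENNReal.ofReal (2 / c) * F.maj t + ENNReal.ofReal (2 * M ^ 2),
    ((F.maj_meas.const_mul _).add_const _).indicator measurableSet_ball, ?_,
    fun j N ψ g Λ h t => ?_⟩
  · rw [lintegral_indicator measurableSet_ball, lintegral_add_right _ measurable_const,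
      lintegral_const_mul _ F.maj_meas, setLIntegral_const]
    exact ENNReal.add_lt_top.2 ⟨ENNReal.mul_lt_top ENNReal.ofReal_lt_top F.maj_int,
      ENNReal.mul_lt_top ENNReal.ofReal_lt_top measure_ball_lt_top⟩
  · by_cases ht : t ∈ ball X.t₀ F.R₂
    · rw [indicator_of_mem ht, ← ofReal_norm, ← ENNReal.ofReal_pow (norm_nonneg _)]
      refine le_trans ?_ (add_le_add_left (mul_le_mul_right (h.jet t ht) _) _)
      have h2 := h1 j t ht
      have h3 := hM t (ball_subset_closedBall ht)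
      have h4 : ‖g t‖ ≤ ‖g t - Pf t‖ + ‖Pf t‖ := norm_le_norm_sub_add _ _
      rw [← ENNReal.ofReal_mul (by positivity), ← ENNReal.ofReal_add
        (mul_nonneg (by positivity) (mul_nonneg (sq_nonneg _) (hc.le.trans h2))) (by positivity)]
      refine ENNReal.ofReal_le_ofReal ?_
      have h5 : 2 * ‖g t - Pf t‖ ^ 2 ≤ 2 / c * (‖g t - Pf t‖ ^ 2 * pw n X.t₀ j t) := by
        rw [div_mul_eq_mul_div, le_div_iff₀ hc, mul_assoc]
        gcongr
      have h6 := pow_le_pow_left₀ (norm_nonneg _) (h4.trans (add_le_add_right h3 _)) 2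
      nlinarith [sq_nonneg (‖g t - Pf t‖ - M)]
    · rw [(h.supp t (F.R₁_lt.le.trans (not_lt.1 fun k => ht (mem_ball_iff_norm.2 k)))).1]
      simp

/-- the cut-off of `Pf` is bounded in `L²` of the tube -/
theorem g_l2 [T2Space E] (F : XF X) {Pf : Cm p → ℂ} (hP : Continuous Pf) (hr : r < X.R) :
    ∃ B < (⊤ : ℝ≥0∞), ∀ j N ψ g Λ, BS F Pf j N ψ g Λ →
      ∑' γ : Γ, ∑ a, ∫⁻ z in tc X r γ a, ‖g (X.s (C.pt γ a z))‖ₑ ^ 2 ≤ B := by
  obtain ⟨m, h1, h2, h3⟩ := g_le F hP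
  obtain ⟨V, hV, h4⟩ := pf_vol hr
  exact ⟨V * ∫⁻ t, m t, ENNReal.mul_lt_top hV h2, fun j N ψ g Λ h =>
    (ENNReal.tsum_le_tsum fun γ => Finset.sum_le_sum fun a _ =>
      lintegral_mono fun z => h3 j N ψ g Λ h _).trans (h4 m h1)⟩

/-- the majorant is integrable on the tube for `|ds|² dV`, for the metrics of all the stages -/
theorem maj_int [T2Space E] (F : XF X) (hr : r < F.R₂) : ∃ B < (⊤ : ℝ≥0∞),
    (∑' γ : Γ, ∑ a, ∫⁻ z in tc X r γ a, F.maj (X.s (C.pt γ a z)) ≤ B) ∧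
    ∀ (k : ℕ) (Pf : Cm p → ℂ) (j : ℕ) (N e : ℝ) (S : XS F k Pf j N e),
      ∑' γ : Γ, ∑ a, ∫⁻ z in tc X r γ a, F.maj (X.s (C.pt γ a z)) * ENNReal.ofReal
        ((hn (C.om F.A S.κ γ a z) (dF (fun w => X.s (C.pt γ a w)) z)
          (dF (fun w => X.s (C.pt γ a w)) z)).re * (C.om F.A S.κ γ a z).det.re) ≤ B := by
  have h3 := hr.trans F.R₂_lt
  have h4 := h3.trans F.R₃_lt
  obtain ⟨V, hV, h1⟩ := pf_vol h4
  obtain ⟨c, -, h2⟩ := pf_bd F h3
  have h5 := h1 _ (F.maj_meas.indicator (measurableSet_ball (x := X.t₀) (ε := F.R₂)))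
  rw [lintegral_indicator measurableSet_ball] at h5
  have h6 : ∑' γ : Γ, ∑ a, ∫⁻ z in tc X r γ a, F.maj (X.s (C.pt γ a z)) ≤
      V * ∫⁻ t in ball X.t₀ F.R₂, F.maj t := by
    refine le_trans (ENNReal.tsum_le_tsum fun γ => Finset.sum_le_sum fun a _ => ?_) h5
    exact setLIntegral_mono' (tc_cpt h4 γ a).measurableSet fun z hz =>
      (indicator_of_mem (mem_ball_iff_norm.2 (hz.2.2.trans_lt hr)) F.maj).ge
  refine ⟨(1 + ENNReal.ofReal c) * (V * ∫⁻ t in ball X.t₀ F.R₂, F.maj t),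
    ENNReal.mul_lt_top (ENNReal.add_lt_top.2 ⟨ENNReal.one_lt_top, ENNReal.ofReal_lt_top⟩)
      (ENNReal.mul_lt_top hV F.maj_int), h6.trans (le_mul_of_one_le_left' le_self_add),
    fun k Pf j N e S => le_trans ?_ (mul_le_mul' le_add_self h6)⟩
  rw [← ENNReal.tsum_mul_left]
  refine ENNReal.tsum_le_tsum fun γ => ?_
  rw [Finset.mul_sum]
  refine Finset.sum_le_sum fun a _ => ?_
  rw [← lintegral_const_mul' _ _ ENNReal.ofReal_ne_top]
  exact setLIntegral_mono' (tc_cpt h4 γ a).measurableSet fun z hz => (mul_le_mul_right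
    (ENNReal.ofReal_le_ofReal (h2 γ a z hz k Pf j N e S)) _).trans_eq (mul_comm _ _)

end Vale.Agent.P284Y.X56.Tub
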