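import Vale.Agent.P284Y.X56.Kl
import Vale.Agent.P284Y.X56.Pt
import Vale.Agent.P284Y.X56.Tub
import Vale.Agent.P284.H752.K1
import Vale.Agent.P284.H752.K8.D1

/-!
# P284Y, row A2: the estimates of the model
-/

open scoped ContDiff Topology ComplexOrder ComplexConjugate ENNReal
open Filter Set Function Metric MeasureTheory

noncomputable section

namespace Vale.Agent.P284Y.X56.A2b

open Vale.Agent.P272.K Vale.Agent.P284.H608.K Vale.Agent.P284Z Vale.Agent.P284Z.J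
  Vale.Agent.P284Z.L Vale.Agent.P284Y.X Vale.Agent.P284Y.X4 Vale.Agent.P284Z.L.S3

variable {n p k j : ℕ} {Γ E : Type} [Group Γ] [TopologicalSpace E] [MulAction Γ E] {C : Cov n Γ E}
  {X : XL C p} {F : XF X} {Pf : Cm p → ℂ} {N e : ℝ} [MeasurableSpace E] [BorelSpace E]
  {S : XS F k Pf j N e} (P : Pre C S.O)

/-- the density of `|ds|²` -/
def rr (S : XS F k Pf j N e) (γ : Γ) (a : C.I) (z : Cm n) : ℝ :=
  (hn (C.om F.A S.κ γ a z) (dF (fun w => X.s (C.pt γ a w)) z) (dF (fun w => X.s (C.pt γ a w)) z)).re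

theorem key [Countable Γ] [T2Space E] (hw : P.w = C.om F.A S.κ) {G : S.O → ℝ≥0∞} {c B : ℝ≥0∞}
    (hc : c ≠ ⊤) (hB : ∑' γ : Γ, ∑ a, ∫⁻ z in Tub.tc X F.R₁ γ a, F.maj (X.s (C.pt γ a z)) *
      ENNReal.ofReal (rr S γ a z * (C.om F.A S.κ γ a z).det.re) ≤ B)
    (h0 : ∀ x : S.O, x.1 ∉ Pt.K1 F → G x = 0)
    (h1 : ∀ γ a I z, z ∈ X.U a I → ∀ hO : C.pt γ a z ∈ S.O, C.pt γ a z ∈ Pt.K1 F →
      G ⟨_, hO⟩ ≤ c * (F.maj (X.s (C.pt γ a z)) * ENNReal.ofReal (rr S γ a z))) :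
    ∫⁻ x, G x ∂P.μ ≤ c * B := by
  have h4 : ∀ x : S.O, extend Subtype.val G 0 x.1 = G x := Subtype.val_injective.extend_apply G 0
  have h2 := up_le P (extend Subtype.val G 0)
  simp only [h4] at h2
  refine h2.trans (le_trans ?_ (mul_le_mul_right hB c))
  rw [← ENNReal.tsum_mul_left]
  refine ENNReal.tsum_le_tsum fun γ => ?_
  rw [Finset.mul_sum]
  refine Finset.sum_le_sum fun a _ => ?_
  have hm := (Tub.tc_cpt (X := X) (F.R₁_lt.trans (F.R₂_lt.trans F.R₃_lt)) γ a).measurableSet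
  rw [← lintegral_const_mul' _ _ hc, ← lintegral_indicator hm]
  refine (setLIntegral_mono' (((C.continuousOn_pt γ a).mono fun _ => C.B14
    ).isOpen_inter_preimage (C.isOpen_B 1 a) P.hO).measurableSet fun z hz => ?_).trans
    (setLIntegral_le_lintegral _ _)
  rw [h4 ⟨_, hz.2⟩]
  by_cases h : C.pt γ a z ∈ Pt.K1 F
  · obtain ⟨I, hI⟩ := S.cover γ a z (C.B_sub_cB _ a (C.B_mono (by norm_num) a hz.1)) hz.2
    rw [indicator_of_mem (show z ∈ Tub.tc X F.R₁ γ a from ⟨C.B_sub_cB 1 a hz.1, h⟩), hw,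
      ENNReal.ofReal_mul (p := rr S γ a z) (Pt.hn_re (Pt.w_pos S (C.B14 hz.1)) _), ← mul_assoc,
      ← mul_assoc, mul_assoc c]
    exact mul_le_mul_left (h1 γ a I z hI hz.2 h) _
  · rw [h0 _ h, zero_mul]
    exact zero_le

theorem s0_in {i : (KL S P).I} {z : Cm n} (hz : z ∈ ((KL S P).e i).target) :
    s0 S P i =ᶠ[𝓝 z] Pt.s0 S i.1 i.2.1 i.2.2 :=
  Eventually.mono (((KL S P).e i).open_target.mem_nhds hz) fun w hw => by
    rw [s0, sK_in hw]
    rfl

theorem pt_ec {i : (KL S P).I} {x : S.O} (hi : x ∈ ((KL S P).e i).source) :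
    C.pt i.1 i.2.1 ((KL S P).e i x) = x := C.pt_co hi.1

end A2b

open A2b Vale.Agent.P272.K Vale.Agent.P284.H608.K Vale.Agent.P284Z Vale.Agent.P284Z.J
  Vale.Agent.P284Z.L Vale.Agent.P284Y.X Vale.Agent.P284Y.X4 Vale.Agent.P284Z.L.S3
  Vale.Agent.P284.H419.K

theorem stA2b : StA2 := by
  intro _ _ hA1 n r k Γ E _ _ _ _ _ _ _ C X F Pf
  obtain ⟨B, hB, -, hm⟩ := Tub.maj_int F F.R₁_lt
  refine ⟨B.toReal, ENNReal.toReal_nonneg, fun j N e hN he S P hw h3 => ?_⟩
  obtain ⟨t1, -, -, -⟩ := hA1 n (r + 1) k Γ E C X F Pf j N e S P hw he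
  have k1 := P284.H752.k1Stmt
  have hw' : ∀ i, (KL S P).w i = C.om F.A S.κ i.1 i.2.1 := fun i => by rw [← hw]; rfl
  constructor
  · rw [(nq_eq k1 h3 t1).1]
    refine (ENNReal.toReal_mono (ENNReal.mul_ne_top ENNReal.ofReal_ne_top hB.ne)
      (key (c := ENNReal.ofReal N) P hw ENNReal.ofReal_ne_top (hm k Pf j N e S) (fun x hx => ?_)
        fun γ a I z hz hO h => ?_)).trans_eq
      (by rw [ENNReal.toReal_mul, ENNReal.toReal_ofReal hN, mul_comm])
    · have hi := mem_ix (K := KL S P) x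
      rw [dn_off (Or.inl ((s0_in P (((KL S P).e _).map_source hi)).self_of_nhds.trans
        (Pt.s0_zero S ((pt_ec P hi).symm ▸ hx))))]
      simp
    · obtain ⟨m1, m2⟩ := mem_ec P hz hO
      have m3 := ((KL S P).e (γ, a, I)).map_source m1
      have e1 := h3.dn_eq _ _ _ t1.form t1.form (γ, a, I) _ m1
      rw [(s0_in P m3).self_of_nhds] at e1
      erw [hw', m2] at e1
      rw [e1, Complex.re_ofReal_mul]
      erw [Pt.s0_hn S hz h.1 (Pt.R₂₃ (Pt.K1_R₂ h))]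
      rw [ENNReal.ofReal_mul (by positivity), ← mul_assoc]
      exact mul_le_mul_left (S.bs.g_le _ (Pt.K1_R₂ h)) _
  · intro τ hτ
    obtain ⟨e2, i2⟩ := nq_ds h3 hτ
    have i1 := (h3.intT r τ hτ).2
    have hA : ∀ x, (KL S P).dA τ x + e * n * P284.H419.K.ds τ x = Real.exp (-S.ψ ((KL S P).ix x).1
        ((KL S P).ix x).2.1 ((KL S P).ix x).2.2 ((KL S P).e ((KL S P).ix x) x)) *
        Pt.qe S ((KL S P).ix x).1 ((KL S P).ix x).2.1 ((KL S P).ix x).2.2
          ((KL S P).e ((KL S P).ix x) x) (τ ((KL S P).ix x) ((KL S P).e ((KL S P).ix x) x)) :=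
      fun x => by
        rw [KA.dA, P284.H419.K.ds, KA.dn, Complex.re_ofReal_mul, hw', Pt.qe, mul_add, mul_left_comm (e * n)]
        rfl
    rw [e2, ← integral_const_mul, ← integral_add i1 (i2.const_mul _), mul_comm]
    refine P284.H752.K8.int_cs (S := {x : S.O | x.1 ∈ Pt.K1 F})
      (A := fun x => (KL S P).dA τ x + e * n * P284.H419.K.ds τ x)
      (B := fun x : S.O => S.Λ (X.s x) * P284.H419.K.ds (sK S P) x) (i1.add (i2.const_mul _)) (fun x => ?_)
      (fun x => ?_) (fun x _ => mul_nonneg (S.bs.Λ_nonneg _) (ds_nonneg k1 _ x))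
      ENNReal.toReal_nonneg ?_
    · have hi := mem_ix (K := KL S P) x
      rw [hA]
      exact mul_nonneg (Real.exp_pos _).le (Pt.qe_nonneg S he hi.2 ((pt_ec P hi).symm ▸ x.2) _)
    · have hi := mem_ix (K := KL S P) x
      have m3 := ((KL S P).e _).map_source hi
      have e3 : (KL S P).S (s0 S P) ((KL S P).ix x) ((KL S P).e ((KL S P).ix x) x) =
          SL (C.om F.A S.κ ((KL S P).ix x).1 ((KL S P).ix x).2.1) (Pt.s0 S ((KL S P).ix x).1
            ((KL S P).ix x).2.1 ((KL S P).ix x).2.2) ((KL S P).e ((KL S P).ix x) x) := by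
        rw [KA.S, if_pos m3, hw', SL, SL, funext (S1.dbV_congr (s0_in P m3))]
      rw [hA, KA.dn, e3]
      by_cases h : x.1 ∈ Pt.K1 F
      · have h5 := Pt.SL_le S (a := ((KL S P).ix x).2.1) (z := (KL S P).e ((KL S P).ix x) x) he
          hi.2 ((pt_ec P hi).symm ▸ h)
          (τ ((KL S P).ix x) ((KL S P).e ((KL S P).ix x) x))
        rw [indicator_of_mem (show x ∈ {x : S.O | x.1 ∈ Pt.K1 F} from h), P284.H419.K.ds, KA.dn,
          Complex.re_ofReal_mul, sK_in m3, hw', norm_mul, mul_pow, Complex.norm_real,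
          Real.norm_of_nonneg (Real.exp_pos _).le]
        rw [pt_ec P hi] at h5
        refine (mul_le_mul_of_nonneg_left h5 (sq_nonneg _)).trans_eq ?_
        change _ = Real.exp (-(KL S P).φ _ _) * _ * _
        ring
      · rw [Pt.SL_zero S (a := ((KL S P).ix x).2.1) (z := (KL S P).e ((KL S P).ix x) x)
          (C.co_mem hi.1) ((pt_ec P hi).symm ▸ h), hn_zero_right,
          indicator_of_notMem (show x ∉ {x : S.O | x.1 ∈ Pt.K1 F} from h)]
        simp
    · rw [ENNReal.ofReal_toReal hB.ne, ← one_mul B]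
      have hm' : MeasurableSet {x : S.O | x.1 ∈ Pt.K1 F} :=
        (Pt.K1_cpt.isClosed.preimage continuous_subtype_val).measurableSet
      rw [← lintegral_indicator hm']
      refine key P hw ENNReal.one_ne_top (hm k Pf j N e S)
        (fun x hx => indicator_of_notMem (s := {x : S.O | x.1 ∈ Pt.K1 F}) hx _) fun γ a I z hz hO h => ?_
      obtain ⟨m1, m2⟩ := mem_ec P hz hO
      have m3 := ((KL S P).e (γ, a, I)).map_source m1
      have e1 := ds_eq h3 (sK_form S P) (γ, a, I) m1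
      rw [sK_in m3] at e1
      erw [hw', m2] at e1
      rw [indicator_of_mem (show (⟨_, hO⟩ : S.O) ∈ {x : S.O | x.1 ∈ Pt.K1 F} from h), e1, nn]
      erw [Pt.sg_hn S hz h.1 (Pt.R₂₃ (Pt.K1_R₂ h))]
      rw [one_mul, ← mul_assoc,
        ENNReal.ofReal_mul (mul_nonneg (S.bs.Λ_nonneg _) (Real.exp_pos _).le)]
      exact mul_le_mul_left (S.bs.Λ_le _ (Pt.K1_R₂ h)) _

end Vale.Agent.P284Y.X56
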