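import Vale.Agent.P284Y.X56.Kl
import Vale.Agent.P284Y.X56.Alg
import Vale.Agent.P284Z.J.JG
import Vale.Agent.P284.H451.K1bA
import Vale.Agent.P284.H205.K.Main
import Vale.Agent.P284.H279.K.K2
import Vale.Agent.P284.H752.K1

/-!
# P284Y, row X6a: one stage
-/

open scoped ContDiff Topology ComplexOrder ComplexConjugate ENNReal
open Filter Set Function Metric MeasureTheory

noncomputable section

namespace Vale.Agent.P284Y.X56

open Vale.Agent.P272.K Vale.Agent.P284.H608.K Vale.Agent.P284Z Vale.Agent.P284Z.J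
  Vale.Agent.P284Z.L Vale.Agent.P284Y.X Vale.Agent.P284Y.X4 Vale.Agent.P284Z.L.S3
open Vale.Agent.P284.H619.K (wd tL Ad_add Ad_smul Ad_nonneg hn_self_nonneg hn_lam_le)

variable {n p k j : ℕ} {Γ E : Type} [Group Γ] [TopologicalSpace E] [MulAction Γ E] {C : Cov n Γ E}
  {X : XL C p} {F : XF X} {Pf : Cm p → ℂ} {N e : ℝ} {γ g : Γ} {a b : C.I} {z : Cm n}
  {I J : Fin p → Fin n}

namespace A3

theorem sigma [Countable Γ] (C : Cov n Γ E) {O : Set E} (hO : IsOpen O) : SigmaCompactSpace O := by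
  refine isSigmaCompact_iff_sigmaCompactSpace.1 ?_
  rw [show O = ⋃ i : Γ × C.I, C.pt i.1 i.2 '' {z | z ∈ C.B 4 i.2 ∧ C.pt i.1 i.2 z ∈ O} from
    (iUnion_subset fun _ => image_subset_iff.2 fun _ h => h.2).antisymm' fun y hy => by
      obtain ⟨γ, a, z, hz, rfl⟩ := C.exists_pt y
      exact mem_iUnion.2 ⟨(γ, a), z, ⟨C.B14 hz, hy⟩, rfl⟩]
  refine isSigmaCompact_iUnion _ fun i => IsSigmaCompact.image_of_continuousOn ?_
    ((C.continuousOn_pt _ _).mono fun _ h => h.1)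
  have := (C.isOpen_preimage_pt i.1 i.2 hO).locallyCompactSpace
  exact isSigmaCompact_iff_sigmaCompactSpace.2 inferInstance

theorem low (C : Cov n Γ E) (q : ℕ) : ∃ K, 0 ≤ K ∧ ∀ a, ∀ z ∈ C.B 1 a, ∀ w : Mx n, w.PosDef →
    (w - cHess (C.ρ a) z).PosSemidef → ∀ (A : Af n q) (ξ : Fin q → Cm n), ‖ξ‖ ≤ 1 →
      ‖A ξ‖ ^ 2 ≤ K * ((hn w A A).re * w.det.re) := by
  have h : ∀ a, ∃ K, 0 ≤ K ∧ ∀ z ∈ C.B 1 a, ∀ w : Mx n, w.PosDef →
      (w - cHess (C.ρ a) z).PosSemidef → ∀ (A : Af n q) (ξ : Fin q → Cm n), ‖ξ‖ ≤ 1 →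
        ‖A ξ‖ ^ 2 ≤ K * ((hn w A A).re * w.det.re) := fun a => by
    obtain ⟨c, hc, h2⟩ := K.rho_dom (C := C) a (C.isCompact_cB 1 a) (C.cB_sub_B (by norm_num) a)
      (A := fun _ => 1) continuousOn_const fun _ _ => Matrix.isHermitian_one
    obtain ⟨K, h0, h3⟩ := low_pt n q (one_pos.trans_le hc)
    refine ⟨K, h0, fun z hz w hw h4 => h3 w hw ?_⟩
    simpa only [smul_sub, sub_add_sub_cancel] using
      (psd_smul h4 (zero_le_one.trans hc)).add (h2 z (C.B_sub_cB 1 a hz))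
  choose K h0 hK using h
  refine ⟨∑ a, K a, Finset.sum_nonneg fun a _ => h0 a, fun a z hz w hw h A ξ hξ =>
    (hK a z hz w hw h A ξ hξ).trans (mul_le_mul_of_nonneg_right
      (Finset.single_le_sum (fun a _ => h0 a) (Finset.mem_univ a)) ?_)⟩
  exact mul_nonneg (Complex.le_def.1 (hn_self_nonneg hw A)).1 (det_pos hw).le

theorem Adw_le {w : Mx n} (hw : w.PosDef) (A : Af n p) : (Ad w w A).re ≤ n * (hn w A A).re := by
  rcases le_or_gt p n with h | h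
  · rw [P284.H451.K1.Adw h hw, ← Complex.ofReal_natCast, Complex.re_ofReal_mul]
    exact mul_le_mul_of_nonneg_right (Nat.cast_le.2 (Nat.sub_le _ _))
      (Complex.le_def.1 (hn_self_nonneg hw A)).1
  · simp [P284.H419.K.af_zero_of_lt h A, Ad, P284.H419.K.af_zero_of_lt (Nat.lt_succ_of_lt h) (wdz _ _),
      P284.H619.K.hn_zero_left]

theorem qe_nonneg {w β : Mx n} (hw : w.PosDef) (he : 0 ≤ e) (h : (β + (e : ℂ) • w).PosSemidef)
    (A : Af n p) : 0 ≤ (Ad w β A).re + e * n * (hn w A A).re := by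
  have h1 := (Complex.le_def.1 (Ad_nonneg hw h A)).1
  rw [Ad_add, Ad_smul, Complex.add_re, Complex.re_ofReal_mul, Complex.zero_re] at h1
  nlinarith [mul_le_mul_of_nonneg_left (Adw_le hw A) he]

theorem dzb_ev {y : Cm n → Af n p} (h : DifferentiableAt ℝ y z) (c : Fin n) (σ : Fin p → Fin n) :
    dzb c (fun w => ev (y w) σ) z = dbV c y z (eb σ) := by
  have h1 : fderiv ℝ (fun w => ev (y w) σ) z = _ := (((ContinuousAlternatingMap.apply ℂ (Cm n) ℂ
    (eb σ)).restrictScalars ℝ).hasFDerivAt.comp z h.hasFDerivAt).fderiv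
  rw [← P284.H752.K8.dbV_eq_dzb, dbV, h1]
  rfl

theorem hess_tube (S : XS F k Pf j N e) (hz : z ∈ X.U a I) (hT : C.pt γ a z ∈ X.T)
    (hs : X.s (C.pt γ a z) ∈ ball X.t₀ F.R₃) : cHess (S.ψ γ a I) z =
      pb (jm (fun w => X.s (C.pt γ a w)) z) (cHess S.ψb (X.s (C.pt γ a z))) := by
  have h2 := X.U_sub a I hz
  have h4 := C.B_mono (by norm_num : (2 : ℝ) ≤ 4) a h2
  have hb := X.sub.hol γ a z h4 hT
  have h0 := (X.tube_U γ a I z h2 hT hz).1
  have hd : AnalyticAt ℂ (fun w => ds C X.s γ a w (eb I)) z := S8b.an_dd hb _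
  have h1 := (S.bs.ψ_sm _ hs).of_le (m := 2) (by norm_cast)
  have h3 : ContDiffAt ℝ 2 (fun w => Real.log (‖ds C X.s γ a w (eb I)‖ ^ 2)) z :=
    ((hd.contDiffAt.restrict_scalars ℝ).norm_sq ℂ).log (pow_ne_zero _ (norm_ne_zero_iff.2 h0))
  rw [C2.cHess_congr (v := fun w => S.ψb (X.s (C.pt γ a w)) +
      k * Real.log (‖ds C X.s γ a w (eb I)‖ ^ 2)), C2.cHess_add
      (h1.fun_comp z (hb.contDiffAt.restrict_scalars ℝ)) (contDiffAt_const.mul h3),
    C2.cHess_const_mul _ h3, (jb.hess_re n _ z hd).2.2 h0, smul_zero, add_zero]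
  · exact jb.hess_comp n p _ _ z hb h1
  · filter_upwards [(X.U_opn a I).mem_nhds hz, (C.continuousAt_pt h4 γ).eventually_mem
      (X.sub.opn.mem_nhds hT), hb.continuousAt.eventually_mem (isOpen_ball.mem_nhds hs)] with w w1 w2 w3
    exact S.ψ_tube γ a I w w1 w2 w3

variable [MeasurableSpace E] [BorelSpace E]

theorem dens [Countable Γ] {O : Set E} (Q : Pre C O) {D : O → ℝ} (hD : Continuous D)
    (h0 : ∀ x, 0 ≤ D x) (hi : Integrable D Q.μ) : ∃ f : Γ → C.I → Cm n → ℝ≥0∞,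
    (∀ γ a, AEMeasurable (f γ a) (volume.restrict (C.B 1 a))) ∧
    (∀ a, ∑' γ, ∫⁻ z in C.B 1 a, f γ a z ≤ ENNReal.ofReal (∫ x, D x ∂Q.μ)) ∧
    ∀ γ a, ∀ z ∈ C.B 1 a, ∀ h : C.pt γ a z ∈ O,
      f γ a z = ENNReal.ofReal (D ⟨_, h⟩ * (Q.w γ a z).det.re) := by
  let G : E → ℝ≥0∞ := extend Subtype.val (fun x => ENNReal.ofReal (D x)) 0
  have h1 : ∀ x : O, G x = ENNReal.ofReal (D x) := Subtype.val_injective.extend_apply _ _
  have h2 : Measurable G := (MeasurableEmbedding.subtype_coe Q.hO.measurableSet).measurable_extend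
    hD.measurable.ennreal_ofReal measurable_zero
  have h3 : ∀ γ a, MeasurableSet {z ∈ C.B 1 a | C.pt γ a z ∈ O} := fun γ a =>
    (((C.continuousOn_pt γ a).mono fun _ => C.B14).isOpen_inter_preimage (C.isOpen_B 1 a)
      Q.hO).measurableSet
  refine ⟨fun γ a => {z ∈ C.B 1 a | C.pt γ a z ∈ O}.indicator fun z =>
    G (C.pt γ a z) * ENNReal.ofReal (Q.w γ a z).det.re, fun γ a => ?_, fun a => ?_,
    fun γ a z hz h => ?_⟩
  · refine ((aemeasurable_indicator_iff (h3 γ a)).2 (AEMeasurable.mul (h2.comp_aemeasurable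
      (((C.continuousOn_pt γ a).mono fun _ h => C.B14 h.1).aemeasurable (h3 γ a)))
      (AEMeasurable.ennreal_ofReal (ContinuousOn.aemeasurable (fun z hz => ?_) (h3 γ a))))).restrict
    exact (cont_det (cf_cont Q.cf (C.B14 hz.1) hz.2)).continuousWithinAt
  · refine (ENNReal.tsum_le_tsum fun γ => (setLIntegral_le_lintegral _ _).trans_eq
      (lintegral_indicator (h3 γ a) _)).trans ((low_le Q (h2.comp measurable_subtype_coe) a).trans_eq ?_)
    rw [ofReal_integral_eq_lintegral_ofReal hi (Eventually.of_forall h0)]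
    exact lintegral_congr h1
  · refine (indicator_of_mem (show z ∈ {z ∈ C.B 1 a | C.pt γ a z ∈ O} from ⟨hz, h⟩) _).trans ?_
    rw [h1 ⟨_, h⟩, ENNReal.ofReal_mul (h0 _)]

variable {S : XS F k Pf j N e} {P : Pre C S.O} {y : (KL S P).Fm p}

/-- the index of a framed chart -/
def ki (P : Pre C S.O) (γ : Γ) (a : C.I) (I : Fin p → Fin n) : (KL S P).I := (γ, a, I)

theorem tg (P : Pre C S.O) (hz : z ∈ X.U a I) (hO : C.pt γ a z ∈ S.O) :
    z ∈ ((KL S P).e (ki P γ a I)).target :=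
  ⟨⟨C.B_mono (by norm_num : (2 : ℝ) ≤ 4) a (X.U_sub a I hz), hO⟩, hz⟩

theorem mem_KL (P : Pre C S.O) (hz : z ∈ X.U a I) (hO : C.pt γ a z ∈ S.O) :
    (⟨_, hO⟩ : S.O) ∈ ((KL S P).e (ki P γ a I)).source ∧ (KL S P).e (ki P γ a I) ⟨_, hO⟩ = z :=
  mem_ec P hz hO

theorem ych (hy : (KL S P).IsForm y) (ho : C.Ov g a b z) (hz : z ∈ X.U a I)
    (hz' : C.tr g a b z ∈ X.U b J) (hO : C.pt (γ * g) a z ∈ S.O) (ξ : Fin p → Cm n) :
    y (ki P (γ * g) a I) z ξ = X.θ b J (C.tr g a b z) (trv C g a b z (eb I)) ^ k *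
      y (ki P γ b J) (C.tr g a b z) (trv C g a b z ξ) := by
  obtain ⟨h1, h2⟩ := mem_KL P hz hO
  have hO' : C.pt γ b (C.tr g a b z) ∈ S.O := (C.pt_tr ho γ).symm ▸ hO
  obtain ⟨h3, h4⟩ := mem_KL P hz' hO'
  rw [(Subtype.ext (C.pt_tr ho γ) : (⟨_, hO'⟩ : S.O) = ⟨_, hO⟩)] at h3 h4
  have h5 := hy.change _ _ _ h1 h3
  rw [h2, h4, fd_ec (tg P hz hO)] at h5
  have h6 := DFunLike.congr_fun h5 ξ
  simp only [KL, ki, inv_mul_cancel_left] at h6
  exact h6

theorem exists_Y (hy : (KL S P).IsForm y) :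
    ∃ Y : Γ → C.I → Cm n → (Fin k → Fin p → Fin n) → Af n p,
      (∀ γ a I, ∀ z ∈ X.U a I, C.pt γ a z ∈ S.O → ∀ T,
        Y γ a z T = (∏ l, X.θ a I z (eb (T l))) • y (ki P γ a I) z) ∧
      ∀ γ a z, C.pt γ a z ∉ S.O → ∀ T, Y γ a z T = 0 := by
  classical
  refine ⟨fun γ a z T => if h : ∃ I, z ∈ X.U a I ∧ C.pt γ a z ∈ S.O then
    (∏ l, X.θ a h.choose z (eb (T l))) • y (ki P γ a h.choose) z else 0, fun γ a I z hz hO T => ?_,
    fun γ a z h T => dif_neg fun ⟨_, h'⟩ => h h'.2⟩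
  have h : ∃ I, z ∈ X.U a I ∧ C.pt γ a z ∈ S.O := ⟨I, hz, hO⟩
  have h4 : z ∈ C.B 4 a := (tg P hz hO).1.1
  have h1 := ych hy (γ := γ) (J := h.choose) (C.Ov_self h4) hz
    ((C.tr_self h4).symm ▸ h.choose_spec.1) ((mul_one γ).symm ▸ hO)
  simp only [mul_one, C.tr_self h4, Lt.trv_one h4] at h1
  refine (dif_pos h).trans ?_
  ext ξ
  simp only [ContinuousAlternatingMap.smul_apply, smul_eq_mul, h1 ξ,
    (X.θ_same a I _ z hz h.choose_spec.1).2 (eb (T _)), Finset.prod_mul_distrib, Finset.prod_const,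
    Finset.card_univ, Fintype.card_fin]
  ring

theorem eo [Countable Γ] [T2Space E] (hP : P.w = C.om F.A S.κ) (he : 0 ≤ e) (h3 : K3Stmt n S.O (KL S P)) {K : ℝ}
    (hK : 0 ≤ K) (l1 : ∀ a, ∀ z ∈ C.B 1 a, ∀ w : Mx n, w.PosDef →
      (w - cHess (C.ρ a) z).PosSemidef → ∀ (A : Af n p) (ξ : Fin p → Cm n), ‖ξ‖ ≤ 1 →
        ‖A ξ‖ ^ 2 ≤ K * ((hn w A A).re * w.det.re))
    (l2 : ∀ a, ∀ z ∈ C.B 1 a, ∀ w : Mx n, w.PosDef →
      (w - cHess (C.ρ a) z).PosSemidef → ∀ (A : Af n (p + 1)) (ξ : Fin (p + 1) → Cm n), ‖ξ‖ ≤ 1 →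
        ‖A ξ‖ ^ 2 ≤ K * F.β * ((hn w A A).re * w.det.re))
    (hs : (KL S P).Test (s0 S P)) (hy : (KL S P).Test y) {K₀ K₁ : ℝ≥0∞}
    (b₀ : ENNReal.ofReal (K * (KL S P).nq (y - s0 S P)) ≤ K₀)
    (b₁ : ENNReal.ofReal (K * ((∫ x, (KL S P).dT y x ∂P.μ) + (∫ x, (KL S P).dA y x ∂P.μ) +
      e * n * (KL S P).nq y)) ≤ K₁) : Nonempty (EO S K₀ K₁) := by
  have k1 := P284.H752.k1Stmt
  have t := P284.H419.K.test_sub hy hs
  obtain ⟨e0, i0⟩ := P284.H419.K.nq_ds h3 t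
  obtain ⟨e1, i1⟩ := P284.H419.K.nq_ds h3 hy
  obtain ⟨i2, i3⟩ := h3.intT p y hy
  have c : ∀ {η : (KL S P).Fm p}, (KL S P).Test η → Continuous (P284.H419.K.ds η) := fun h =>
    Complex.continuous_re.comp (P284.H205.K.dn_cont k1 h.form h.smooth h.form h.smooth)
  have n2 := P284.H286.K.dT_nonneg k1 y
  have n3 : ∀ x, 0 ≤ (KL S P).dA y x + e * n * P284.H419.K.ds y x := fun x => by
    have hz := ((KL S P).e _).map_source (P284.H286.K.mem_ix (KL S P) x)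
    unfold KA.dA P284.H419.K.ds KA.dn
    rw [Complex.re_ofReal_mul, mul_left_comm, ← mul_add]
    exact mul_nonneg (Real.exp_pos _).le (qe_nonneg ((KL S P).wpos _ _ hz) he
      (hP ▸ S.ψ_psd _ _ _ _ hz.2 hz.1.2 : (_ + _ • P.w _ _ _).PosSemidef) _)
  obtain ⟨f₀, m0, j0, p0⟩ := dens P (D := fun x => K * P284.H419.K.ds (y - s0 S P) x)
    (continuous_const.mul (c t))
    (fun x => mul_nonneg hK (P284.H419.K.ds_nonneg k1 _ x)) (i0.const_mul K)
  obtain ⟨f₁, m1, j1, p1⟩ := dens P (D := fun x => K * ((KL S P).dT y x +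
      ((KL S P).dA y x + e * n * P284.H419.K.ds y x)))
    (continuous_const.mul (((Complex.continuous_re.comp (P284.H205.K.tn2_cont k1 hy.form hy.smooth
      hy.form hy.smooth)).congr fun x => (P284.H205.K.dT_tn2 y x).symm).add
      (((Complex.continuous_re.comp (P284.H205.K.ad2_cont k1 hy.form hy.smooth hy.form
        hy.smooth)).congr fun x => (P284.H205.K.dA_ad2 y x).symm).add (continuous_const.mul (c hy)))))
    (fun x => mul_nonneg hK (add_nonneg (n2 x) (n3 x)))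
    ((i2.add (i3.add (i1.const_mul _))).const_mul K)
  obtain ⟨Y, y1, y2⟩ := exists_Y hy.form
  obtain ⟨D, d1, d2⟩ := hy.supp
  have hw : ∀ {γ a z}, z ∈ C.B 1 a → (P.w γ a z - cHess (C.ρ a) z).PosSemidef := fun hz => by
    simpa only [hP, Cov.om, Pi.sub_apply, one_mul, add_zero] using S.κ_ge _ _ _ (C.B14 hz) trivial
  refine ⟨⟨fun γ a I => y (ki P γ a I), fun γ a I z hz hO => hy.smooth _ z (tg P hz hO),
    fun _ _ _ _ _ _ _ ho hz hz' hO => ych hy.form ho hz hz' hO,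
    ⟨_, d1.image continuous_subtype_val, Subtype.coe_image_subset _ _, fun γ a I z hz h => ?_⟩,
    Y, y1, y2, f₀, f₁, m0, m1, fun a => (j0 a).trans (le_of_eq_of_le ?_ b₀),
    fun a => (j1 a).trans (le_of_eq_of_le ?_ b₁), fun γ a I z hB hz hO ξ hξ => ?_,
    fun γ a I z hB hz hO c σ => ?_, fun γ a I z hB hz hO hT hG hR c v hv => ?_⟩⟩
  · by_cases hO : C.pt γ a z ∈ S.O
    · have := d2 _ _ (mem_KL P hz hO).1 fun k => h ⟨_, k, rfl⟩
      rwa [(mem_KL P hz hO).2] at this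
    · exact hy.form.off (ki P γ a I) z fun k => hO k.1.2
  · rw [integral_const_mul, e0]
    rfl
  · rw [integral_const_mul, e1, add_assoc, ← integral_const_mul (e * n)]
    exact congrArg (fun u => ENNReal.ofReal (K * u)) ((integral_add i2 (i3.add (i1.const_mul _))).trans
      (congrArg _ (integral_add i3 (i1.const_mul _))))
  · have h4 := l1 a z hB _ ((KL S P).wpos _ _ (tg P hz hO)) (hw hB) ((y - s0 S P) (ki P γ a I) z) ξ hξ
    have h5 : (y - s0 S P) (ki P γ a I) z ξ =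
        y (ki P γ a I) z ξ - S.gb (X.s (C.pt γ a z)) * sg X k γ a I z ξ := by
      rw [← show sK S P (ki P γ a I) z = sg X k γ a I z from sK_in (tg P hz hO)]
      rfl
    rw [p0 γ a z hB hO, P284.H419.K.ds_eq h3 t.form _ (mem_KL P hz hO).1, (mem_KL P hz hO).2, ← h5]
    exact ENNReal.ofReal_le_ofReal ((mul_le_mul_of_nonneg_left h4 (Real.exp_pos _).le).trans_eq
      (by simp only [KL, ki, P284.H419.K.nn]; ring))
  · have h4 : (P.w γ a z).PosDef := (KL S P).wpos _ _ (tg P hz hO)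
    have h5 := (l1 a z hB _ h4 (hw hB) (dbV c (y (ki P γ a I)) z) (eb σ) (S8b.norm_eb σ)).trans
      (mul_le_mul_of_nonneg_left (mul_le_mul_of_nonneg_right
        (Alg.tn_cs h4 (fun b => dbV b (y (ki P γ a I)) z) c) (det_pos h4).le) hK)
    have h6 : 0 ≤ (P.w γ a z c c).re := (Complex.le_def.1 (h4.posSemidef.diag_nonneg (i := c))).1
    have h7 := h3.dT_eq p y hy.form hy.smooth _ _ (mem_KL P hz hO).1
    rw [(mem_KL P hz hO).2] at h7
    rw [dzb_ev ((hy.smooth _ z (tg P hz hO)).differentiableAt (by simp)), p1 γ a z hB hO, ← hP,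
      ← ENNReal.ofReal_mul h6, h7]
    refine ENNReal.ofReal_le_ofReal ((mul_le_mul_of_nonneg_left h5 (Real.exp_pos _).le).trans ?_)
    have h8 := mul_nonneg h6 (mul_nonneg (mul_nonneg hK (n3 ⟨_, hO⟩)) (det_pos h4).le)
    simp only [KL, ki] at h8 ⊢
    linarith
  · have h4 := (KL S P).wpos _ _ (tg P hz hO)
    have h5 := pb_psd (jm (fun w => X.s (C.pt γ a w)) z) (S.bs.pos _ hG hR)
    rw [pb, Matrix.mul_sub, Matrix.sub_mul, Matrix.mul_smul, Matrix.smul_mul, ← pb, ← pb, S1.pb_eq,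
      ← hess_tube S hz hT (ball_subset_ball F.R₂_lt.le hR)] at h5
    have h6 := (mul_le_mul_of_nonneg_left (Finset.single_le_sum (fun l _ => (Complex.le_def.1
      (hn_self_nonneg h4 (wd (tL (fderiv ℂ (fun w => X.s (C.pt γ a w)) z) l) (y (ki P γ a I) z)))).1)
      (Finset.mem_univ c)) F.β_pos.le).trans (hn_lam_le h4 h5 (y (ki P γ a I) z))
    have h7 := l2 a z hB _ h4 (hw hB)
      (wd (tL (fderiv ℂ (fun w => X.s (C.pt γ a w)) z) c) (y (ki P γ a I) z)) v hv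
    have h8 := h3.dA_eq p y hy.form _ _ (mem_KL P hz hO).1
    rw [(mem_KL P hz hO).2] at h8
    rw [p1 γ a z hB hO, h8]
    refine ENNReal.ofReal_le_ofReal ((mul_le_mul_of_nonneg_left h7 (Real.exp_pos _).le).trans ?_)
    have h9 := mul_le_mul_of_nonneg_left h6 (mul_nonneg (mul_nonneg hK
      (Real.exp_pos (-S.ψ γ a I z)).le) (det_pos h4).le)
    have h10 := mul_nonneg (mul_nonneg hK (add_nonneg (n2 ⟨_, hO⟩) (mul_nonneg (mul_nonneg he
      (Nat.cast_nonneg n)) (P284.H419.K.ds_nonneg k1 y ⟨_, hO⟩)))) (det_pos h4).le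
    simp only [KL, ki] at h9 h10 ⊢
    linarith

omit [MeasurableSpace E] [BorelSpace E] in
theorem eo_empty (h : ¬S.O.Nonempty) (K₀ K₁ : ℝ≥0∞) : Nonempty (EO S K₀ K₁) :=
  ⟨⟨0, fun _ _ _ _ _ hO => absurd ⟨_, hO⟩ h, fun _ _ _ _ _ _ _ _ _ _ hO => absurd ⟨_, hO⟩ h,
    ⟨∅, isCompact_empty, empty_subset _, fun _ _ _ _ _ _ => rfl⟩, 0,
    fun _ _ _ _ _ hO => absurd ⟨_, hO⟩ h, fun _ _ _ _ _ => rfl, 0, 0, fun _ _ => aemeasurable_const,
    fun _ _ => aemeasurable_const, fun _ => by simp, fun _ => by simp,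
    fun _ _ _ _ _ _ hO => absurd ⟨_, hO⟩ h, fun _ _ _ _ _ _ hO => absurd ⟨_, hO⟩ h,
    fun _ _ _ _ _ _ hO => absurd ⟨_, hO⟩ h⟩⟩

end A3

open A3 P284 in
theorem stA_of (h1 : StA1) (h2 : StA2) (ha : AlgSt) (hP : PfT) : StA := by
  intro n p k Γ E _ _ _ _ _ C hp X F Pf
  obtain ⟨r, rfl⟩ := Nat.exists_eq_add_of_le' hp
  let _ : MeasurableSpace E := borel E
  have : BorelSpace E := ⟨rfl⟩
  obtain ⟨C₀, c0, h2⟩ := h2 ha hP h1 n r k Γ E C X F Pf
  obtain ⟨K₁, n1, l1⟩ := low C (r + 1)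
  obtain ⟨K₂, n2, l2⟩ := low C (r + 1 + 1)
  have hβ := F.β_pos
  have k1 := H752.k1Stmt
  obtain ⟨K, hK⟩ : ∃ K, K = K₁ + K₂ / F.β := ⟨_, rfl⟩
  have n3 : 0 ≤ K := hK ▸ by positivity
  refine ⟨ENNReal.ofReal (K * (32 * C₀ + 4) + K * ((6 * n + 20) * (C₀ + 1))), ENNReal.ofReal_lt_top,
    fun j N e hN he he1 S => ?_⟩
  by_cases hO : S.O.Nonempty
  swap
  · exact eo_empty hO _ _
  have := sigma C S.O_opn
  obtain ⟨P, hw⟩ := exists_pre H286.K.measStmt S.O_opn ⟨_, hO.some_mem⟩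
    ((jg C).cf_om F.A S.κ S.O S.O_opn fun y _ => S.κ_sm y) fun γ a z hz _ => by
      simpa only [Cov.om, Pi.sub_apply, one_mul, add_zero, add_sub_cancel] using
        (C.ρ_pos a z hz).add_posSemidef (S.κ_ge γ a z hz trivial)
  have k3 := H205.K.k3_of k1 (H279.K.k2Adj_of k1) (H279.K.k2BK_of k1) (H279.K.k2BK0_of k1) n _ (KL S P)
  obtain ⟨a1, a2, a3, a4⟩ := h1 n _ k Γ E C X F Pf j N e S P hw he.le
  obtain ⟨a5, a6⟩ := h2 j N e hN he.le S P hw k3
  obtain ⟨y, y1, y2, y3⟩ := a4.eng k1 k3 he he1 a1 a2 a3 c0 a6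
  refine eo hw he.le k3 n3 (fun a z hz w h h' A ξ hξ => (l1 a z hz w h h' A ξ hξ).trans ?_)
    (fun a z hz w h h' A ξ hξ => (l2 a z hz w h h' A ξ hξ).trans ?_) a1 y1
    (ENNReal.ofReal_le_ofReal ((mul_le_mul_of_nonneg_left y2 n3).trans
      (le_add_of_nonneg_right (by positivity)))) ?_
  · exact mul_le_mul_of_nonneg_right (hK ▸ le_add_of_nonneg_right (by positivity))
      (mul_nonneg (Complex.le_def.1 (H619.K.hn_self_nonneg h A)).1 (det_pos h).le)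
  · refine mul_le_mul_of_nonneg_right ?_
      (mul_nonneg (Complex.le_def.1 (H619.K.hn_self_nonneg h A)).1 (det_pos h).le)
    rw [hK, add_mul, div_mul_cancel₀ _ hβ.ne']
    exact le_add_of_nonneg_left (by positivity)
  · rw [← ENNReal.ofReal_mul (by positivity)]
    refine ENNReal.ofReal_le_ofReal ((mul_le_mul_of_nonneg_left (y3.trans (mul_le_mul_of_nonneg_left
      (add_le_add_left a5 1) (by positivity))) n3).trans ?_)
    have b1 : 0 ≤ K * (32 * C₀ + 4) * (e * (1 + N)) := by positivity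
    have b2 : 0 ≤ K * ((6 * n + 20) * e * (C₀ + N)) := by positivity
    linarith

end Vale.Agent.P284Y.X56
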