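import Vale.Agent.P284Y.X4.Defs
import Vale.Agent.P284Z.J.JA
import Vale.Agent.P284.H419.K.Op

/-!
# P284Y, row X6: the trace mass of the metric is bounded (Stokes)
-/

open scoped ContDiff Topology ComplexOrder ComplexConjugate ENNReal Matrix
open Filter Set Function Metric MeasureTheory

noncomputable section

namespace Vale.Agent.P284Y.X56.Sto

open Vale.Agent.P272.K Vale.Agent.P284.H608.K Vale.Agent.P284Z Vale.Agent.P284Z.J
  Vale.Agent.P284Z.L Vale.Agent.P284Y.X Vale.Agent.P284Y.X4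

variable {n p : ℕ}

theorem diag_le {M : Mx n} (hM : M.PosSemidef) (c : Fin n) :
    (M c c).re ≤ sl (fun _ => 1) c M := by
  have h0 : 0 ≤ sl (fun _ => (1 : Mx n)) c M :=
    sl_nonneg (fun _ _ => Matrix.PosSemidef.one) hM
  have h1 := congrArg Complex.re (JAx.MD_trace c M)
  rw [← Complex.ofReal_natCast, Complex.re_ofReal_mul, ← Complex.ofReal_natCast,
    Complex.re_mul_ofReal] at h1
  have h2 : (M c c).re ≤ M.trace.re := by
    rw [Matrix.trace, Complex.re_sum]
    exact Finset.single_le_sum (f := fun i => (M.diag i).re)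
      (fun i _ => (Complex.le_def.1 (hM.diag_nonneg (i := i))).1) (Finset.mem_univ c)
  have h3 : (n : ℝ) ≤ n.factorial := Nat.cast_le.2 n.self_le_factorial
  have h4 : (0 : ℝ) < n.factorial := Nat.cast_pos.2 n.factorial_pos
  have h5 : (n : ℝ) * sl (fun _ => (1 : Mx n)) c M = M.trace.re * n.factorial := h1
  nlinarith [mul_le_mul_of_nonneg_right h3 h0]

/-- the mass of the Laplacian of a plurisubharmonic function -/
theorem tr_loc {S U : Set (Cm n)} (hS : IsCompact S) (hU : IsOpen U) (hSU : S ⊆ U) :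
    ∃ K < (⊤ : ℝ≥0∞), ∀ f : Cm n → ℝ, Sm U f → (∀ z ∈ U, (cHess f z).PosSemidef) → ∀ c,
      ∫⁻ z in S, ENNReal.ofReal (cHess f z c c).re ≤ K * ∫⁻ z in U, ‖f z‖ₑ := by
  obtain ⟨θ, h1, h2, h3, h4⟩ := P284.H419.K.exists_theta hS hU hSU
  have hh : Sm U fun z => θ z ^ 2 := fun z _ => (h1.pow 2).contDiffAt
  have hX : CF U fun _ => (1 : Mx n) :=
    ⟨fun _ _ _ _ => contDiffAt_const, fun _ _ _ _ _ => by simp [dz],
      fun _ _ => Matrix.isHermitian_one⟩
  have ho : ∀ z ∉ tsupport θ, (fun z => θ z ^ 2) =ᶠ[𝓝 z] fun _ => 0 := fun z hz =>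
    (ev_zero hz).mono fun w hw => by simp [hw]
  have hb : ∀ c, ∃ K : ℝ, ∀ z ∈ tsupport θ,
      ‖sl (fun _ => (1 : Mx n)) c (cHess (fun z => θ z ^ 2) z)‖ ≤ K := fun c =>
    h2.isCompact.exists_bound_of_continuousOn
      ((sm_sl (X := fun _ _ => (1 : Mx n)) (fun _ _ => hX.sm) hh.cf.sm).cont.mono h3)
  choose K hK using hb
  refine ⟨∑ c, ENNReal.ofReal (K c), ENNReal.sum_lt_top.2 fun _ _ => ENNReal.ofReal_lt_top,
    fun f hf hp c => ?_⟩
  have i1 := (ibp (X := fun _ _ => (1 : Mx n)) (k := c) hU (fun _ _ => hX) hf hh h2.isCompact h3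
    fun z hz => Or.inl (ho z hz)).1
  have e1 := green (X := fun _ _ => (1 : Mx n)) (k := c) hU (fun _ _ => hX) hf hh h2.isCompact h3
    fun z hz => Or.inl (ho z hz)
  calc _ ≤ ∫⁻ z in S, ENNReal.ofReal (θ z ^ 2 * sl (fun _ => (1 : Mx n)) c (cHess f z)) :=
        setLIntegral_mono' hS.measurableSet fun z hz => ENNReal.ofReal_le_ofReal (by
          rw [h4 z hz, one_pow, one_mul]
          exact diag_le (hp z (hSU hz)) c)
    _ ≤ ∫⁻ z in U, ENNReal.ofReal (θ z ^ 2 * sl (fun _ => (1 : Mx n)) c (cHess f z)) :=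
        lintegral_mono_set hSU
    _ = ENNReal.ofReal (∫ z in U, θ z ^ 2 * sl (fun _ => (1 : Mx n)) c (cHess f z)) :=
        (ofReal_integral_eq_lintegral_ofReal i1 ((ae_restrict_mem hU.measurableSet).mono
          fun z hz => mul_nonneg (sq_nonneg _)
            (sl_nonneg (fun _ _ => Matrix.PosSemidef.one) (hp z hz)))).symm
    _ ≤ ∫⁻ z in U, ‖f z * sl (fun _ => (1 : Mx n)) c (cHess (fun z => θ z ^ 2) z)‖ₑ := by
        rw [e1]
        exact (Real.ofReal_le_enorm _).trans (enorm_integral_le_lintegral_enorm _)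
    _ ≤ ∫⁻ z in U, (∑ c, ENNReal.ofReal (K c)) * ‖f z‖ₑ := by
        refine lintegral_mono fun z => ?_
        rw [enorm_mul, mul_comm]
        refine mul_le_mul_left (le_trans ?_ (Finset.single_le_sum
          (f := fun c => ENNReal.ofReal (K c)) (fun _ _ => zero_le) (Finset.mem_univ c))) _
        by_cases hz : z ∈ tsupport θ
        · rw [← ofReal_norm]
          exact ENNReal.ofReal_le_ofReal (hK c z hz)
        · rw [C2.cHess_congr (ho z hz), C2.cHess_const, map_zero, enorm_zero]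
          exact zero_le
    _ = _ := lintegral_const_mul' _ _
        (ENNReal.sum_lt_top.2 fun _ _ => ENNReal.ofReal_lt_top).ne

variable {Γ E : Type} [Group Γ] [TopologicalSpace E] [MulAction Γ E] {C : Cov n Γ E}

/-- the trace mass of the metric of a stage, with a bound which does not depend on the stage -/
theorem tr_mass {X : XL C p} (F : XF X) (γ : Γ) (a : C.I) : ∃ K < (⊤ : ℝ≥0∞),
    ∀ (k : ℕ) (Pf : Cm p → ℂ) (j : ℕ) (N e : ℝ) (S : XS F k Pf j N e) (c : Fin n),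
      ∫⁻ z in C.cB 1 a, ENNReal.ofReal (C.om F.A S.κ γ a z c c).re ≤ K := by
  have h4 : C.B (3 / 2) a ⊆ C.B 4 a := C.B_mono (by norm_num) a
  obtain ⟨K, hK, h1⟩ := tr_loc (C.isCompact_cB 1 a) (C.isOpen_B (3 / 2) a)
    (C.cB_sub_B (by norm_num) a)
  have hc : ContinuousOn (fun w => F.A * C.ρ a w) (C.cB (3 / 2) a) := fun z hz =>
    (continuousAt_const.mul (C.ρ_sm a z
      (C.cB_sub_B (by norm_num : (3 / 2 : ℝ) < 4) a hz)).continuousAt).continuousWithinAt
  have h2 : ∫⁻ z in C.B (3 / 2) a, ‖F.A * C.ρ a z‖ₑ < ⊤ :=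
    ((hc.integrableOn_compact (C.isCompact_cB _ a)).mono_set (C.B_sub_cB _ a)).2
  refine ⟨K * ((∫⁻ z in C.B (3 / 2) a, ‖F.A * C.ρ a z‖ₑ) + F.Bκ γ a),
    ENNReal.mul_lt_top hK (ENNReal.add_lt_top.2 ⟨h2, F.Bκ_lt γ a⟩), fun k Pf j N e S c => ?_⟩
  refine (h1 (fun w => F.A * C.ρ a w + S.κ (C.pt γ a w)) (fun z hz =>
    (contDiffAt_const.mul (C.ρ_sm a z (h4 hz))).add (S.κ_sm _ γ a z (h4 hz) rfl))
    (fun z hz => ?_) c).trans (mul_le_mul_right ?_ _)
  · have h3 := (S.κ_ge γ a z (h4 hz) trivial).add (C.ρ_pos a z (h4 hz)).posSemidef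
    simpa only [Cov.om, Pi.sub_apply, one_mul, add_zero, sub_add_cancel] using h3
  · refine (lintegral_mono fun z => enorm_add_le _ _).trans ?_
    rw [lintegral_add_left' ((hc.mono (C.B_sub_cB _ a)).aestronglyMeasurable
      (C.isOpen_B _ a).measurableSet).enorm]
    exact add_le_add_right (S.κ_int γ a) _

end Vale.Agent.P284Y.X56.Sto
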