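import Vale.Agent.P284Y.X56.Spec
import Vale.Agent.P284Y.X56.Alg
import Vale.Agent.P284Y.X56.Sto

/-!
# P284Y, rows ALG1, ALG2 and TR
-/

open scoped ContDiff Topology ComplexOrder ComplexConjugate ENNReal Matrix
open Filter Set Function Metric MeasureTheory

noncomputable section

namespace Vale.Agent.P284Y.X56

open Vale.Agent.P272.K Vale.Agent.P284.H608.K Vale.Agent.P284Z Vale.Agent.P284Z.J

theorem Alg.pb_ct {n p : ℕ} (S : Matrix (Fin p) (Fin n) ℂ) (H : Mx p) : (pb S H)ᴴ = pb S Hᴴ := by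
  have e : (S.map (starRingEnd ℂ))ᴴ = S.transpose := by
    ext i j
    simp
  have e' : (S.transpose)ᴴ = S.map (starRingEnd ℂ) := rfl
  rw [pb, pb, Matrix.conjTranspose_mul, Matrix.conjTranspose_mul, e, e', Matrix.mul_assoc]

theorem Alg.pf_le {n p : ℕ} {h w : Mx n} {H : Mx p} (b : Cm n → Cm p) (z : Cm n) (hh : h.PosDef)
    (hw : w.PosDef) (e : w = h + pb (jm b z) H) :
    (hn w (L.dF b z) (L.dF b z)).re * w.det.re ≤ (hn h (L.dF b z) (L.dF b z)).re * h.det.re := by
  obtain ⟨l, -, hl⟩ := K.exists_dom (Y := Unit) (K := univ) isCompact_univ (A := fun _ => H + Hᴴ)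
    (B := fun _ => (1 : Mx p)) continuousOn_const continuousOn_const
    (fun _ _ => Matrix.isHermitian_add_transpose_self H) fun _ _ => Matrix.PosDef.one
  refine Alg.pf_det (L := fderiv ℂ b z) (l := l / 2) hh hw (fun ξ => L.dF_apply b z ξ) ?_
  have h1 := (Alg.pb_psd (jm b z) (hl () trivial)).smul
    (Complex.zero_le_real.2 (by norm_num : (0 : ℝ) ≤ 1 / 2))
  have h2 : pb (jm b z) Hᴴ = pb (jm b z) H := by
    have h3 := hw.1.sub hh.1
    rw [e, add_sub_cancel_left] at h3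
    rw [← Alg.pb_ct, h3.eq]
  convert h1 using 1
  have h4 : pb (jm b z) ((l : ℂ) • (1 : Mx p) - (H + Hᴴ)) =
      (l : ℂ) • pb (jm b z) 1 - (pb (jm b z) H + pb (jm b z) Hᴴ) := by
    simp only [pb, Matrix.mul_sub, Matrix.sub_mul, Matrix.mul_smul, Matrix.smul_mul,
      Matrix.mul_add, Matrix.add_mul]
  rw [h4, h2, e, ← L.S1.pb_eq]
  push_cast
  module

/-- **ALG1** -/
theorem algSt : AlgSt := fun _ _ h H b z hh hw =>
  (Alg.pf_le b z hh hw rfl).antisymm (Alg.pf_le (H := -H) b z hw hh (by simp [pb]))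

/-- **ALG2** -/
theorem alg2St : Alg2St := fun _ _ _ hw T c => Alg.tn_cs hw T c

/-- **TR** -/
theorem trSt : TrSt := fun _ c r _ h => by
  obtain ⟨K, hK, h1⟩ := Sto.tr_loc (isCompact_closedBall c r) isOpen_ball (closedBall_subset_ball h)
  exact ⟨K, hK, fun u hu l => (lintegral_mono_set ball_subset_closedBall).trans
    (h1 u (fun z hz => (hu z hz).1) (fun z hz => (hu z hz).2) l)⟩

end Vale.Agent.P284Y.X56
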