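import Vale.Agent.P284Y.X56.Spec

/-!
# P284Y, row X6a, piece B1: the tensor `Y`
-/

open scoped ContDiff Topology ENNReal
open Filter Set Function Metric MeasureTheory

noncomputable section

namespace Vale.Agent.P284Y.X56

open Vale.Agent.P272.K Vale.Agent.P284.H608.K Vale.Agent.P284Z Vale.Agent.P284Z.L
  Vale.Agent.P284Y.X Vale.Agent.P284Y.X4 Vale.Agent.P284.H619.K

namespace B1

variable {n p k : ℕ}

theorem tau_af {Y : (Fin k → Fin p → Fin n) → Af n p} {θ y : Af n p}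
    (h : ∀ T, Y T = (∏ l, θ (eb (T l))) • y) (ξ : Fin p → Cm n) : tau Y ξ = θ ξ ^ k * y ξ := by
  rw [tau, map_expand θ ξ, Finset.sum_pow', Fintype.piFinset_univ, Finset.sum_mul]
  refine Finset.sum_congr rfl fun T _ => ?_
  rw [h, Finset.prod_mul_distrib, mul_assoc]
  rfl

theorem tau_zero {Y : (Fin k → Fin p → Fin n) → Af n p} (h : ∀ T, Y T = 0) (ξ : Fin p → Cm n) :
    tau Y ξ = 0 := Finset.sum_eq_zero fun T _ => by rw [h]; exact mul_zero _

theorem af_mat (A : Af n p) (M : Matrix (Fin p) (Fin p) ℂ) (ξ : Fin p → Cm n) :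
    A (fun j => ∑ j', M j j' • ξ j') = M.det * A ξ := by
  let s : (Fin p → ℂ) →ₗ[ℂ] Cm n := Fintype.linearCombination ℂ ξ
  have h1 := AlternatingMap.eq_smul_basis_det (Pi.basisFun ℂ (Fin p))
    (A.toAlternatingMap.compLinearMap s)
  have h2 : (A.toAlternatingMap.compLinearMap s) M = A fun j => ∑ j', M j j' • ξ j' := rfl
  have h3 : (A.toAlternatingMap.compLinearMap s) ⇑(Pi.basisFun ℂ (Fin p)) = A ξ := by
    change A (fun i => s (Pi.basisFun ℂ (Fin p) i)) = A ξ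
    congr 1
    funext i
    rw [Pi.basisFun_apply]
    exact Fintype.linearCombination_apply_single ℂ (v := ξ) i 1 |>.trans (one_smul _ _)
  rw [← h2, h1, h3, mul_comm]
  exact congrArg (fun t => A ξ * t) (Pi.basisFun_det_apply M)

end B1

open B1 in
/-- **B1** -/
theorem stB1 : StB1 := by
  intro n p k Γ E _ _ _ _ C X F Pf j N e S K₀ K₁ Q
  have hc : ∀ γ a, ∀ z ∈ C.B 1 a, C.pt γ a z ∈ S.O → ∃ I, z ∈ X.U a I := fun γ a z hz =>
    S.cover γ a z (C.B_sub_cB _ a (C.B_mono (by norm_num) a hz))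
  refine ⟨fun γ a T z hz => ?_, fun γ g a b z h1 h2 h3 ξ => ?_, fun γ a z hz M ξ => ?_⟩
  · have hp := C.continuousAt_pt (C.B14 hz) γ
    by_cases hO : C.pt γ a z ∈ S.O
    · obtain ⟨I, hI⟩ := hc γ a z hz hO
      have h1 : ContDiffAt ℝ ∞ (fun w => ∏ l, X.θ a I w (eb (T l))) z :=
        ((Finset.analyticAt_fun_prod _ fun l _ =>
          ((ContinuousAlternatingMap.apply ℂ (Cm n) ℂ (eb (T l))).analyticAt _).comp
            (X.θ_an a I z hI)).contDiffAt (n := ∞)).restrict_scalars ℝ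
      refine (h1.smul (Q.sm γ a I z hI hO)).congr_of_eventuallyEq ?_
      filter_upwards [(X.U_opn a I).mem_nhds hI, hp.eventually_mem (S.O_opn.mem_nhds hO)]
        with w w1 w2 using Q.Y_eq γ a I w w1 w2 T
    · obtain ⟨L, L1, L2, L3⟩ := Q.supp
      refine (contDiffAt_const (c := 0)).congr_of_eventuallyEq ?_
      filter_upwards [(C.isOpen_B 1 a).mem_nhds hz,
        hp.eventually_mem (L1.isClosed.isOpen_compl.mem_nhds fun h => hO (L2 h))] with w w1 w2
      by_cases hw : C.pt γ a w ∈ S.O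
      · obtain ⟨I, hI⟩ := hc γ a w w1 hw
        rw [Q.Y_eq γ a I w hI hw T, L3 γ a I w hI w2]
        ext v
        exact mul_zero _
      · exact Q.Y_off γ a w hw T
  · by_cases hO : C.pt (γ * g) a z ∈ S.O
    · have hO' : C.pt γ b (C.tr g a b z) ∈ S.O := by rwa [C.pt_tr h1]
      obtain ⟨I, hI⟩ := hc _ a z h2 hO
      obtain ⟨J, hJ⟩ := hc _ b _ h3 hO'
      rw [tau_af (Q.Y_eq _ a I z hI hO), tau_af (Q.Y_eq γ b J _ hJ hO'),
        Q.ch γ g a b I J z h1 hI hJ hO, (X.θ_ch g a b I J z h1 hI hJ).2 ξ]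
      ring
    · rw [tau_zero (Q.Y_off _ a z hO), tau_zero (Q.Y_off γ b _ (by rwa [C.pt_tr h1]))]
  · by_cases hO : C.pt γ a z ∈ S.O
    · obtain ⟨I, hI⟩ := hc γ a z hz hO
      rw [tau_af (Q.Y_eq γ a I z hI hO), tau_af (Q.Y_eq γ a I z hI hO), af_mat, af_mat]
      ring
    · rw [tau_zero (Q.Y_off γ a z hO), tau_zero (Q.Y_off γ a z hO), mul_zero]

end Vale.Agent.P284Y.X56
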