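import Vale.Agent.P284Y.X56.B3
import Vale.Agent.P284Y.X56.Tub

/-!
# P284Y, row X6a, piece B2: the bound of the tensors in `L²`
-/

open scoped ContDiff Topology ComplexOrder ComplexConjugate ENNReal
open Filter Set Function Metric MeasureTheory

noncomputable section

namespace Vale.Agent.P284Y.X56

open Vale.Agent.P272.K Vale.Agent.P284.H608.K Vale.Agent.P284Z Vale.Agent.P284Z.J
  Vale.Agent.P284Z.L Vale.Agent.P284Y.X Vale.Agent.P284Y.X4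

namespace B2

variable {n p k j : ℕ} {Γ E : Type} [Group Γ] [TopologicalSpace E] [MulAction Γ E] {C : Cov n Γ E}
  {X : XL C p} {F : XF X} {Pf : Cm p → ℂ} {N e : ℝ} {S : XS F k Pf j N e} {K₀ K₁ : ℝ≥0∞}
  {γ : Γ} {a : C.I} {z : Cm n}

theorem eb_le (σ : Fin p → Fin n) : ‖eb σ‖ ≤ 1 :=
  (pi_norm_le_iff_of_nonneg zero_le_one).2 fun j => by rw [eb, Pi.norm_single, norm_one]

theorem sq_add (u v : ℂ) : ‖u + v‖ₑ ^ 2 ≤ 2 * ‖u‖ₑ ^ 2 + 2 * ‖v‖ₑ ^ 2 := by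
  have := ENNReal.rpow_add_le_mul_rpow_add_rpow ‖u‖ₑ ‖v‖ₑ (p := 2) one_le_two
  rw [show (2 : ℝ) - 1 = 1 by norm_num, ENNReal.rpow_one, mul_add] at this
  simp only [ENNReal.rpow_two] at this
  exact (pow_le_pow_left₀ zero_le (enorm_add_le _ _) 2).trans this

theorem tube_le {c : ℝ} (hc : 0 ≤ c) (h : ∀ z ∈ Tub.tc X F.R₁ γ a, ∀ v : Fin p → Cm n, ‖v‖ ≤ 1 →
    ‖ds C X.s γ a z v‖ ≤ c) (hz : z ∈ C.B 1 a) {I : Fin p → Fin n} (hI : z ∈ X.U a I)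
    (T : Fin k → Fin p → Fin n) (σ : Fin p → Fin n) :
    ‖(∏ l, X.θ a I z (eb (T l))) * (S.gb (X.s (C.pt γ a z)) * sg X k γ a I z (eb σ))‖ₑ ^ 2 ≤
      (Tub.tc X F.R₁ γ a).indicator (fun w => ENNReal.ofReal ((c ^ k * c) ^ 2) *
        ‖S.gb (X.s (C.pt γ a w))‖ₑ ^ 2) z := by
  by_cases hT : C.pt γ a z ∈ X.T
  · by_cases hs : ‖X.s (C.pt γ a z) - X.t₀‖ ≤ F.R₁
    · have hm : z ∈ Tub.tc X F.R₁ γ a := ⟨C.B_sub_cB _ a hz, hT, hs⟩
      have h1 := (X.tube_U γ a I z (C.B_mono one_le_two a hz) hT hI).2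
      have h2 : (∏ l, X.θ a I z (eb (T l))) * (S.gb (X.s (C.pt γ a z)) * sg X k γ a I z (eb σ)) =
          (∏ l, ds C X.s γ a z (eb (T l))) * ds C X.s γ a z (eb σ) * S.gb (X.s (C.pt γ a z)) := by
        rw [sg, if_pos hT, ContinuousAlternatingMap.smul_apply, dF_apply,
          Finset.prod_congr rfl fun l _ => h1 (eb (T l)), Finset.prod_mul_distrib,
          Finset.prod_const, Finset.card_univ, Fintype.card_fin, smul_eq_mul, ds, ds]
        ring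
      have h3 : ‖(∏ l, ds C X.s γ a z (eb (T l))) * ds C X.s γ a z (eb σ)‖ ≤ c ^ k * c := by
        rw [norm_mul, norm_prod]
        refine mul_le_mul ?_ (h z hm _ (eb_le σ)) (norm_nonneg _) (by positivity)
        simpa using Finset.prod_le_prod (s := Finset.univ) (fun _ _ => norm_nonneg _)
          fun l _ => h z hm _ (eb_le (T l))
      rw [indicator_of_mem hm, h2, enorm_mul, mul_pow, ← ofReal_norm (_ * _),
        ← ENNReal.ofReal_pow (norm_nonneg _)]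
      exact mul_le_mul_left (ENNReal.ofReal_le_ofReal (pow_le_pow_left₀ (norm_nonneg _) h3 2)) _
    · rw [(S.bs.supp _ (not_le.1 hs).le).1]
      simp
  · rw [sg, if_neg hT]
    simp

theorem pt_le (hk : 1 ≤ k) (Q : EO S K₀ K₁) {c : ℝ} (hc : 0 ≤ c)
    (h : ∀ z ∈ Tub.tc X F.R₁ γ a, ∀ v : Fin p → Cm n, ‖v‖ ≤ 1 → ‖ds C X.s γ a z v‖ ≤ c)
    (hz : z ∈ C.B 1 a) (T : Fin k → Fin p → Fin n) (σ : Fin p → Fin n) :
    ‖ev (Q.Y γ a z T) σ‖ₑ ^ 2 ≤ 2 * ENNReal.ofReal F.M * Q.f₀ γ a z +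
      2 * (Tub.tc X F.R₁ γ a).indicator (fun w => ENNReal.ofReal ((c ^ k * c) ^ 2) *
        ‖S.gb (X.s (C.pt γ a w))‖ₑ ^ 2) z := by
  by_cases hO : C.pt γ a z ∈ S.O
  · obtain ⟨I, hI⟩ := S.cover γ a z (B3.B32 hz) hO
    have h1 : ev (Q.Y γ a z T) σ = (∏ l, X.θ a I z (eb (T l))) * (Q.y γ a I z (eb σ) -
        S.gb (X.s (C.pt γ a z)) * sg X k γ a I z (eb σ)) + (∏ l, X.θ a I z (eb (T l))) *
        (S.gb (X.s (C.pt γ a z)) * sg X k γ a I z (eb σ)) := by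
      rw [Q.Y_eq γ a I z hI hO, ← mul_add, sub_add_cancel]
      rfl
    have h4 := B3.prod_le hk hz hI hO T
    have h5 : 0 ≤ F.M := nonneg_of_mul_nonneg_left ((sq_nonneg _).trans h4) (Real.exp_pos _)
    rw [h1]
    refine (sq_add _ _).trans (add_le_add ?_ (mul_le_mul_right (tube_le hc h hz hI T σ) _))
    rw [mul_assoc]
    refine mul_le_mul_right (le_trans ?_
      (mul_le_mul_right (Q.p₀ γ a I z hz hI hO (eb σ) (eb_le σ)) _)) _
    rw [← ofReal_norm, ← ENNReal.ofReal_pow (norm_nonneg _), ← ENNReal.ofReal_mul h5, norm_mul,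
      mul_pow, ← mul_assoc]
    exact ENNReal.ofReal_le_ofReal (mul_le_mul_of_nonneg_right h4 (sq_nonneg _))
  · rw [Q.Y_off γ a z hO]
    simp [ev]

end B2

open B2 in
/-- **B2** -/
theorem stB2 : StB2 := by
  intro _ n p k Γ E _ _ _ _ _ C X F Pf hk hP Z
  have hr : F.R₁ < X.R := F.R₁_lt.trans (F.R₂_lt.trans F.R₃_lt)
  obtain ⟨c, hc, h⟩ := Tub.ds_bd hr
  obtain ⟨B, hB, h'⟩ := Tub.g_l2 F hP hr
  have hM : 2 * ENNReal.ofReal F.M ≠ ⊤ := by finiteness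
  refine ⟨2 * ENNReal.ofReal F.M * Z.K₀ + 2 * (ENNReal.ofReal ((c ^ k * c) ^ 2) * B),
    ENNReal.add_lt_top.2 ⟨ENNReal.mul_lt_top hM.lt_top Z.K₀_lt, ENNReal.mul_lt_top (by simp)
      (ENNReal.mul_lt_top ENNReal.ofReal_lt_top hB)⟩, fun i a T σ => ?_⟩
  refine le_trans (ENNReal.tsum_le_tsum (g := fun γ => 2 * ENNReal.ofReal F.M *
    (∫⁻ z in C.B 1 a, (Z.Q i).f₀ γ a z) + 2 * (ENNReal.ofReal ((c ^ k * c) ^ 2) *
      ∑ a, ∫⁻ z in Tub.tc X F.R₁ γ a, ‖(Z.S i).gb (X.s (C.pt γ a z))‖ₑ ^ 2)) fun γ => ?_) ?_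
  · refine (setLIntegral_mono' (C.isOpen_B 1 a).measurableSet fun z hz =>
      pt_le hk (Z.Q i) hc (h γ a) hz T σ).trans ?_
    rw [lintegral_add_left' (((Z.Q i).meas₀ γ a).const_mul _), lintegral_const_mul' _ _ hM,
      lintegral_const_mul' _ _ (by simp)]
    refine add_le_add_right (mul_le_mul_right ((setLIntegral_le_lintegral _ _).trans
      ((lintegral_indicator_le _ _).trans ?_)) _) _
    rw [lintegral_const_mul' _ _ ENNReal.ofReal_ne_top]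
    exact mul_le_mul_right (Finset.single_le_sum (f := fun a => ∫⁻ z in Tub.tc X F.R₁ γ a,
      ‖(Z.S i).gb (X.s (C.pt γ a z))‖ₑ ^ 2) (fun _ _ => zero_le) (Finset.mem_univ a)) _
  · rw [ENNReal.tsum_add, ENNReal.tsum_mul_left, ENNReal.tsum_mul_left, ENNReal.tsum_mul_left]
    exact add_le_add (mul_le_mul_right ((Z.Q i).int₀ a) _)
      (mul_le_mul_right (mul_le_mul_right (h' _ _ _ _ _ (Z.S i).bs) _) _)

end Vale.Agent.P284Y.X56
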