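import Vale.Agent.P284Y.X56.Spec

/-!
# P284Y, row X6a, piece B3: the anti-holomorphic derivative of the tensors tends to zero
-/

open scoped ContDiff Topology ComplexOrder ComplexConjugate ENNReal
open Filter Set Function Metric MeasureTheory

noncomputable section

namespace Vale.Agent.P284Y.X56

open Vale.Agent.P272.K Vale.Agent.P284.H608.K Vale.Agent.P284Z Vale.Agent.P284Z.J
  Vale.Agent.P284Z.L Vale.Agent.P284Y.X Vale.Agent.P284Y.X4

namespace B3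

variable {n p k j : ℕ} {Γ E : Type} [Group Γ] [TopologicalSpace E] [MulAction Γ E] {C : Cov n Γ E}
  {X : XL C p} {F : XF X} {Pf : Cm p → ℂ} {N e : ℝ} {S : XS F k Pf j N e} {K₀ K₁ : ℝ≥0∞}
  {γ : Γ} {a : C.I} {z : Cm n}

theorem B32 (hz : z ∈ C.B 1 a) : z ∈ C.cB (3 / 2) a :=
  C.B_sub_cB _ a (C.B_mono (by norm_num) a hz)

theorem prod_le (hk : 1 ≤ k) (hz : z ∈ C.B 1 a) {I : Fin p → Fin n} (hI : z ∈ X.U a I)
    (hO : C.pt γ a z ∈ S.O) (T : Fin k → Fin p → Fin n) :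
    ‖∏ l, X.θ a I z (eb (T l))‖ ^ 2 ≤ F.M * Real.exp (-S.ψ γ a I z) := by
  obtain ⟨l, -, hl⟩ := Finset.exists_max_image Finset.univ (fun l => ‖X.θ a I z (eb (T l))‖)
    ⟨⟨0, hk⟩, Finset.mem_univ _⟩
  have h1 := S.up γ a I z hI (B32 hz) hO (eb (T l))
    ((pi_norm_le_iff_of_nonneg zero_le_one).2 fun j => by rw [eb, Pi.norm_single, norm_one])
  have h2 : ‖∏ l, X.θ a I z (eb (T l))‖ ≤ ‖X.θ a I z (eb (T l))‖ ^ k := by
    rw [norm_prod]
    simpa using Finset.prod_le_prod (fun _ _ => norm_nonneg _) hl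
  rw [Real.exp_neg, ← div_eq_mul_inv, le_div_iff₀ (Real.exp_pos _)]
  refine le_trans (mul_le_mul_of_nonneg_right ?_ (Real.exp_pos _).le) h1
  rw [mul_comm 2 k, pow_mul]
  exact pow_le_pow_left₀ (norm_nonneg _) h2 2

theorem pt_le [T2Space E] (hk : 1 ≤ k) (Q : EO S K₀ K₁) (hz : z ∈ C.B 1 a)
    (T : Fin k → Fin p → Fin n) (σ : Fin p → Fin n) (c : Fin n) :
    ‖dzb c (fun w => ev (Q.Y γ a w T) σ) z‖ₑ ^ 2 ≤
      ENNReal.ofReal F.M * (ENNReal.ofReal (C.om F.A S.κ γ a z c c).re * Q.f₁ γ a z) := by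
  have h0 := C.continuousAt_pt (C.B14 hz) γ
  by_cases hO : C.pt γ a z ∈ S.O
  · obtain ⟨I, hI⟩ := S.cover γ a z (B32 hz) hO
    have h1 : (fun w => ev (Q.Y γ a w T) σ) =ᶠ[𝓝 z]
        fun w => (∏ l, X.θ a I w (eb (T l))) * ev (Q.y γ a I w) σ := by
      filter_upwards [(X.U_opn a I).mem_nhds hI, h0.eventually_mem (S.O_opn.mem_nhds hO)]
        with w k1 k2
      rw [Q.Y_eq γ a I w k1 k2]
      rfl
    have h2 : DifferentiableAt ℂ (fun w => ∏ l, X.θ a I w (eb (T l))) z :=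
      (Finset.analyticAt_fun_prod _ fun l _ => ((ContinuousAlternatingMap.apply ℂ (Cm n) ℂ
        (eb (T l))).analyticAt _).comp (X.θ_an a I z hI)).differentiableAt
    have h3 : DifferentiableAt ℝ (fun w => ev (Q.y γ a I w) σ) z :=
      (((ContinuousAlternatingMap.apply ℂ (Cm n) ℂ (eb σ)).restrictScalars ℝ).differentiableAt).comp
        z ((Q.sm γ a I z hI hO).differentiableAt (by simp))
    have h4 := prod_le hk hz hI hO T
    have h5 : 0 ≤ F.M := nonneg_of_mul_nonneg_left ((sq_nonneg _).trans h4) (Real.exp_pos _)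
    rw [INT.dzb_congr h1, INT.dzb_mul (h2.restrictScalars ℝ) h3, INT.dzb_of_holo h2, zero_mul,
      zero_add, ← ofReal_norm, ← ENNReal.ofReal_pow (norm_nonneg _)]
    refine le_trans ?_ (mul_le_mul_right (Q.p₁ γ a I z hz hI hO c σ) _)
    rw [← ENNReal.ofReal_mul h5, norm_mul, mul_pow, ← mul_assoc]
    exact ENNReal.ofReal_le_ofReal (mul_le_mul_of_nonneg_right h4 (sq_nonneg _))
  · obtain ⟨L, h1, h2, h3⟩ := Q.supp
    have h4 : (fun w => ev (Q.Y γ a w T) σ) =ᶠ[𝓝 z] fun _ => 0 := by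
      filter_upwards [(C.isOpen_B 1 a).mem_nhds hz,
        h0.eventually_mem (h1.isClosed.isOpen_compl.mem_nhds fun h => hO (h2 h))] with w k1 k2
      by_cases k3 : C.pt γ a w ∈ S.O
      · obtain ⟨I, hI⟩ := S.cover γ a w (B32 k1) k3
        rw [Q.Y_eq γ a I w hI k3, h3 γ a I w hI k2]
        exact mul_zero _
      · rw [Q.Y_off γ a w k3]
        rfl
    rw [INT.dzb_congr h4, INT.dzb_const]
    simp

theorem amgm {x M u f t : ℝ≥0∞} (h0 : t ≠ 0) (ht : t ≠ ⊤) (h : x ^ 2 ≤ M * (u * f)) :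
    x ≤ t * u + M * t⁻¹ * f := by
  refine (ENNReal.pow_le_pow_left_iff two_ne_zero).1 (h.trans ?_)
  rw [sq, show M * (u * f) = t * u * (M * t⁻¹ * f) by
    rw [show t * u * (M * t⁻¹ * f) = t * t⁻¹ * (M * (u * f)) by ring,
      ENNReal.mul_inv_cancel h0 ht, one_mul]]
  exact mul_le_mul' le_self_add le_add_self

theorem mass (hT : TrSt) (F : XF X) (γ : Γ) (a : C.I) : ∃ B < (⊤ : ℝ≥0∞),
    ∀ j N e (S : XS F k Pf j N e) c,
      ∫⁻ z in C.B 1 a, ENNReal.ofReal (C.om F.A S.κ γ a z c c).re ≤ B := by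
  obtain ⟨K, hK, h⟩ := hT n (C.c a) (1 * C.r a) (3 / 2 * C.r a)
    (mul_lt_mul_of_pos_right (by norm_num) (C.r_pos a))
  have h4 : C.cB (3 / 2) a ⊆ C.B 4 a := C.cB_sub_B (by norm_num) a
  have hc : ContinuousOn (fun w => F.A * C.ρ a w) (C.cB (3 / 2) a) := fun w hw =>
    (continuousAt_const.mul (C.ρ_sm a w (h4 hw)).continuousAt).continuousWithinAt
  have hi : IntegrableOn (fun w => F.A * C.ρ a w) (C.B (3 / 2) a) :=
    (hc.integrableOn_compact (C.isCompact_cB _ a)).mono_set (C.B_sub_cB _ a)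
  refine ⟨K * ((∫⁻ w in C.B (3 / 2) a, ‖F.A * C.ρ a w‖ₑ) + F.Bκ γ a),
    ENNReal.mul_lt_top hK (ENNReal.add_lt_top.2 ⟨hi.2, F.Bκ_lt γ a⟩), fun j N e S c => ?_⟩
  refine (h (fun w => F.A * C.ρ a w + S.κ (C.pt γ a w)) (fun w hw => ?_) c).trans
    (mul_le_mul_right ?_ K)
  · have hw4 := h4 (C.B_sub_cB _ a hw)
    refine ⟨(contDiffAt_const.mul (C.ρ_sm a w hw4)).add (S.κ_sm _ γ a w hw4 rfl), ?_⟩
    have := (C.ρ_pos a w hw4).posSemidef.add (S.κ_ge γ a w hw4 (mem_univ _))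
    simpa only [Cov.om, Pi.sub_apply, one_mul, add_zero, add_sub_cancel] using this
  · refine (lintegral_mono fun w => enorm_add_le _ _).trans ?_
    exact (lintegral_add_left' hi.1.enorm _).trans_le (add_le_add_right (S.κ_int γ a) _)

end B3

open B3 in
/-- **B3** -/
theorem stB3 : StB3 := by
  intro hT n p k Γ E _ _ _ _ _ C X F Pf hk Z γ a T σ c
  obtain ⟨B, hB, h⟩ := mass (k := k) (Pf := Pf) hT F γ a
  refine ENNReal.tendsto_nhds_zero.2 fun ε hε => ?_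
  have h2 := ENNReal.half_pos hε.ne'
  obtain ⟨t, ht, h1⟩ := ENNReal.exists_nnreal_pos_mul_lt hB.ne h2.ne'
  have t0 : (t : ℝ≥0∞) ≠ 0 := ENNReal.coe_ne_zero.2 ht.ne'
  have hM : ENNReal.ofReal F.M * (t : ℝ≥0∞)⁻¹ ≠ ⊤ :=
    ENNReal.mul_ne_top ENNReal.ofReal_ne_top (ENNReal.inv_ne_top.2 t0)
  have h3 := ENNReal.Tendsto.const_mul Z.K₁_tend (Or.inr hM)
  rw [mul_zero] at h3
  filter_upwards [ENNReal.tendsto_nhds_zero.1 h3 _ h2] with i hi
  refine (setLIntegral_mono' (C.isOpen_B 1 a).measurableSet fun z hz =>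
    amgm t0 ENNReal.coe_ne_top (pt_le hk (Z.Q i) hz T σ c)).trans ?_
  rw [lintegral_add_right' _ (((Z.Q i).meas₁ γ a).const_mul _),
    lintegral_const_mul' _ _ ENNReal.coe_ne_top, lintegral_const_mul' _ _ hM,
    ← ENNReal.add_halves ε]
  exact add_le_add ((mul_le_mul_right (h _ _ _ _ c) _).trans h1.le) ((mul_le_mul_right
    ((ENNReal.le_tsum γ).trans ((Z.Q i).int₁ a)) _).trans hi)

end Vale.Agent.P284Y.X56
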