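import Vale.Agent.P284Y.X56.Lt1
import Vale.Agent.P284Z.L.S8a

/-!
# P284Y, row X6b: local lemmas
-/

open scoped ContDiff Topology ENNReal
open Filter Set Function Metric MeasureTheory

noncomputable section

namespace Vale.Agent.P284Y.X56.Lt

open Vale.Agent.P272.K Vale.Agent.P284.H608.K Vale.Agent.P284Z Vale.Agent.P284Z.L
  Vale.Agent.P284Y.X Vale.Agent.P284.H619.K

variable {n p k : ℕ}

/-- the monomials -/
def cf (x : (Fin k → Fin p → Fin n) × (Fin p → Fin n)) (ξ : Fin p → Cm n) : ℂ :=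
  (∏ l, ∏ j, ξ j (x.1 l j)) * ∏ j, ξ j (x.2 j)

theorem tau_expand (Y : (Fin k → Fin p → Fin n) → Af n p) (ξ : Fin p → Cm n) :
    tau Y ξ = ∑ x, cf x ξ * ev (Y x.1) x.2 := by
  rw [tau, Fintype.sum_prod_type]
  refine Finset.sum_congr rfl fun T _ => ?_
  rw [map_expand, Finset.mul_sum]
  exact Finset.sum_congr rfl fun σ _ => (mul_assoc _ _ _).symm

theorem an_cf (x : (Fin k → Fin p → Fin n) × (Fin p → Fin n)) (ξ : Fin p → Cm n) :
    AnalyticAt ℂ (cf x) ξ := by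
  have h : ∀ j c, AnalyticAt ℂ (fun η : Fin p → Cm n => η j c) ξ := fun j c => by
    have h1 : ContDiffAt ℂ ω (fun η : Fin p → Cm n => η j c) ξ := by fun_prop
    exact h1.analyticAt
  exact (Finset.analyticAt_fun_prod _ fun l _ => Finset.analyticAt_fun_prod _ fun j _ => h _ _).mul
    (Finset.analyticAt_fun_prod _ fun j _ => h _ _)

theorem cf_le (R : ℝ) : ∃ c < (⊤ : ℝ≥0∞), ∀ (F : (Fin k → Fin p → Fin n) × (Fin p → Fin n) → ℂ)
    (ξ : Fin p → Cm n), ‖ξ‖ ≤ R → ‖∑ x, cf x ξ * F x‖ₑ ^ 2 ≤ c * ∑ x, ‖F x‖ₑ ^ 2 := by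
  have hc : Continuous fun ξ : Fin p → Cm n =>
      ∑ x : (Fin k → Fin p → Fin n) × (Fin p → Fin n), ‖cf x ξ‖ ^ 2 :=
    continuous_finsetSum _ fun x _ =>
      (continuous_iff_continuousAt.2 fun ξ => (an_cf x ξ).continuousAt).norm.pow 2
  obtain ⟨M, hM⟩ := (isCompact_closedBall (0 : Fin p → Cm n) R).bddAbove_image hc.continuousOn
  refine ⟨ENNReal.ofReal M, ENNReal.ofReal_lt_top, fun F ξ hξ => ?_⟩
  have h1 := hM ⟨ξ, mem_closedBall_zero_iff.2 hξ, rfl⟩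
  have h0 : 0 ≤ M := (Finset.sum_nonneg fun _ _ => by positivity).trans h1
  have h2 : ‖∑ x, cf x ξ * F x‖ ^ 2 ≤ M * ∑ x, ‖F x‖ ^ 2 := by
    refine (pow_le_pow_left₀ (norm_nonneg _) (norm_sum_le _ _) 2).trans ?_
    simp only [norm_mul]
    exact (Finset.sum_mul_sq_le_sq_mul_sq _ _ _).trans
      (mul_le_mul_of_nonneg_right h1 (Finset.sum_nonneg fun _ _ => by positivity))
  rw [← ofReal_norm, ← ENNReal.ofReal_pow (norm_nonneg _)]
  refine (ENNReal.ofReal_le_ofReal h2).trans_eq ?_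
  rw [ENNReal.ofReal_mul h0, ENNReal.ofReal_sum_of_nonneg fun _ _ => by positivity]
  simp only [ENNReal.ofReal_pow (norm_nonneg _), ofReal_norm]

theorem tau_dd {Y : (Fin k → Fin p → Fin n) → Af n p} {y : Af n p} {b : Cm n → Cm p} {z : Cm n}
    (h : ∀ T, Y T = (∏ l, dd b z (eb (T l))) • y) (ξ : Fin p → Cm n) :
    tau Y ξ = dd b z ξ ^ k * y ξ := by
  rw [tau, S8b.dd_expand b z ξ, Finset.sum_pow', Fintype.piFinset_univ, Finset.sum_mul]
  refine Finset.sum_congr rfl fun T _ => ?_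
  rw [h, Finset.prod_mul_distrib, mul_assoc]
  rfl

theorem exists_eb {b : Cm n → Cm p} {z : Cm n} (h : Surjective (fderiv ℂ b z)) :
    ∃ σ, dd b z (eb σ) ≠ 0 := by
  obtain ⟨ξ, hξ⟩ := S8b.exists_frame h
  rw [S8b.dd_expand] at hξ
  obtain ⟨σ, -, h1⟩ := Finset.exists_ne_zero_of_sum_ne_zero hξ
  exact ⟨σ, right_ne_zero_of_mul h1⟩

/-- limits of alternating forms -/
theorem af_lim {A : ℕ → Af n p} {f : (Fin p → Fin n) → ℂ}
    (h : ∀ σ, Tendsto (fun m => ev (A m) σ) atTop (𝓝 (f σ))) :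
    ∃ η : Af n p, ∀ v, Tendsto (fun m => A m v) atTop (𝓝 (η v)) := by
  let L : Af n p →ₗ[ℂ] (Fin p → Fin n) → ℂ := ⟨⟨ev, fun _ _ => rfl⟩, fun _ _ => rfl⟩
  obtain ⟨η, hη⟩ := (LinearMap.range L).closed_of_finiteDimensional.mem_of_tendsto
    (tendsto_pi_nhds.2 h) (Eventually.of_forall fun m => ⟨A m, rfl⟩)
  refine ⟨η, fun v => ?_⟩
  simp only [fun B : Af n p => map_expand B v]
  have e : ∀ σ, ev η σ = f σ := congrFun hη
  exact tendsto_finsetSum _ fun σ _ => (e σ ▸ h σ : Tendsto _ _ (𝓝 (ev η σ))).const_mul _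

/-- a form killed by the differentials of a submersion -/
theorem eq_dd {η : Af n p} {b : Cm n → Cm p} {z : Cm n} (hb : Surjective (fderiv ℂ b z))
    (h : ∀ c (v : Fin (p + 1) → Cm n), ‖v‖ ≤ 1 → wd (tL (fderiv ℂ b z) c) η v = 0) :
    ∃ c, ∀ ξ, η ξ = c * dd b z ξ := by
  choose ξ₀ hξ using fun j : Fin p => hb (Pi.single j 1)
  refine ⟨η ξ₀, fun ξ => ?_⟩
  rw [eq_det (θ := tL (fderiv ℂ b z)) (ξ := ξ₀) (fun c => ?_) (fun l j => ?_) ξ, dd,
    ← Matrix.det_transpose]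
  · simp only [pv_tL]
    rfl
  · ext v
    rw [map_expand]
    exact Finset.sum_eq_zero fun σ _ => mul_eq_zero_of_right _ (h c _ (S8b.norm_eb σ))
  · rw [pv_tL, hξ, Pi.single_apply]

theorem wd_lim {A : ℕ → Af n p} {η : Af n p} (h : ∀ v, Tendsto (fun m => A m v) atTop (𝓝 (η v)))
    (θ : Fin n → ℂ) (v : Fin (p + 1) → Cm n) :
    Tendsto (fun m => wd θ (A m) v) atTop (𝓝 (wd θ η v)) := by
  simp only [wd_apply']
  exact tendsto_finsetSum _ fun i _ => ((h _).const_mul _).const_mul _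

/-- an analytic function which vanishes on a set of positive measure -/
theorem zero_of_pos {f : Cm n → ℂ} {z₀ : Cm n} {r : ℝ} (hf : AnalyticOnNhd ℂ f (ball z₀ r))
    {Q : Cm n → Prop} (hQ : 0 < volume {z ∈ ball z₀ r | Q z})
    (h : ∀ᵐ z, z ∈ ball z₀ r → Q z → f z = 0) : ∀ z ∈ ball z₀ r, f z = 0 := by
  have : (volume : Measure (Cm n)).IsAddHaarMeasure := Measure.pi.isAddHaarMeasure _
  by_contra h0
  push Not at h0
  refine hQ.ne' (measure_mono_null (fun z hz => ?_) (ae_iff.1 (h.and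
    (ae_ne_zero volume isOpen_ball (convex_ball z₀ r).isPreconnected hf h0))))
  exact fun h1 => h1.2 hz.1 (h1.1 hz.1 hz.2)

theorem freq_ae {Q : Cm n → Prop} {U : Set (Cm n)} {z : Cm n} (hU : U ∈ 𝓝 z)
    (h : ∀ᵐ w, w ∈ U → Q w) : ∃ᶠ w in 𝓝 z, Q w :=
  ((mem_closure_iff_frequently.1 (Measure.dense_of_ae h z)).and_eventually hU).mono
    fun _ hw => hw.1 hw.2

theorem pw_mono (t₀ t : Cm p) {j j' : ℕ} (h : j ≤ j') : pw n t₀ j t ≤ pw n t₀ j' t := by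
  have h0 := S8a.nsq_nonneg (t - t₀)
  refine inv_anti₀ (by positivity) (pow_le_pow_left₀ (by positivity) ?_ _)
  exact add_le_add_right (Nat.one_div_le_one_div h) _

/-- contact of order two -/
theorem contact {G : Cm n → ℂ} {b : Cm n → Cm p} {z₀ : Cm n} (hG : AnalyticAt ℂ G z₀)
    (hb : AnalyticAt ℂ b z₀) {D : Set (Cm n)} (hD : D ∈ 𝓝 z₀) {B : ℝ≥0∞} (hB : B < ⊤)
    (h : ∀ j, ∫⁻ z in D, ENNReal.ofReal (‖G z‖ ^ 2 * pw n (b z₀) j (b z)) ≤ B) :
    G z₀ = 0 ∧ HasFDerivAt G (0 : Cm n →L[ℂ] ℂ) z₀ := by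
  obtain ⟨K, hK, h4⟩ := hb.differentiableAt.isBigO_sub.exists_pos
  obtain ⟨r, hr, h5⟩ := Metric.eventually_nhds_iff_ball.1 (h4.bound.and
    (hG.eventually_analyticAt.and hD))
  have hv := S8a.vol_pos (n := n)
  set v := (volume (ball (0 : Cm n) 1)).toReal
  refine S8a.jet_eq (K := B.toReal * (4 * p * K ^ 2) ^ (n + 2) / v) (half_pos hr)
    fun ρ hρ hρ' w hw => ?_
  have k1 : ∀ x ∈ ball w ρ, ‖x - z₀‖ < 2 * ρ := fun x hx => by
    have := dist_triangle x w z₀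
    rw [dist_eq_norm x z₀, dist_eq_norm w z₀] at this
    linarith [mem_ball.1 hx]
  have k3 := fun x hx => h5 x (mem_ball_iff_norm.2 (by linarith [k1 x hx] : ‖x - z₀‖ < r))
  have k5 : ∀ j : ℕ, ‖G w‖ ^ 2 * (ρ ^ (2 * n) * v) ≤
      B.toReal * (4 * p * K ^ 2 * ρ ^ 2 + 1 / (j + 1 : ℝ)) ^ (n + 2) := fun j => by
    have k6 : 0 < (4 * p * K ^ 2 * ρ ^ 2 + 1 / (j + 1 : ℝ)) ^ (n + 2) := by positivity
    rw [← mul_inv_le_iff₀ k6, mul_right_comm]
    refine S8a.mean hρ (inv_pos.2 k6).le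
      (fun x hx => (k3 x hx).2.1.differentiableAt.differentiableWithinAt)
      (fun x hx => (k3 x hx).2.2) (fun x hx => ?_) hB (h j)
    refine ENNReal.ofReal_le_ofReal (mul_le_mul_of_nonneg_left ?_ (by positivity))
    have k8 := S8a.nsq_nonneg (b x - b z₀)
    refine inv_anti₀ (by positivity) (pow_le_pow_left₀ (by positivity) ?_ _)
    have k9 : ‖b x - b z₀‖ ≤ K * (2 * ρ) :=
      (k3 x hx).1.trans (mul_le_mul_of_nonneg_left (k1 x hx).le hK.le)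
    have k10 := (S8a.nsq_le _).trans (mul_le_mul_of_nonneg_left
      (pow_le_pow_left₀ (norm_nonneg _) k9 2) (Nat.cast_nonneg p))
    linarith
  have k6 := ge_of_tendsto' ((((tendsto_one_div_add_atTop_nhds_zero_nat (𝕜 := ℝ)).const_add
    _).pow (n + 2)).const_mul _) k5
  rw [div_mul_eq_mul_div, le_div_iff₀ hv]
  refine le_of_mul_le_mul_right ?_ (pow_pos hρ (2 * n))
  refine (le_of_eq (by ring)).trans (k6.trans (le_of_eq ?_))
  rw [add_zero, mul_pow _ (ρ ^ 2)]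
  ring

end Vale.Agent.P284Y.X56.Lt
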