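import Vale.Agent.P284Y.X56.Spec
import Vale.Agent.P284Y.X56.Lt2

/-!
# P284Y, row X6a: the solutions near the base point
-/

open scoped ContDiff Topology ComplexOrder ComplexConjugate ENNReal
open Filter Set Function Metric MeasureTheory

noncomputable section

namespace Vale.Agent.P284Y.X56

open Vale.Agent.P272.K Vale.Agent.P284.H608.K Vale.Agent.P284Z Vale.Agent.P284Z.J
  Vale.Agent.P284Z.L Vale.Agent.P284Y.X Vale.Agent.P284Y.X4 Vale.Agent.P284.H619.K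

namespace B4

variable {n p k j : ℕ} {Γ E : Type} [Group Γ] [TopologicalSpace E] [MulAction Γ E] {C : Cov n Γ E}
  {X : XL C p} {F : XF X} {Pf : Cm p → ℂ} {N e : ℝ} {S : XS F k Pf j N e} {K₀ K₁ : ℝ≥0∞}
  (Q : EO S K₀ K₁) {γ : Γ} {a : C.I} {z : Cm n} {J : Fin p → Fin n}

theorem wd_smul (θ : Fin n → ℂ) (c : ℂ) (τ : Af n p) (v : Fin (p + 1) → Cm n) :
    wd θ (c • τ) v = c * wd θ τ v := by
  simp only [wd_apply', Finset.mul_sum, ContinuousAlternatingMap.smul_apply, smul_eq_mul]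
  exact Finset.sum_congr rfl fun _ _ => by ring

theorem eb_le (σ : Fin p → Fin n) : ‖(eb σ : Fin p → Cm n)‖ ≤ 1 :=
  (pi_norm_le_iff_of_nonneg zero_le_one).2 fun j => by simp [eb, Pi.norm_single]

theorem pw_pos (t₀ t : Cm p) (j : ℕ) : 0 < pw n t₀ j t := by
  have := S8a.nsq_nonneg (t - t₀)
  unfold pw
  positivity

theorem le_pw {t₀ t : Cm p} {R : ℝ} (h : t ∈ ball t₀ R) (j : ℕ) :
    ((p * R ^ 2 + 1) ^ (n + 2))⁻¹ ≤ pw n t₀ j t := by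
  refine le_trans (inv_anti₀ (inv_pos.1 (pw_pos t₀ t 0)) (pow_le_pow_left₀
    (by linarith [S8a.nsq_nonneg (t - t₀)]) ?_ _)) (Lt.pw_mono t₀ t j.zero_le)
  simpa [nsq] using Finset.sum_le_card_nsmul Finset.univ (fun i => ‖(t - t₀) i‖ ^ 2) (R ^ 2)
    fun i _ => pow_le_pow_left₀ (norm_nonneg _)
      ((norm_le_pi_norm _ i).trans (mem_ball_iff_norm.1 h).le) 2

/-- the component in the frame `ds` -/
def yd (γ : Γ) (a : C.I) (J : Fin p → Fin n) (z : Cm n) : Af n p :=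
  (ds C X.s γ a z (eb J) ^ k)⁻¹ • Q.Y γ a z fun _ => J

theorem key (hz : z ∈ C.B 1 a) (hT : C.pt γ a z ∈ X.T) (hR : X.s (C.pt γ a z) ∈ ball X.t₀ F.R₂)
    (h0 : ds C X.s γ a z (eb J) ≠ 0) :
    (∀ T, Q.Y γ a z T = (∏ l, ds C X.s γ a z (eb (T l))) • yd Q γ a J z) ∧
    (yd Q γ a J z = 0 ∧ S.gb (X.s (C.pt γ a z)) = 0 ∨ ∃ I, z ∈ X.U a I ∧ C.pt γ a z ∈ S.O ∧
      ∃ c : ℂ, c * ds C X.s γ a z (eb I) ^ k = 1 ∧ yd Q γ a J z = c • Q.y γ a I z ∧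
        Real.exp (-S.ψ γ a I z) = Real.exp (-S.ψb (X.s (C.pt γ a z))) * ‖c‖ ^ 2) := by
  by_cases hO : C.pt γ a z ∈ S.O
  · obtain ⟨I, hI⟩ := S.cover γ a z (C.B_sub_cB _ _ (C.B_mono (by norm_num) a hz)) hO
    obtain ⟨h1, h2⟩ := X.tube_U γ a I z (X.U_sub a I hI) hT hI
    have h3 : ∀ T, Q.Y γ a z T = (∏ l, ds C X.s γ a z (eb (T l))) •
        (ds C X.s γ a z (eb I) ^ k)⁻¹ • Q.y γ a I z := fun T => by
      rw [Q.Y_eq γ a I z hI hO, smul_smul, Finset.prod_congr rfl fun l _ => h2 (eb (T l)),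
        Finset.prod_mul_distrib, Finset.prod_const, Finset.card_univ, Fintype.card_fin,
        mul_right_comm, mul_inv_cancel₀ (pow_ne_zero _ h1), one_mul]
    have h4 : yd Q γ a J z = (ds C X.s γ a z (eb I) ^ k)⁻¹ • Q.y γ a I z := by
      rw [yd, h3, Finset.prod_const, Finset.card_univ, Fintype.card_fin,
        inv_smul_smul₀ (pow_ne_zero _ h0)]
    refine ⟨h4 ▸ h3, .inr ⟨I, hI, hO, _, inv_mul_cancel₀ (pow_ne_zero _ h1), h4, ?_⟩⟩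
    rw [S.ψ_tube γ a I z hI hT (ball_subset_ball F.R₂_lt.le hR), neg_add, Real.exp_add,
      Real.exp_neg (k * _), Real.exp_nat_mul, Real.exp_log (by positivity), norm_inv, norm_pow,
      inv_pow, ← pow_mul, ← pow_mul, mul_comm k]
  · have h1 : yd Q γ a J z = 0 := by ext; simp [yd, Q.Y_off γ a z hO]
    refine ⟨fun T => by ext; simp [h1, Q.Y_off γ a z hO], .inl ⟨h1, not_not.1 fun h => ?_⟩⟩
    obtain ⟨L, -, h2, h3⟩ := S.χ_supp
    exact one_ne_zero ((S.one _ hT (subset_tsupport _ h)).self_of_nhds.symm.trans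
      (h3 _ fun h4 => hO (h2 h4)))

theorem wedge (hz : z ∈ C.B 1 a) (hT : C.pt γ a z ∈ X.T) (hR : X.s (C.pt γ a z) ∈ ball X.t₀ F.R₂)
    (h0 : ds C X.s γ a z (eb J) ≠ 0) (hG : X.s (C.pt γ a z) ∈ F.G) (c : Fin p)
    {v : Fin (p + 1) → Cm n} (hv : ‖v‖ ≤ 1) :
    ‖wd (tL (fderiv ℂ (fun w => X.s (C.pt γ a w)) z) c) (yd Q γ a J z) v‖ₑ ^ 2 ≤
      ENNReal.ofReal ((p * F.R₂ ^ 2 + 1) ^ (n + 2) * |F.B|) * Q.f₁ γ a z := by
  rcases (key Q hz hT hR h0).2 with ⟨h1, -⟩ | ⟨I, hI, hO, d, -, h1, h2⟩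
  · simp [h1, wd_apply']
  refine le_trans ?_ (mul_le_mul_right (Q.p₂ γ a I z hz hI hO hT hG hR c v hv) _)
  have h3 := (inv_le_iff_one_le_mul₀' (by positivity)).1 ((le_pw hR j).trans
    ((S.bs.pw_le _ hR).trans (mul_le_mul_of_nonneg_right (le_abs_self _) (Real.exp_pos _).le)))
  rw [h1, wd_smul, h2, ← ofReal_norm, ← ENNReal.ofReal_pow (norm_nonneg _),
    ← ENNReal.ofReal_mul (by positivity), norm_mul, mul_pow]
  exact ENNReal.ofReal_le_ofReal ((le_mul_of_one_le_left (by positivity) h3).trans_eq (by ring))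

theorem jets (hz : z ∈ C.B 1 a) (hT : C.pt γ a z ∈ X.T) (hR : X.s (C.pt γ a z) ∈ ball X.t₀ F.R₂)
    (h0 : ds C X.s γ a z (eb J) ≠ 0) (σ : Fin p → Fin n) :
    ENNReal.ofReal (‖ev (yd Q γ a J z) σ - Pf (X.s (C.pt γ a z)) * ds C X.s γ a z (eb σ)‖ ^ 2 *
      pw n X.t₀ j (X.s (C.pt γ a z))) ≤ ENNReal.ofReal (2 * |F.B|) * Q.f₀ γ a z +
        F.maj (X.s (C.pt γ a z)) * ENNReal.ofReal (∑ τ, 2 * ‖ds C X.s γ a z (eb τ)‖ ^ 2) := by
  set t := X.s (C.pt γ a z)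
  have p0 := (pw_pos (n := n) X.t₀ t j).le
  have h1 : ENNReal.ofReal (2 * ‖ev (yd Q γ a J z) σ - S.gb t * ds C X.s γ a z (eb σ)‖ ^ 2 *
      pw n X.t₀ j t) ≤ ENNReal.ofReal (2 * |F.B|) * Q.f₀ γ a z := by
    rcases (key Q hz hT hR h0).2 with ⟨h1, h2⟩ | ⟨I, hI, hO, d, h3, h1, h2⟩
    · simp [h1, ev, show S.gb t = 0 from h2]
    refine le_trans ?_ (mul_le_mul_right (Q.p₀ γ a I z hz hI hO _ (eb_le σ)) _)
    have h4 := (S.bs.pw_le _ hR).trans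
      (mul_le_mul_of_nonneg_right (le_abs_self _) (Real.exp_pos _).le)
    have h5 : ev (yd Q γ a J z) σ - S.gb t * ds C X.s γ a z (eb σ) =
        d * (Q.y γ a I z (eb σ) - S.gb t * sg X k γ a I z (eb σ)) := by
      rw [h1, sg, if_pos hT, ContinuousAlternatingMap.smul_apply, dF_apply, smul_eq_mul]
      change d * Q.y γ a I z (eb σ) - _ = d * (_ - _ * (_ * ds C X.s γ a z (eb σ)))
      linear_combination S.gb t * ds C X.s γ a z (eb σ) * h3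
    rw [h5, h2, ← ENNReal.ofReal_mul (by positivity), norm_mul, mul_pow]
    exact ENNReal.ofReal_le_ofReal
      ((mul_le_mul_of_nonneg_left h4 (by positivity)).trans_eq (by ring))
  have h2 := mul_le_mul' (S.bs.jet t hR) (ENNReal.ofReal_le_ofReal (Finset.single_le_sum
    (f := fun τ => 2 * ‖ds C X.s γ a z (eb τ)‖ ^ 2) (fun _ _ => by positivity) (Finset.mem_univ σ)))
  refine le_trans ?_ (add_le_add h1 h2)
  rw [← ENNReal.ofReal_mul (by positivity), ← ENNReal.ofReal_add (by positivity) (by positivity)]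
  refine ENNReal.ofReal_le_ofReal ?_
  have h3 := norm_add_le (ev (yd Q γ a J z) σ - S.gb t * ds C X.s γ a z (eb σ))
    ((S.gb t - Pf t) * ds C X.s γ a z (eb σ))
  rw [sub_mul, sub_add_sub_cancel, ← sub_mul, norm_mul] at h3
  refine (mul_le_mul_of_nonneg_right ((pow_le_pow_left₀ (norm_nonneg _) h3 2).trans
    add_sq_le) p0).trans_eq (by ring)

end B4

open B4 in
theorem stB4 : StB4 := by
  intro hP h1 n p k Γ E _ _ _ _ _ C X F Pf Z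
  obtain ⟨J, hJ⟩ := Lt.exists_eb (X.sub.surj 1 _ _ (C.B14 X.mem₀) X.base.1)
  have an : ∀ γ a, ∀ z ∈ C.B 4 a, C.pt γ a z ∈ X.T → ∀ ξ,
      ContinuousAt (fun w => ds C X.s γ a w ξ) z := fun γ a z hz hT ξ =>
    (S8b.an_dd (X.sub.hol γ a z hz hT) ξ).continuousAt
  obtain ⟨V, hV, hP⟩ := hP n p Γ E C X F.R₂ (F.R₂_lt.trans F.R₃_lt)
    (fun γ a z => ∑ τ, 2 * ‖ds C X.s γ a z (eb τ)‖ ^ 2) fun γ a z hz hT =>
      tendsto_finsetSum _ fun τ _ => ((an γ a z hz hT (eb τ)).norm.tendsto.pow 2).const_mul 2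
  set W := {z ∈ C.B 1 X.a₀ | C.pt 1 X.a₀ z ∈ X.T ∧ X.s (C.pt 1 X.a₀ z) ∈ ball X.t₀ F.R₂ ∧
    ds C X.s 1 X.a₀ z (eb J) ≠ 0}
  have hW : IsOpen W := isOpen_iff_mem_nhds.2 fun z hz => by
    have h4 := C.B14 hz.1
    filter_upwards [(C.isOpen_B 1 _).mem_nhds hz.1,
      (C.continuousAt_pt h4 1).eventually_mem (X.sub.opn.mem_nhds hz.2.1),
      (X.sub.hol 1 _ z h4 hz.2.1).continuousAt.eventually_mem (isOpen_ball.mem_nhds hz.2.2.1),
      (an 1 _ z h4 hz.2.1 _).eventually_ne hz.2.2.2] with w w1 w2 w3 w4 using ⟨w1, w2, w3, w4⟩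
  have hs : W ⊆ C.B 1 X.a₀ := sep_subset _ _
  have hf : ∀ {f : Γ → Cm n → ℝ≥0∞} {K}, ∑' γ, ∫⁻ z in C.B 1 X.a₀, f γ z ≤ K →
      ∫⁻ z in W, f 1 z ≤ K := fun h =>
    (lintegral_mono_set hs).trans (le_trans (ENNReal.le_tsum 1) h)
  refine ⟨W, hW, ⟨X.mem₀, X.base.1, X.base.2 ▸ mem_ball_self (F.R₁_pos.trans F.R₁_lt), hJ⟩,
    fun z hz => ⟨hz.1, hz.2.1⟩, fun i => yd (Z.Q i) 1 X.a₀ J, fun i z hz => ?_,
    fun i z hz => (key _ hz.1 hz.2.1 hz.2.2.1 hz.2.2.2).1,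
    ⟨_, fun i => (((Z.Q i).meas₁ 1 _).mono_set hs).const_mul _, ?_,
      fun i z hz hG c v hv => wedge _ hz.1 hz.2.1 hz.2.2.1 hz.2.2.2 hG c hv⟩,
    ENNReal.ofReal (2 * |F.B|) * Z.K₀ + V * ∫⁻ t in ball X.t₀ F.R₂, F.maj t,
    ENNReal.add_lt_top.2 ⟨ENNReal.mul_lt_top ENNReal.ofReal_lt_top Z.K₀_lt,
      ENNReal.mul_lt_top hV F.maj_int⟩, fun i σ => ?_⟩
  · exact ((((an 1 _ z (C.B14 hz.1) hz.2.1 _).pow k).inv₀ (pow_ne_zero _ hz.2.2.2)).smul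
      ((h1 n p k Γ E C X F Pf _ _ _ _ _ _ (Z.Q i)).1 1 _ _ z hz.1).continuousAt).continuousWithinAt
  · have t := ENNReal.Tendsto.const_mul Z.K₁_tend
      (Or.inr (ENNReal.ofReal_ne_top (r := (p * F.R₂ ^ 2 + 1) ^ (n + 2) * |F.B|)))
    rw [mul_zero] at t
    refine tendsto_of_tendsto_of_tendsto_of_le_of_le tendsto_const_nhds t (fun _ => zero_le)
      fun i => ?_
    rw [lintegral_const_mul' _ _ ENNReal.ofReal_ne_top]
    exact mul_le_mul_right (hf ((Z.Q i).int₁ _)) _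
  · refine (setLIntegral_mono' hW.measurableSet fun z hz =>
      jets (Z.Q i) hz.1 hz.2.1 hz.2.2.1 hz.2.2.2 σ).trans ?_
    rw [lintegral_add_left' ((((Z.Q i).meas₀ 1 _).mono_set hs).const_mul _),
      lintegral_const_mul' _ _ ENNReal.ofReal_ne_top]
    refine add_le_add (mul_le_mul_right (hf ((Z.Q i).int₀ _)) _) (le_trans ?_ (hP _ F.maj_meas))
    refine le_trans ?_ (ENNReal.le_tsum 1)
    refine le_trans ?_ (Finset.single_le_sum (fun _ _ => zero_le) (Finset.mem_univ X.a₀))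
    exact lintegral_mono_set fun z hz => ⟨hz.1, hz.2.1, hz.2.2.1⟩

end Vale.Agent.P284Y.X56
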