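import Vale.Agent.P284.H366.SL4

/-!
# P284Y, piece LIM: limits of almost holomorphic functions on a ball, `L¹` version
-/

open scoped ContDiff Topology ComplexConjugate InnerProductSpace ENNReal
open MeasureTheory Set Filter Metric

noncomputable section

namespace Vale.Agent.P284Y.X56.Lim

open Vale.Agent.P272.K Vale.Agent.P272.K.INT Vale.Agent.P284.H513.V Vale.Agent.P284.H366

variable {n : ℕ} {δ K r R : ℝ} {η Θ : Cm n → ℝ} {c : Cm n}

lemma shift (H : Cm n → ℝ≥0∞) {v : Cm n} (hv : ‖v‖ ≤ δ) (hR : r + δ ≤ R) :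
    ∫⁻ z in ball c r, H (z + v) ≤ ∫⁻ z in ball c R, H z := by
  rw [← lintegral_indicator measurableSet_ball, ← lintegral_indicator measurableSet_ball,
    ← lintegral_add_right_eq_self (μ := (volume : Measure (Cm n))) ((ball c R).indicator H) v]
  refine lintegral_mono fun z => ?_
  by_cases hz : z ∈ ball c r
  · have h1 : z + v ∈ ball c R := by
      rw [mem_ball] at hz ⊢
      calc dist (z + v) c ≤ dist (z + v) z + dist z c := dist_triangle _ _ _
        _ < δ + r := by rw [dist_eq_norm (z + v), add_sub_cancel_left]; linarith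
        _ ≤ R := by linarith
    rw [indicator_of_mem hz, indicator_of_mem h1]
  · rw [indicator_of_notMem hz]
    exact zero_le

/-- the `L¹` distance to the mollified function -/
lemma dist1 (m : Mol δ η Θ) (hK0 : 0 ≤ K) (hK : ∀ t, |η t| ≤ K) {g : Cm n → ℂ}
    (hg : ContDiff ℝ 2 g) (hR : r + δ ≤ R) :
    ∫⁻ z in ball c r, ‖mv η g z - g z‖ₑ ≤ (ENNReal.ofReal (K * (2 * δ)) * volume (KK n δ)) *
      ∑ j, ∫⁻ z in ball c R, ‖dzb j g z‖ₑ := by
  have c2 : ∀ j, Continuous (dzb j g) := fun j =>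
    (contDiff_dzb (m := 0) (hg.of_le (by norm_num : (1 : WithTop ℕ∞) ≤ 2)) (by norm_num)
      j).continuous
  set H : Cm n → ℝ≥0∞ := fun y => ∑ j, ‖dzb j g y‖ₑ with hH
  have mH : Measurable H := Finset.measurable_fun_sum _ fun j _ => (c2 j).measurable.enorm
  set A := ENNReal.ofReal (K * (2 * δ)) with hA
  have h1 : ∀ z, ‖mv η g z - g z‖ₑ ≤ ∫⁻ p in KK n δ, A * H (z + p.1 • p.2) := by
    intro z
    rw [rep_complex m hg]
    refine (enorm_integral_le_lintegral_enorm _).trans
      (setLIntegral_mono' (measurableSet_KK n δ) fun p hp => ?_)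
    have h2 : ‖p.2‖ ≤ δ := by simpa using hp.2
    have hδ : 0 ≤ δ := (norm_nonneg _).trans h2
    have h3 : ‖(η p.2 : ℂ) * (2 * DB g (z + p.1 • p.2) p.2)‖ ≤
        (K * (2 * δ)) * ∑ j, ‖dzb j g (z + p.1 • p.2)‖ := by
      rw [norm_mul, norm_mul, DB_complex, Complex.norm_real, Real.norm_eq_abs, mul_assoc, mul_assoc,
        Complex.norm_two]
      refine mul_le_mul (hK _) (mul_le_mul_of_nonneg_left ?_ zero_le_two) (by positivity) hK0
      rw [Finset.mul_sum]
      refine (norm_sum_le _ _).trans (Finset.sum_le_sum fun j _ => ?_)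
      rw [norm_mul, RCLike.norm_conj]
      exact mul_le_mul_of_nonneg_right ((norm_le_pi_norm _ j).trans h2) (norm_nonneg _)
    rw [← ofReal_norm]
    refine (ENNReal.ofReal_le_ofReal h3).trans (le_of_eq ?_)
    rw [ENNReal.ofReal_mul (by positivity), ENNReal.ofReal_sum_of_nonneg fun _ _ => norm_nonneg _]
    simp only [ofReal_norm, hH, hA]
  have m2 : Measurable fun x : Cm n × (ℝ × Cm n) => A * H (x.1 + x.2.1 • x.2.2) :=
    (mH.comp (by fun_prop)).const_mul A
  calc ∫⁻ z in ball c r, ‖mv η g z - g z‖ₑ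
      ≤ ∫⁻ z in ball c r, ∫⁻ p in KK n δ, A * H (z + p.1 • p.2) := lintegral_mono h1
    _ = ∫⁻ p in KK n δ, ∫⁻ z in ball c r, A * H (z + p.1 • p.2) :=
        lintegral_lintegral_swap m2.aemeasurable
    _ ≤ ∫⁻ _ in KK n δ, A * ∫⁻ z in ball c R, H z := by
        refine setLIntegral_mono' (measurableSet_KK n δ) fun p hp => ?_
        rw [lintegral_const_mul' _ _ ENNReal.ofReal_ne_top]
        refine mul_le_mul_right (shift (δ := δ) H ?_ hR) _
        have h2 : ‖p.2‖ ≤ δ := by simpa using hp.2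
        have hs := hp.1
        rw [norm_smul, Real.norm_eq_abs, abs_of_nonneg hs.1]
        nlinarith [norm_nonneg p.2, hs.1, hs.2]
    _ = _ := by
        rw [setLIntegral_const, hH, lintegral_finsetSum _ fun j _ => (c2 j).measurable.enorm]
        ring

/-- the uniform bounds for the mollified functions -/
lemma vb {U : Ultrafilter ℕ} (m : Mol δ η Θ) (hK : MolC δ η K) (hR : r + δ ≤ R)
    {g : ℕ → Cm n → ℂ} (h1 : ∀ k, ContDiff ℝ 4 (g k)) (h2 : ∀ k, HasCompactSupport (g k))
    {B : ℝ} (hB0 : 0 ≤ B) (hB : ∀ k, ∫ z in ball c R, ‖g k z‖ ≤ B)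
    (hd : ∀ j, Tendsto (fun k => ∫ z in ball c R, ‖dzb j (g k) z‖) U (𝓝 0)) :
    VB (H := fun _ => ℂ) U c r (K * B) fun k => mv η (g k) := by
  have g1 : ∀ k, ContDiff ℝ 1 (g k) := fun k => (h1 k).of_le (by norm_num)
  have c1 : ∀ k, Continuous (g k) := fun k => (h1 k).continuous
  refine ⟨mul_nonneg hK.nn hB0, fun k z hz => ?_, fun k z hz z' hz' => ?_,
    fun k z _ => ?_, fun k z hz => ?_, fun k z hz z' hz' => ?_, fun z hz t => ?_⟩
  · exact (norm_mv_le m.zero hK.b0 (c1 k) hz hR).trans (mul_le_mul_of_nonneg_left (hB k) hK.nn)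
  · refine (norm_mv_sub_le m.zero m.smooth.continuous hK.l0 (c1 k) hz hz' hR).trans ?_
    calc K * ‖z - z'‖ * ∫ y in ball c R, ‖g k y‖ ≤ K * ‖z - z'‖ * B :=
          mul_le_mul_of_nonneg_left (hB k) (mul_nonneg hK.nn (norm_nonneg _))
      _ = _ := by ring
  · exact (mv_hasFDerivAt m.smooth.continuous m.hcs (g1 k) (h2 k) z).differentiableAt
  · refine ContinuousLinearMap.opNorm_le_bound _ (mul_nonneg hK.nn hB0) fun v => ?_
    rw [fderiv_mv_eq m (h1 k) (h2 k)]
    refine (norm_mv_le (hK.z1 v) (hK.b1 v) (c1 k) (ball_subset_closedBall hz) hR).trans ?_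
    calc K * ‖v‖ * ∫ y in ball c R, ‖g k y‖ ≤ K * ‖v‖ * B :=
          mul_le_mul_of_nonneg_left (hB k) (mul_nonneg hK.nn (norm_nonneg _))
      _ = _ := by ring
  · refine ContinuousLinearMap.opNorm_le_bound _
      (mul_nonneg (mul_nonneg hK.nn hB0) (norm_nonneg _)) fun v => ?_
    rw [sub_apply, fderiv_mv_eq m (h1 k) (h2 k),
      fderiv_mv_eq m (h1 k) (h2 k)]
    refine (norm_mv_sub_le (hK.z1 v) (hK.c1 v) (hK.l1 v) (c1 k) (ball_subset_closedBall hz)
      (ball_subset_closedBall hz') hR).trans ?_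
    calc K * ‖v‖ * ‖z - z'‖ * ∫ y in ball c R, ‖g k y‖ ≤ K * ‖v‖ * ‖z - z'‖ * B :=
          mul_le_mul_of_nonneg_left (hB k)
            (mul_nonneg (mul_nonneg hK.nn (norm_nonneg _)) (norm_nonneg _))
      _ = _ := by ring
  · rw [← tendsto_zero_iff_norm_tendsto_zero]
    simp only [DB_complex]
    rw [show (0 : ℂ) = ∑ j : Fin n, conj (t j) * 0 by simp]
    refine tendsto_finsetSum _ fun j _ => Tendsto.const_mul _ ?_
    refine squeeze_zero_norm (fun k => ?_) (by simpa using (hd j).const_mul K)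
    rw [mv_dzb m.smooth.continuous m.hcs (g1 k) (h2 k)]
    exact norm_mv_le m.zero hK.b0 (contDiff_dzb (m := 0) (g1 k) (by norm_num) j).continuous
      (ball_subset_closedBall hz) hR

/-- **Smooth functions on a ball, bounded in `L²`, with `∂̄ → 0` in `L¹`, converge in `L¹` of the
smaller balls to a holomorphic function**, along every ultrafilter. -/
theorem loc1 {U : Ultrafilter ℕ} (hR0 : 0 < R) (hr : r < R) {φ : ℕ → Cm n → ℂ}
    (hs : ∀ k, ∀ z ∈ closedBall c R, ContDiffAt ℝ ∞ (φ k) z) {B : ℝ≥0∞} (hB : B < ⊤)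
    (hb : ∀ k, ∫⁻ z in ball c R, ‖φ k z‖ₑ ^ 2 ≤ B)
    (hd : ∀ j, Tendsto (fun k => ∫⁻ z in ball c R, ‖dzb j (φ k) z‖ₑ) U (𝓝 0)) :
    ∃ s : Cm n → ℂ, AnalyticOnNhd ℂ s (ball c r) ∧
      Tendsto (fun k => ∫⁻ z in ball c r, ‖φ k z - s z‖ₑ) U (𝓝 0) := by
  obtain ⟨η, Θ, m⟩ := exists_mol n (sub_pos.2 hr)
  obtain ⟨K, hK⟩ := exists_molC m
  have hR : r + (R - r) ≤ R := by linarith
  choose g h1 h2 h3 using fun k => exists_extE hR0 (hs k)
  have g1 : ∀ k, ContDiff ℝ 1 (g k) := fun k => (h1 k).of_le (by norm_num)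
  have hd' : ∀ j, Tendsto (fun k => ∫⁻ z in ball c R, ‖dzb j (g k) z‖ₑ) U (𝓝 0) := fun j =>
    (hd j).congr fun k => setLIntegral_congr_fun measurableSet_ball fun z hz => by
      simp only [INT.dzb_congr (h3 k z (ball_subset_closedBall hz))]
  have hV : volume (ball c R) + B ≠ ⊤ := (ENNReal.add_lt_top.2 ⟨measure_ball_lt_top, hB⟩).ne
  have hv : VB (H := fun _ => ℂ) U c r (K * (volume (ball c R) + B).toReal) fun k => mv η (g k) := by
    refine vb m hK hR h1 h2 ENNReal.toReal_nonneg (fun k => ?_) fun j => ?_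
    · rw [integral_norm_eq_lintegral_enorm (h1 k).continuous.aestronglyMeasurable]
      refine ENNReal.toReal_mono hV (le_trans ?_ (add_le_add_right (hb k) _))
      rw [← setLIntegral_one, ← lintegral_add_left measurable_const]
      refine setLIntegral_mono' measurableSet_ball fun z hz => ?_
      rw [(h3 k z (ball_subset_closedBall hz)).eq_of_nhds]
      rcases le_total ‖g k z‖ₑ 1 with h | h
      · exact h.trans le_self_add
      · exact (le_self_pow₀ h two_ne_zero).trans le_add_self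
    · refine ((ENNReal.tendsto_toReal ENNReal.zero_ne_top).comp (hd' j)).congr fun k => ?_
      exact (integral_norm_eq_lintegral_enorm
        (contDiff_dzb (m := 0) (g1 k) (by norm_num) j).continuous.aestronglyMeasurable).symm
  set S : Cm n → ℂ := fun z => ⟪P284.H366.mk (H := fun _ => ℂ) U (fun _ => (1 : ℂ)),
    P284.H366.mk (H := fun _ => ℂ) U fun k => mv η (g k) z⟫_ℂ with hS
  have hb1 : Bd (H := fun _ => ℂ) fun _ => (1 : ℂ) := ⟨1, fun _ => by simp⟩
  have hlim : ∀ z ∈ closedBall c r, Tendsto (fun k => mv η (g k) z) U (𝓝 (S z)) := by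
    intro z hz
    refine (inner_mk (U := U) hb1 (hv.bdd hz)).congr fun k => ?_
    simp
  refine ⟨S, fun z hz => ((innerSL ℂ (P284.H366.mk (H := fun _ => ℂ) U
    (fun _ => (1 : ℂ)))).analyticAt _).comp (hv.analyticAt hz), ?_⟩
  set A := ENNReal.ofReal (K * (2 * (R - r))) * volume (KK n (R - r)) with hA
  have hA0 : A ≠ ⊤ := ENNReal.mul_ne_top ENNReal.ofReal_ne_top (isCompact_KK n _).measure_lt_top.ne
  have h4 : Tendsto (fun k => A * ∑ j, ∫⁻ z in ball c R, ‖dzb j (g k) z‖ₑ) U (𝓝 0) := by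
    have h5 := tendsto_finsetSum Finset.univ fun j _ => hd' j
    rw [Finset.sum_const_zero] at h5
    simpa using ENNReal.Tendsto.const_mul h5 (Or.inr hA0)
  refine ENNReal.tendsto_nhds_zero.2 fun ε hε => ?_
  obtain ⟨e, he, he'⟩ := ENNReal.exists_nnreal_pos_mul_lt
    (measure_ball_lt_top (μ := (volume : Measure (Cm n))) (x := c) (r := r)).ne hε.ne'
  have h6 := h4.add_const ((e : ℝ≥0∞) * volume (ball c r))
  rw [zero_add] at h6
  filter_upwards [h6.eventually_lt_const he', unif (isCompact_closedBall c r) hv.nn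
    (fun k z hz z' hz' => by rw [dist_eq_norm]; exact hv.lip k z hz z' hz') hlim
    (show (0 : ℝ) < e from he)] with k hk hk'
  refine le_trans ?_ hk.le
  refine le_trans ?_ (add_le_add_left
    (dist1 (c := c) m hK.nn hK.b0 ((h1 k).of_le (by norm_num)) hR) _)
  rw [← setLIntegral_const, ← lintegral_add_right _ measurable_const]
  refine setLIntegral_mono' measurableSet_ball fun z hz => ?_
  rw [(h3 k z (ball_subset_closedBall (ball_subset_ball hr.le hz))).eq_of_nhds,
    show g k z - S z = -(mv η (g k) z - g k z) + (mv η (g k) z - S z) by ring]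
  refine (enorm_add_le _ _).trans (add_le_add (enorm_neg _).le ?_)
  rw [← ofReal_norm, ← ENNReal.ofReal_coe_nnreal]
  exact ENNReal.ofReal_le_ofReal (hk' z (ball_subset_closedBall hz))

end Vale.Agent.P284Y.X56.Lim
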