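import Vale.Agent.P284Y.X56.Defs
import Vale.Agent.P284Y.X56.Lim1

/-!
# P284Y, piece LIM: almost holomorphic functions, bounded in `L²`
-/

open scoped ContDiff Topology ENNReal
open MeasureTheory Set Filter Metric

noncomputable section

namespace Vale.Agent.P284Y.X56

open Vale.Agent.P272.K

namespace Lim

/-- a sequence along which countably many quantities are summable -/
lemma exists_fast {J : Type} [Countable J] {l : Filter ℕ} [l.NeBot] (hl : l ≤ atTop)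
    {a : J → ℕ → ℝ≥0∞} (h : ∀ j, Tendsto (a j) l (𝓝 0)) :
    ∃ u : ℕ → ℕ, Tendsto u atTop atTop ∧ ∀ j, ∃ N, ∑' m, a j (u (m + N)) ≠ ⊤ := by
  obtain ⟨e, he⟩ := exists_injective_nat J
  have h1 : ∀ m : ℕ, ∃ k, m ≤ k ∧ ∀ j ∈ e ⁻¹' Iic m, a j k ≤ 2⁻¹ ^ m := fun m => by
    refine (((eventually_ge_atTop m).filter_mono hl).and ((eventually_all_finite
      ((finite_Iic m).preimage he.injOn)).2 fun j _ => ?_)).exists
    exact ENNReal.tendsto_nhds_zero.1 (h j) _ (ENNReal.pow_pos (by simp) m)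
  choose u hu hu' using h1
  refine ⟨u, tendsto_atTop_mono hu tendsto_id, fun j => ⟨e j, ne_top_of_le_ne_top
    (b := ∑' m : ℕ, (2⁻¹ : ℝ≥0∞) ^ m) (by simp) (ENNReal.tsum_le_tsum fun m => ?_)⟩⟩
  refine (hu' (m + e j) j (Nat.le_add_left _ _)).trans ?_
  exact pow_le_pow_of_le_one zero_le (by simp) (Nat.le_add_right _ _)

/-- summable distances give the convergence almost everywhere -/
lemma ae_tend {α : Type*} [MeasurableSpace α] {μ : Measure α} {f : ℕ → α → ℂ} {s : α → ℂ}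
    (hm : ∀ m, AEMeasurable (fun z => f m z - s z) μ) {N : ℕ}
    (h : ∑' m, ∫⁻ z, ‖f (m + N) z - s z‖ₑ ∂μ ≠ ⊤) :
    ∀ᵐ z ∂μ, Tendsto (fun m => f m z) atTop (𝓝 (s z)) := by
  rw [← lintegral_tsum fun m => (hm (m + N)).enorm] at h
  filter_upwards [ae_lt_top' (AEMeasurable.tsum fun m => (hm (m + N)).enorm) h] with z hz
  rw [← tendsto_add_atTop_iff_nat N, tendsto_iff_edist_tendsto_0]
  simpa only [edist_eq_enorm_sub] using ENNReal.tendsto_atTop_zero_of_tsum_ne_top hz.ne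

end Lim

/-- **LIM** -/
theorem limSt : LimSt := by
  intro n ι _ U f hU hf hb hd
  have h0 : ∀ x, ∀ z : Cm n, ∃ ρ > 0, z ∈ U x → closedBall z (2 * ρ) ⊆ U x := fun x z => by
    by_cases hz : z ∈ U x
    · obtain ⟨ε, hε, h⟩ := nhds_basis_closedBall.mem_iff.1 ((hU x).mem_nhds hz)
      exact ⟨ε / 2, half_pos hε, fun _ => by rwa [mul_div_cancel₀ _ two_ne_zero]⟩
    · exact ⟨1, one_pos, fun h => absurd h hz⟩
  choose ρ hρ hρ' using h0
  have h1 : ∀ x, ∃ t ⊆ U x, t.Countable ∧ U x ⊆ ⋃ z ∈ t, ball z (ρ x z) := fun x =>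
    TopologicalSpace.countable_cover_nhdsWithin fun z _ =>
      mem_nhdsWithin_of_mem_nhds (ball_mem_nhds z (hρ x z))
  choose t ht htc htU using h1
  have : ∀ x, Countable (t x) := fun x => (htc x).to_subtype
  let V : (Σ x, t x) → Set (Cm n) := fun j => ball j.2.1 (ρ j.1 j.2.1)
  have hs2 : ∀ j : Σ x, t x, closedBall j.2.1 (2 * ρ j.1 j.2.1) ⊆ U j.1 := fun j =>
    hρ' _ _ (ht _ j.2.2)
  have hVU : ∀ j, V j ⊆ U j.1 := fun j => (ball_subset_closedBall.trans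
    (closedBall_subset_closedBall (by linarith [hρ j.1 j.2.1]))).trans (hs2 j)
  have hl : (hyperfilter ℕ : Filter ℕ) ≤ atTop := Nat.hyperfilter_le_atTop
  have h2 : ∀ j : Σ x, t x, ∃ s : Cm n → ℂ, AnalyticOnNhd ℂ s (V j) ∧
      Tendsto (fun k => ∫⁻ z in V j, ‖f j.1 k z - s z‖ₑ) (hyperfilter ℕ) (𝓝 0) := fun j => by
    obtain ⟨B, hB, hB'⟩ := hb j.1
    have hs3 := ball_subset_closedBall.trans (hs2 j)
    refine Lim.loc1 (R := 2 * ρ j.1 j.2.1) (by linarith [hρ j.1 j.2.1])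
      (by linarith [hρ j.1 j.2.1]) (fun k z hz => hf _ k z (hs2 j hz)) hB
      (fun k => (lintegral_mono_set hs3).trans (hB' k)) fun c => ?_
    exact tendsto_of_tendsto_of_tendsto_of_le_of_le tendsto_const_nhds ((hd j.1 c).mono_left hl)
      (fun _ => zero_le) fun k => lintegral_mono_set hs3
  choose s hs hs' using h2
  obtain ⟨u, hu, hu'⟩ := Lim.exists_fast hl hs'
  have h3 : ∀ j, ∀ᵐ z, z ∈ V j → Tendsto (fun m => f j.1 (u m) z) atTop (𝓝 (s j z)) := fun j => by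
    obtain ⟨N, hN⟩ := hu' j
    refine (ae_restrict_iff' measurableSet_ball).1
      (Lim.ae_tend (f := fun m => f j.1 (u m)) (fun m => ?_) hN)
    refine ContinuousOn.aemeasurable (fun z hz => ?_) measurableSet_ball
    exact ((hf _ _ z (hVU j hz)).continuousAt.sub (hs j z hz).continuousAt).continuousWithinAt
  have h4 : ∀ x (a b : t x), EqOn (s ⟨x, a⟩) (s ⟨x, b⟩) (V ⟨x, a⟩ ∩ V ⟨x, b⟩) := fun x a b => by
    refine Measure.eqOn_open_of_ae_eq (μ := volume) ?_ (isOpen_ball.inter isOpen_ball)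
      ((hs _).continuousOn.mono inter_subset_left) ((hs _).continuousOn.mono inter_subset_right)
    refine (ae_restrict_iff' (measurableSet_ball.inter measurableSet_ball)).2 ?_
    filter_upwards [h3 ⟨x, a⟩, h3 ⟨x, b⟩] with z ha hb hz
    exact tendsto_nhds_unique (ha hz.1) (hb hz.2)
  have h5 : ∀ x z, ∃ w : ℂ, ∀ a : t x, z ∈ V ⟨x, a⟩ → w = s ⟨x, a⟩ z := fun x z => by
    by_cases h : ∃ a : t x, z ∈ V ⟨x, a⟩
    · obtain ⟨a, ha⟩ := h
      exact ⟨s ⟨x, a⟩ z, fun b hb => h4 x a b ⟨ha, hb⟩⟩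
    · exact ⟨0, fun a ha => absurd ⟨a, ha⟩ h⟩
  choose F hF using h5
  have h6 : ∀ x, ∀ z ∈ U x, ∃ a : t x, z ∈ V ⟨x, a⟩ := fun x z hz => by
    obtain ⟨a, ha, h⟩ := mem_iUnion₂.1 (htU x hz)
    exact ⟨⟨a, ha⟩, h⟩
  refine ⟨u, hu, F, fun x z hz => ?_, fun x => ?_⟩
  · obtain ⟨a, ha⟩ := h6 x z hz
    refine (hs _ z ha).congr ?_
    filter_upwards [isOpen_ball.mem_nhds ha] with y hy
    exact (hF x y a hy).symm
  · filter_upwards [ae_all_iff.2 fun a : t x => h3 ⟨x, a⟩] with z h hz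
    obtain ⟨a, ha⟩ := h6 x z hz
    rw [hF x z a ha]
    exact h a ha

end Vale.Agent.P284Y.X56
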