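import Vale.Agent.P284Y.X56.Lt3
import Vale.Agent.P284Y.X56.Lt4

/-!
# P284Y, row X6b: the limit
-/

open scoped ContDiff Topology ENNReal
open Filter Set Function Metric MeasureTheory

noncomputable section

namespace Vale.Agent.P284Y.X56

open Vale.Agent.P272.K Vale.Agent.P284.H608.K Vale.Agent.P284Z Vale.Agent.P284Z.L
  Vale.Agent.P284Y.X Vale.Agent.P284.H619.K

namespace Lt

theorem ae_liminf {α : Type} [MeasurableSpace α] {μ : Measure α} {F : ℕ → α → ℝ≥0∞}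
    (hF : ∀ i, AEMeasurable (F i) μ) (h : Tendsto (fun i => ∫⁻ z, F i z ∂μ) atTop (𝓝 0)) :
    ∀ᵐ z ∂μ, liminf (fun i => F i z) atTop = 0 := by
  have h1 : (fun z => liminf (fun i => F i z) atTop) =ᵐ[μ]
      fun z => liminf (fun i => (hF i).mk _ z) atTop :=
    (ae_all_iff.2 fun i => (hF i).ae_eq_mk).mono fun z hz => by simp only [hz]
  exact (lintegral_eq_zero_iff' ⟨_, Measurable.liminf fun i => (hF i).measurable_mk, h1⟩).1
    (le_antisymm ((lintegral_liminf_le' hF).trans_eq h.liminf_eq) zero_le)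

variable {n p k : ℕ} {Γ E : Type} [Group Γ] [TopologicalSpace E] [MulAction Γ E] {C : Cov n Γ E}
  {X : XL C p} {Pf : Cm p → ℂ}

/-- the limit of the tensors and of the forms -/
theorem exists_lim [Countable Γ] (hL : LimSt) (S : SY X k Pf) :
    ∃ (T : Ten C p (k + 1)) (u : ℕ → ℕ), Tendsto u atTop atTop ∧ ∀ᵐ z, z ∈ S.W → ∃ η : Af n p,
      (∀ v, Tendsto (fun m => S.y (u m) z v) atTop (𝓝 (η v))) ∧
        ∀ ξ, T.τ 1 X.a₀ z ξ = ds C X.s 1 X.a₀ z ξ ^ k * η ξ := by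
  obtain ⟨T, u, hu, h⟩ := exists_ten hL S
  refine ⟨T, u, hu, h.mono fun z hz hW => ?_⟩
  obtain ⟨h1, h2⟩ := S.W_sub z hW
  obtain ⟨h3, h4⟩ := hz h1
  obtain ⟨σ₁, hσ⟩ := exists_eb (X.sub.surj 1 _ z (C.B14 h1) h2)
  choose c hc using h4 fun _ => σ₁
  obtain ⟨η, hη⟩ := af_lim (A := fun m => S.y (u m) z)
    (f := fun σ => (ds C X.s 1 X.a₀ z (eb σ₁) ^ k)⁻¹ * c σ) fun σ =>
      ((hc σ).const_mul _).congr fun m => by
        rw [S.eq _ z hW, Finset.prod_const, Finset.card_univ, Fintype.card_fin]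
        exact inv_mul_cancel_left₀ (pow_ne_zero k hσ) _
  exact ⟨η, hη, fun ξ => tendsto_nhds_unique (h3 ξ) (((hη ξ).const_mul _).congr fun m =>
    (tau_dd (S.eq _ z hW) ξ).symm)⟩

variable (S : SY X k Pf) {T : Ten C p (k + 1)} {u : ℕ → ℕ} (hu : Tendsto u atTop atTop)
  (h : ∀ᵐ z, z ∈ S.W → ∃ η : Af n p, (∀ v, Tendsto (fun m => S.y (u m) z v) atTop (𝓝 (η v))) ∧
    ∀ ξ, T.τ 1 X.a₀ z ξ = ds C X.s 1 X.a₀ z ξ ^ k * η ξ)
include hu h

/-- the limit is a multiple of the power of `ds` near the base point -/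
theorem near (hP : PfSt) : ∃ r > 0, ∀ z ∈ ball X.z₀ r, z ∈ C.B 4 X.a₀ ∧ C.pt 1 X.a₀ z ∈ X.T ∧
    ∃ c, ∀ ξ, T.τ 1 X.a₀ z ξ = c * ds C X.s 1 X.a₀ z ξ ^ (k + 1) := by
  obtain ⟨F, F1, F2, F3⟩ := S.wedge
  have h1 := (ae_restrict_iff' S.W_open.measurableSet).1
    (ae_liminf (fun m => F1 (u m)) (F2.comp hu))
  obtain ⟨r, hr, h2⟩ := Metric.isOpen_iff.1 S.W_open _ S.W_mem
  have h3 : ∀ z ∈ ball X.z₀ r, z ∈ C.B 4 X.a₀ := fun z hz => C.B14 (S.W_sub z (h2 hz)).1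
  have h4 : ∀ z ∈ ball X.z₀ r, C.pt 1 X.a₀ z ∈ X.T := fun z hz => (S.W_sub z (h2 hz)).2
  have h0 := mem_ball_self (x := X.z₀) hr
  have h5 := (hP n p fun w => X.s (C.pt 1 X.a₀ w)).2 X.z₀ (X.sub.hol 1 _ _ (h3 _ h0) (h4 _ h0))
    (X.sub.surj 1 _ _ (h3 _ h0) (h4 _ h0)) S.G (X.base.2 ▸ S.G_pos) _ (ball_mem_nhds _ hr)
  have h6 : ∀ ξ ξ', ∀ z ∈ ball X.z₀ r, T.τ 1 X.a₀ z ξ * ds C X.s 1 X.a₀ z ξ' ^ (k + 1) -
      T.τ 1 X.a₀ z ξ' * ds C X.s 1 X.a₀ z ξ ^ (k + 1) = 0 := fun ξ ξ' => by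
    refine zero_of_pos (fun z hz => ((an_τ T 1 (h3 z hz) _).mul
      ((an_ds X (h3 z hz) (h4 z hz) _).pow _)).sub ((an_τ T 1 (h3 z hz) _).mul
        ((an_ds X (h3 z hz) (h4 z hz) _).pow _))) h5 ?_
    filter_upwards [h, h1] with z z1 z2 hz hG
    obtain ⟨η, e1, e2⟩ := z1 (h2 hz)
    obtain ⟨c, hc⟩ := eq_dd (η := η) (X.sub.surj 1 _ _ (h3 z hz) (h4 z hz)) fun c v hv => by
      have k1 := (((ENNReal.continuous_pow 2).tendsto _).comp (wd_lim e1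
        (tL (fderiv ℂ (fun w => X.s (C.pt 1 X.a₀ w)) z) c) v).enorm).liminf_eq
      have k2 := k1.symm.trans_le ((liminf_le_liminf (Eventually.of_forall fun m =>
        F3 (u m) z (h2 hz) hG c v hv)).trans_eq (z2 (h2 hz)))
      simpa using k2
    rw [e2, e2, hc, hc]
    unfold ds
    ring
  refine ⟨r, hr, fun z hz => ⟨h3 z hz, h4 z hz, ?_⟩⟩
  obtain ⟨σ, hσ⟩ := exists_eb (X.sub.surj 1 _ z (h3 z hz) (h4 z hz))
  refine ⟨T.τ 1 X.a₀ z (eb σ) / ds C X.s 1 X.a₀ z (eb σ) ^ (k + 1), fun ξ => ?_⟩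
  rw [div_mul_eq_mul_div]
  exact (eq_div_iff (pow_ne_zero _ hσ)).2 (sub_eq_zero.1 (h6 _ _ z hz))

/-- the jet of the limit at the base point -/
theorem jets (hP : Differentiable ℂ Pf) {f : Cm p → ℂ} (hf : AnalyticAt ℂ f X.t₀)
    (e : ∀ z ∈ C.B 1 X.a₀, C.pt 1 X.a₀ z ∈ X.T → ∀ ξ,
      T.τ 1 X.a₀ z ξ = ds C X.s 1 X.a₀ z ξ ^ (k + 1) * f (X.s (C.pt 1 X.a₀ z))) :
    f X.t₀ = Pf X.t₀ ∧ fderiv ℂ f X.t₀ = fderiv ℂ Pf X.t₀ := by
  obtain ⟨B, hB, h1⟩ := S.jets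
  have h3 : ∀ z ∈ S.W, z ∈ C.B 4 X.a₀ := fun z hz => C.B14 (S.W_sub z hz).1
  have h4 : ∀ z ∈ S.W, C.pt 1 X.a₀ z ∈ X.T := fun z hz => (S.W_sub z hz).2
  have hb : ∀ z ∈ S.W, AnalyticAt ℂ (fun w => X.s (C.pt 1 X.a₀ w)) z := fun z hz =>
    X.sub.hol 1 _ z (h3 z hz) (h4 z hz)
  have hs := X.sub.surj 1 _ _ (h3 _ S.W_mem) (h4 _ S.W_mem)
  obtain ⟨σ, hσ⟩ := exists_eb hs
  have hd : ∀ z ∈ S.W, AnalyticAt ℂ (fun w => ds C X.s 1 X.a₀ w (eb σ)) z := fun z hz =>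
    an_ds X (h3 z hz) (h4 z hz) _
  have hD : IsOpen (S.W ∩ (fun w => ds C X.s 1 X.a₀ w (eb σ)) ⁻¹' {0}ᶜ) :=
    ContinuousOn.isOpen_inter_preimage (fun z hz => (hd z hz).continuousAt.continuousWithinAt)
      S.W_open isOpen_compl_singleton
  have hH : AnalyticAt ℂ (fun t => f t - Pf t) (X.s (C.pt 1 X.a₀ X.z₀)) :=
    X.base.2 ▸ hf.sub (P268.analyticOnNhd_of_differentiableOn isOpen_univ hP.differentiableOn _
      (mem_univ _))
  obtain ⟨k1, k2⟩ := contact (G := fun z => (f (X.s (C.pt 1 X.a₀ z)) - Pf (X.s (C.pt 1 X.a₀ z))) *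
      ds C X.s 1 X.a₀ z (eb σ)) ((hH.comp (f := fun w => X.s (C.pt 1 X.a₀ w)) (hb _ S.W_mem)).mul
      (hd _ S.W_mem)) (hb _ S.W_mem) (hD.mem_nhds ⟨S.W_mem, hσ⟩) hB fun j => by
    refine le_trans (lintegral_mono_ae ?_) ((lintegral_liminf_le' (u := atTop) fun m => ?_).trans
      (liminf_le_of_frequently_le' (Frequently.of_forall fun m =>
        (lintegral_mono_set inter_subset_left).trans (h1 (u m) σ))))
    · filter_upwards [(ae_restrict_iff' hD.measurableSet).2 (h.mono fun z hz hz' => hz hz'.1),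
        self_mem_ae_restrict hD.measurableSet] with z z1 z2
      obtain ⟨η, e1, e2⟩ := z1
      have e3 : η (eb σ) = f (X.s (C.pt 1 X.a₀ z)) * ds C X.s 1 X.a₀ z (eb σ) :=
        mul_left_cancel₀ (pow_ne_zero k z2.2) (by
          rw [← e2, e z (S.W_sub z z2.1).1 (h4 z z2.1)]
          ring)
      have e4 := ENNReal.tendsto_ofReal (((((e1 (eb σ)).sub_const (Pf (X.s (C.pt 1 X.a₀ z)) *
        ds C X.s 1 X.a₀ z (eb σ))).norm).pow 2).mul_const (pw n X.t₀ j (X.s (C.pt 1 X.a₀ z))))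
      rw [e3, ← sub_mul] at e4
      rw [X.base.2]
      refine e4.liminf_eq.symm.trans_le (liminf_le_liminf ?_)
      filter_upwards [(S.u_tend.comp hu).eventually (eventually_ge_atTop j)] with m hm
      exact ENNReal.ofReal_le_ofReal (mul_le_mul_of_nonneg_left (pw_mono _ _ hm) (by positivity))
    · refine (ContinuousOn.aemeasurable (fun z hz => ?_) hD.measurableSet).ennreal_ofReal
      have c1 : ContinuousAt (fun w => ev (S.y (u m) w) σ) z :=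
        (ContinuousAlternatingMap.apply ℂ (Cm n) ℂ (eb σ)).continuous.continuousAt.comp
          ((S.y_cont _).continuousAt (S.W_open.mem_nhds hz.1))
      have c2 := (hb z hz.1).continuousAt
      exact (((c1.sub ((hP.continuous.continuousAt.comp (f := fun w => X.s (C.pt 1 X.a₀ w)) c2).mul
        (hd z hz.1).continuousAt)).norm.pow 2).mul ((S8a.cont_pw _).continuousAt.comp
          (f := fun w => X.s (C.pt 1 X.a₀ w)) c2)).continuousWithinAt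
  have k3 := (mul_eq_zero.1 k1).resolve_right hσ
  have k4 := (((hH.differentiableAt.hasFDerivAt.comp (f := fun w => X.s (C.pt 1 X.a₀ w)) _
    (hb _ S.W_mem).differentiableAt.hasFDerivAt).mul
      (hd _ S.W_mem).differentiableAt.hasFDerivAt)).unique k2
  rw [X.base.2] at k3 k4
  refine ⟨sub_eq_zero.1 k3, sub_eq_zero.1 ?_⟩
  rw [← fderiv_fun_sub hf.differentiableAt (hP _)]
  ext1 v
  obtain ⟨w, rfl⟩ := hs v
  have k5 : (f (X.s (C.pt 1 X.a₀ X.z₀)) - Pf (X.s (C.pt 1 X.a₀ X.z₀))) * _ +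
      ds C X.s 1 X.a₀ X.z₀ (eb σ) * _ = 0 := DFunLike.congr_fun k4 w
  rw [X.base.2, k3, zero_mul, zero_add] at k5
  exact (mul_eq_zero.1 k5).resolve_left hσ

end Lt

/-- **X6b** -/
theorem stX6b : StX6b := by
  intro hL hP n p k Γ E _ _ _ _ _ C _ X Pf hPf S
  obtain ⟨T, u, hu, h⟩ := Lt.exists_lim hL S
  obtain ⟨r, hr, h1⟩ := Lt.near S hu h hP
  choose f f1 f2 using Lt.basic hr h1
  obtain ⟨h2, h3⟩ := Lt.jets S hu h hPf (f1 1) (f2 1)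
  exact ⟨⟨T, f, f2, f1 1, h2, h3⟩⟩

end Vale.Agent.P284Y.X56
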