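import Vale.Agent.P284Y.X56.Spec
import Vale.Agent.P284Y.X56.Pf

/-!
# P284Y, row PFT: integrals over the tube
-/

open scoped ContDiff Topology ENNReal
open Filter Set Function Metric MeasureTheory

noncomputable section

namespace Vale.Agent.P284Y.X56

open Vale.Agent.P272.K Vale.Agent.P284Z Vale.Agent.P284Z.L Vale.Agent.P284Y.X

theorem pfT : PfT := by
  intro n p Γ E _ _ _ _ _ C X R₂ hR H hH
  have hL := X.cpt R₂ hR
  have hS := C.proper _ (C.isCompact_K₁.union hL)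
  have h4 : ∀ a, C.cB 1 a ⊆ C.B 4 a := fun a => C.cB_sub_B (by norm_num) a
  have key : ∀ γ a, ∃ V < (⊤ : ℝ≥0∞), (γ ∉ hS.toFinset → V = 0) ∧ ∀ g : Cm p → ℝ≥0∞, Measurable g →
      ∫⁻ z in {z ∈ C.B 1 a | C.pt γ a z ∈ X.T ∧ X.s (C.pt γ a z) ∈ ball X.t₀ R₂},
        g (X.s (C.pt γ a z)) * ENNReal.ofReal (H γ a z) ≤ V * ∫⁻ t in ball X.t₀ R₂, g t := by
    intro γ a
    have hA : {z ∈ C.B 1 a | C.pt γ a z ∈ X.T ∧ X.s (C.pt γ a z) ∈ ball X.t₀ R₂} ⊆
        C.cB 1 a ∩ C.pt γ a ⁻¹' {y ∈ X.T | ‖X.s y - X.t₀‖ ≤ R₂} := fun z hz =>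
      ⟨C.B_sub_cB 1 a hz.1, hz.2.1, (mem_ball_iff_norm.1 hz.2.2).le⟩
    by_cases hγ : γ ∈ hS.toFinset
    · have hK := (C.isCompact_cB 1 a).of_isClosed_subset
        (((C.continuousOn_pt γ a).mono (h4 a)).preimage_isClosed_of_isClosed
          (C.isCompact_cB 1 a).isClosed hL.isClosed) inter_subset_left
      obtain ⟨V, hV, h1⟩ := (pfSt n p fun w => X.s (C.pt γ a w)).1 _ hK fun z hz =>
        ⟨X.sub.hol γ a z (h4 a hz.1) hz.2.1, X.sub.surj γ a z (h4 a hz.1) hz.2.1⟩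
      obtain ⟨M, hM⟩ := hK.exists_bound_of_continuousOn fun z hz =>
        (hH γ a z (h4 a hz.1) hz.2.1).continuousWithinAt
      refine ⟨ENNReal.ofReal M * V, ENNReal.mul_lt_top ENNReal.ofReal_lt_top hV,
        fun h => absurd hγ h, fun g hg => ?_⟩
      have hO : IsOpen {z ∈ C.B 1 a | C.pt γ a z ∈ X.T ∧ X.s (C.pt γ a z) ∈ ball X.t₀ R₂} :=
        isOpen_iff_mem_nhds.2 fun z hz => ((C.isOpen_B 1 a).eventually_mem hz.1).and
          (((C.continuousAt_pt (C.B14 hz.1) γ).eventually (X.sub.opn.mem_nhds hz.2.1)).and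
            ((X.sub.hol γ a z (C.B14 hz.1) hz.2.1).continuousAt.eventually
              (isOpen_ball.mem_nhds hz.2.2)))
      have h2 := h1 _ (hg.indicator (measurableSet_ball (x := X.t₀) (ε := R₂)))
      rw [lintegral_indicator measurableSet_ball] at h2
      rw [mul_assoc]
      refine le_trans ?_ (mul_le_mul_right ((lintegral_mono_set hA).trans h2) _)
      rw [← lintegral_const_mul' _ _ ENNReal.ofReal_ne_top]
      refine setLIntegral_mono' hO.measurableSet fun z hz => ?_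
      rw [indicator_of_mem hz.2.2, mul_comm]
      exact mul_le_mul_left (ENNReal.ofReal_le_ofReal ((le_abs_self _).trans (hM z (hA hz)))) _
    · refine ⟨0, ENNReal.zero_lt_top, fun _ => rfl, fun g _ => ?_⟩
      rw [eq_empty_of_forall_notMem (s := {z ∈ C.B 1 a | _}) fun z hz => hγ (hS.mem_toFinset.2
        ⟨C.pt 1 a z, Or.inl (mem_iUnion.2 ⟨a, z, (hA hz).1, rfl⟩),
          Or.inr (C.pt_eq γ a z ▸ (hA hz).2)⟩)]
      simp
  choose V h1 h2 h3 using key
  refine ⟨∑' γ, ∑ a, V γ a, ?_, fun g hg => ?_⟩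
  · rw [tsum_eq_sum (s := hS.toFinset) fun γ h => Finset.sum_eq_zero fun a _ => h2 γ a h]
    exact ENNReal.sum_lt_top.2 fun γ _ => ENNReal.sum_lt_top.2 fun a _ => h1 γ a
  · rw [← ENNReal.tsum_mul_right]
    refine ENNReal.tsum_le_tsum fun γ => ?_
    rw [Finset.sum_mul]
    exact Finset.sum_le_sum fun a _ => h3 γ a g hg

end Vale.Agent.P284Y.X56
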