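import Vale.Agent.P284Y.X4.Main
import Vale.Agent.P284Y.X56.A1
import Vale.Agent.P284Y.X56.A2b
import Vale.Agent.P284Y.X56.A3
import Vale.Agent.P284Y.X56.AlgT
import Vale.Agent.P284Y.X56.B1
import Vale.Agent.P284Y.X56.B2
import Vale.Agent.P284Y.X56.B3
import Vale.Agent.P284Y.X56.B4
import Vale.Agent.P284Y.X56.Lim
import Vale.Agent.P284Y.X56.Lt5
import Vale.Agent.P284Y.X56.PfT

/-!
# P284Y, rows X4, X5, X6
-/

namespace Vale.Agent.P284Y.X56

theorem stX46 : X.StX46 :=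
  stX46_of X4.stX4 (stA_of stA1 stA2b algSt pfT) stB1 stB2 stB3 stB4 trSt pfT stX6b limSt pfSt

end Vale.Agent.P284Y.X56
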