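import Vale.Agent.P284Y.X56.Kl
import Vale.Agent.P284Y.X56.Pt
import Vale.Agent.P284Z.J.G1
import Vale.Agent.P284.H286.K.Meas

/-!
# P284Y, row X6a: the volume measure on `O`, and the case of an empty set
-/

open scoped ContDiff Topology ComplexOrder ComplexConjugate ENNReal
open Filter Set Function Metric MeasureTheory

noncomputable section

namespace Vale.Agent.P284Y.X56

open Vale.Agent.P272.K Vale.Agent.P284.H608.K Vale.Agent.P284Z Vale.Agent.P284Z.J
  Vale.Agent.P284Z.L Vale.Agent.P284Y.X Vale.Agent.P284Y.X4 Vale.Agent.P284Z.L.S3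

variable {n p k j : ℕ} {Γ E : Type} [Group Γ] [TopologicalSpace E] [MulAction Γ E] {C : Cov n Γ E}
  {X : XL C p} {F : XF X} {Pf : Cm p → ℂ} {N e : ℝ}

theorem sigma_open [Countable Γ] (C : Cov n Γ E) {O : Set E} (hO : IsOpen O) :
    SigmaCompactSpace O := by
  refine isSigmaCompact_iff_sigmaCompactSpace.1 ?_
  rw [show O = ⋃ γ, ⋃ a, C.pt γ a '' {z ∈ C.B 4 a | C.pt γ a z ∈ O} from
    Subset.antisymm (fun y hy => by
      obtain ⟨γ, a, z, hz, rfl⟩ := C.exists_pt y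
      exact mem_iUnion₂.2 ⟨γ, a, z, ⟨C.B14 hz, hy⟩, rfl⟩)
      (iUnion₂_subset fun γ a => image_subset_iff.2 fun _ h => h.2)]
  refine isSigmaCompact_iUnion _ fun γ => isSigmaCompact_iUnion _ fun a =>
    IsSigmaCompact.image_of_continuousOn ?_ ((C.continuousOn_pt γ a).mono fun _ h => h.1)
  have := (C.isOpen_preimage_pt γ a hO).locallyCompactSpace
  exact isSigmaCompact_iff_sigmaCompactSpace.2 inferInstance

theorem exists_P [Countable Γ] [T2Space E] [MeasurableSpace E] [BorelSpace E]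
    (S : XS F k Pf j N e) (h : S.O.Nonempty) : ∃ P : Pre C S.O, P.w = C.om F.A S.κ :=
  have := sigma_open C S.O_opn
  exists_pre P284.H286.K.measStmt S.O_opn ⟨_, h.some_mem⟩
    (JGx.cf_om jb F.A S.κ S.O fun y _ => S.κ_sm y) fun _ _ _ hz _ => Pt.w_pos S hz

theorem eo_empty (S : XS F k Pf j N e) (h : ¬ S.O.Nonempty) (K₀ K₁ : ℝ≥0∞) :
    Nonempty (EO S K₀ K₁) :=
  ⟨{ y := fun _ _ _ _ => 0
     sm := fun _ _ _ _ _ _ => contDiffAt_const
     ch := fun _ _ _ _ _ _ _ _ _ _ k => absurd ⟨_, k⟩ h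
     supp := ⟨∅, isCompact_empty, empty_subset _, fun _ _ _ _ _ _ => rfl⟩
     Y := fun _ _ _ _ => 0
     Y_eq := fun _ _ _ _ _ k => absurd ⟨_, k⟩ h
     Y_off := fun _ _ _ _ _ => rfl
     f₀ := fun _ _ _ => 0
     f₁ := fun _ _ _ => 0
     meas₀ := fun _ _ => aemeasurable_const
     meas₁ := fun _ _ => aemeasurable_const
     int₀ := fun _ => by simp
     int₁ := fun _ => by simp
     p₀ := fun _ _ _ _ _ _ k => absurd ⟨_, k⟩ h
     p₁ := fun _ _ _ _ _ _ k => absurd ⟨_, k⟩ h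
     p₂ := fun _ _ _ _ _ _ k => absurd ⟨_, k⟩ h }⟩

end Vale.Agent.P284Y.X56
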