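import Vale.Agent.P284Y.X56.Kl
import Vale.Agent.P284Y.X56.Lt4

/-!
# P284Y, row X6a: from a test form on `O` to the components in the frames, and the tensor
-/

open scoped ContDiff Topology ComplexOrder ComplexConjugate ENNReal
open Filter Set Function Metric MeasureTheory

noncomputable section

namespace Vale.Agent.P284Y.X56

open Vale.Agent.P272.K Vale.Agent.P284.H608.K Vale.Agent.P284Z Vale.Agent.P284Z.J
  Vale.Agent.P284Z.L Vale.Agent.P284Y.X Vale.Agent.P284Y.X4 Vale.Agent.P284Z.L.S3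

variable {n p k j : ℕ} {Γ E : Type} [Group Γ] [TopologicalSpace E] [MulAction Γ E] {C : Cov n Γ E}
  {X : XL C p} {F : XF X} {Pf : Cm p → ℂ} {N e : ℝ}

theorem exists_Y (O : Set E) (y : Γ → C.I → (Fin p → Fin n) → Cm n → Af n p)
    (ch : ∀ γ g a b I J z, C.Ov g a b z → z ∈ X.U a I → C.tr g a b z ∈ X.U b J →
      C.pt (γ * g) a z ∈ O → ∀ ξ, y (γ * g) a I z ξ =
        X.θ b J (C.tr g a b z) (trv C g a b z (eb I)) ^ k *
          y γ b J (C.tr g a b z) (trv C g a b z ξ)) :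
    ∃ Y : Γ → C.I → Cm n → (Fin k → Fin p → Fin n) → Af n p,
      (∀ γ a I, ∀ z ∈ X.U a I, C.pt γ a z ∈ O → ∀ T,
        Y γ a z T = (∏ l, X.θ a I z (eb (T l))) • y γ a I z) ∧
      ∀ γ a z, C.pt γ a z ∉ O → ∀ T, Y γ a z T = 0 := by
  classical
  refine ⟨fun γ a z T => if h : C.pt γ a z ∈ O ∧ ∃ J, z ∈ X.U a J then
    (∏ l, X.θ a h.2.choose z (eb (T l))) • y γ a h.2.choose z else 0, fun γ a I z hz hO T => ?_,
    fun γ a z h T => dif_neg fun k => h k.1⟩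
  have h : C.pt γ a z ∈ O ∧ ∃ J, z ∈ X.U a J := ⟨hO, I, hz⟩
  have hJ := h.2.choose_spec
  have h4 := Lt.U4 X hz
  refine (dif_pos h).trans ?_
  generalize h.2.choose = J at hJ
  ext ξ
  have h1 := ch γ 1 a a I J z (C.Ov_self h4) hz ((C.tr_self h4).symm ▸ hJ) (by rwa [mul_one]) ξ
  rw [mul_one, C.tr_self h4, Lt.trv_one h4, Lt.trv_one h4] at h1
  change _ * y γ a J z ξ = _ * y γ a I z ξ
  rw [h1, Finset.prod_congr rfl fun l _ => (X.θ_same a I J z hz hJ).2 (eb (T l)),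
    Finset.prod_mul_distrib, Finset.prod_const, Finset.card_univ, Fintype.card_fin]
  ring

variable [MeasurableSpace E] [BorelSpace E] {S : XS F k Pf j N e} {P : Pre C S.O}
  {y : (KL S P).Fm p}

theorem form_ch (h : (KL S P).IsForm y) (γ g : Γ) (a b : C.I) (I J : Fin p → Fin n) (z : Cm n)
    (ho : C.Ov g a b z) (hz : z ∈ X.U a I) (hz' : C.tr g a b z ∈ X.U b J)
    (hO : C.pt (γ * g) a z ∈ S.O) (ξ : Fin p → Cm n) : y (γ * g, a, I) z ξ =
      X.θ b J (C.tr g a b z) (trv C g a b z (eb I)) ^ k *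
        y (γ, b, J) (C.tr g a b z) (trv C g a b z ξ) := by
  have e1 := C.pt_tr ho γ
  obtain ⟨k1, k2⟩ := mem_ec P hz hO
  obtain ⟨k3, k4⟩ := mem_ec P (γ := γ) hz' (e1 ▸ hO)
  simp only [e1] at k3 k4
  have h1 := (h.change (γ * g, a, I) (γ, b, J) _ k1 k3).trans (congrArg
    (fun L => _ • ContinuousAlternatingMap.compContinuousLinearMap _ L)
    (fd_ec (((KL S P).e _).map_source k1) (γ, b, J)))
  change y _ (ec S P _ _) = X.θ b J (C.tr (γ⁻¹ * (γ * g)) a b (ec S P _ _))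
    (trv C (γ⁻¹ * (γ * g)) a b (ec S P _ _) (eb I)) ^ k • (y _ (ec S P _ _)).compContinuousLinearMap
      (fderiv ℂ (C.tr (γ⁻¹ * (γ * g)) a b) (ec S P _ _)) at h1
  rw [k2, k4, inv_mul_cancel_left] at h1
  rw [h1]
  rfl

theorem test_supp (h : (KL S P).Test y) : ∃ L, IsCompact L ∧ L ⊆ S.O ∧
    ∀ γ a I, ∀ z ∈ X.U a I, C.pt γ a z ∉ L → y (γ, a, I) z = 0 := by
  obtain ⟨L, h1, h2⟩ := h.supp
  refine ⟨Subtype.val '' L, h1.image continuous_subtype_val, image_subset_iff.2 fun x _ => x.2,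
    fun γ a I z hz hL => ?_⟩
  by_cases hO : C.pt γ a z ∈ S.O
  · obtain ⟨k1, k2⟩ := mem_ec P hz hO
    exact k2 ▸ h2 (γ, a, I) _ k1 fun k => hL ⟨_, k, rfl⟩
  · exact h.form.off _ z fun k => hO k.1.2

theorem test_sm (h : (KL S P).Smooth y) (γ : Γ) (a : C.I) (I : Fin p → Fin n) (z : Cm n)
    (hz : z ∈ X.U a I) (hO : C.pt γ a z ∈ S.O) : ContDiffAt ℝ ∞ (y (γ, a, I)) z :=
  h (γ, a, I) z ⟨⟨Lt.U4 X hz, hO⟩, hz⟩

end Vale.Agent.P284Y.X56
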