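import Vale.Agent.P284Y.X.Sk23
import Vale.Agent.P284.H619.K.AlgD
import Vale.Agent.P284Z.F0.Cov

/-!
# P284Y, rows X5 and X6: the approximate solutions, and the statements of the pieces
-/

open scoped ContDiff Topology ComplexOrder ComplexConjugate ENNReal
open Filter Set Function Metric MeasureTheory

noncomputable section

namespace Vale.Agent.P284Y.X56

open Vale.Agent.P272.K Vale.Agent.P284.H608.K Vale.Agent.P284Z Vale.Agent.P284Z.J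
  Vale.Agent.P284Z.L Vale.Agent.P284Y.X

variable {n p k : ℕ} {Γ E : Type} [Group Γ] [TopologicalSpace E] [MulAction Γ E]

/-- the tensor with the coefficients `Y` -/
def tau (Y : (Fin k → Fin p → Fin n) → Af n p) (ξ : Fin p → Cm n) : ℂ :=
  ∑ T : Fin k → Fin p → Fin n, (∏ l, ∏ j, ξ j (T l j)) * Y T ξ

/-- The approximate solutions `Y i = y_i ⊗ θ^k`, in the small charts. -/
structure SY {C : Cov n Γ E} (X : XL C p) (k : ℕ) (Pf : Cm p → ℂ) where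
  Y : ℕ → Γ → C.I → Cm n → (Fin k → Fin p → Fin n) → Af n p
  sm : ∀ i γ a T, ∀ z ∈ C.B 1 a, ContDiffAt ℝ ∞ (fun w => Y i γ a w T) z
  ch : ∀ i γ g a b z, C.Ov g a b z → z ∈ C.B 1 a → C.tr g a b z ∈ C.B 1 b → ∀ ξ,
    tau (Y i (γ * g) a z) ξ = tau (Y i γ b (C.tr g a b z)) (trv C g a b z ξ)
  det : ∀ i γ a, ∀ z ∈ C.B 1 a, ∀ (M : Matrix (Fin p) (Fin p) ℂ) (ξ : Fin p → Cm n),
    tau (Y i γ a z) (fun j => ∑ j', M j j' • ξ j') = M.det ^ (k + 1) * tau (Y i γ a z) ξ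
  l2 : ∃ B < (⊤ : ℝ≥0∞), ∀ i a T σ, ∑' γ : Γ, ∫⁻ z in C.B 1 a, ‖ev (Y i γ a z T) σ‖ₑ ^ 2 ≤ B
  db : ∀ γ a T σ c, Tendsto (fun i => ∫⁻ z in C.B 1 a,
    ‖dzb c (fun w => ev (Y i γ a w T) σ) z‖ₑ) atTop (𝓝 0)
  G : Set (Cm p)
  G_pos : ∀ r > 0, 0 < volume (G ∩ ball X.t₀ r)
  W : Set (Cm n)
  W_open : IsOpen W
  W_mem : X.z₀ ∈ W
  W_sub : ∀ z ∈ W, z ∈ C.B 1 X.a₀ ∧ C.pt 1 X.a₀ z ∈ X.T
  y : ℕ → Cm n → Af n p
  y_cont : ∀ i, ContinuousOn (y i) W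
  eq : ∀ i, ∀ z ∈ W, ∀ T, Y i 1 X.a₀ z T = (∏ l, ds C X.s 1 X.a₀ z (eb (T l))) • y i z
  wedge : ∃ F : ℕ → Cm n → ℝ≥0∞, (∀ i, AEMeasurable (F i) (volume.restrict W)) ∧
    Tendsto (fun i => ∫⁻ z in W, F i z) atTop (𝓝 0) ∧
    ∀ i, ∀ z ∈ W, X.s (C.pt 1 X.a₀ z) ∈ G → ∀ c (v : Fin (p + 1) → Cm n), ‖v‖ ≤ 1 →
      ‖P284.H619.K.wd (P284.H619.K.tL (fderiv ℂ (fun w => X.s (C.pt 1 X.a₀ w)) z) c) (y i z) v‖ₑ
        ^ 2 ≤ F i z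
  u : ℕ → ℕ
  u_tend : Tendsto u atTop atTop
  jets : ∃ B < (⊤ : ℝ≥0∞), ∀ i σ, ∫⁻ z in W, ENNReal.ofReal (‖ev (y i z) σ -
    Pf (X.s (C.pt 1 X.a₀ z)) * ds C X.s 1 X.a₀ z (eb σ)‖ ^ 2 *
      pw n X.t₀ (u i) (X.s (C.pt 1 X.a₀ z))) ≤ B

/-- **LIM**: almost holomorphic functions, bounded in `L²` -/
def LimSt : Prop := ∀ (n : ℕ) (ι : Type) [Countable ι] (U : ι → Set (Cm n))
  (f : ι → ℕ → Cm n → ℂ), (∀ x, IsOpen (U x)) →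
  (∀ x i, ∀ z ∈ U x, ContDiffAt ℝ ∞ (f x i) z) →
  (∀ x, ∃ B < (⊤ : ℝ≥0∞), ∀ i, ∫⁻ z in U x, ‖f x i z‖ₑ ^ 2 ≤ B) →
  (∀ x c, Tendsto (fun i => ∫⁻ z in U x, ‖dzb c (f x i) z‖ₑ) atTop (𝓝 0)) →
  ∃ u : ℕ → ℕ, Tendsto u atTop atTop ∧ ∃ F : ι → Cm n → ℂ,
    (∀ x, AnalyticOnNhd ℂ (F x) (U x)) ∧
    ∀ x, ∀ᵐ z, z ∈ U x → Tendsto (fun m => f x (u m) z) atTop (𝓝 (F x z))

/-- **PF**: the image of the volume under a submersion -/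
def PfSt : Prop := ∀ (n p : ℕ) (b : Cm n → Cm p),
  (∀ K : Set (Cm n), IsCompact K →
    (∀ z ∈ K, AnalyticAt ℂ b z ∧ Surjective (fderiv ℂ b z)) →
    ∃ V < (⊤ : ℝ≥0∞), ∀ g : Cm p → ℝ≥0∞, Measurable g → ∫⁻ z in K, g (b z) ≤ V * ∫⁻ t, g t) ∧
  ∀ z₀, AnalyticAt ℂ b z₀ → Surjective (fderiv ℂ b z₀) → ∀ G : Set (Cm p),
    (∀ r > 0, 0 < volume (G ∩ ball (b z₀) r)) → ∀ W ∈ 𝓝 z₀, 0 < volume {z ∈ W | b z ∈ G}

/-- the limit tensor for the model `Pf`: it is `h ds^(k+1)` near all the translates of the base point -/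
structure LT {C : Cov n Γ E} (X : XL C p) (k : ℕ) (Pf : Cm p → ℂ) where
  T : Ten C p (k + 1)
  h : Γ → Cm p → ℂ
  basic : ∀ γ, ∀ z ∈ C.B 1 X.a₀, C.pt 1 X.a₀ z ∈ X.T → ∀ ξ,
    T.τ γ X.a₀ z ξ = ds C X.s 1 X.a₀ z ξ ^ (k + 1) * h γ (X.s (C.pt 1 X.a₀ z))
  an : AnalyticAt ℂ (h 1) X.t₀
  jet0 : h 1 X.t₀ = Pf X.t₀
  jet1 : fderiv ℂ (h 1) X.t₀ = fderiv ℂ Pf X.t₀

/-- **X6b**: the limit -/
def StX6b : Prop := LimSt → PfSt →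
  ∀ (n p k : ℕ) (Γ E : Type) [Group Γ] [Countable Γ] [TopologicalSpace E]
  [T2Space E] [MulAction Γ E] (C : Cov n Γ E), 1 ≤ p → ∀ (X : XL C p) (Pf : Cm p → ℂ),
  Differentiable ℂ Pf → SY X k Pf → Nonempty (LT X k Pf)

/-- the basic tensors -/
theorem bt_of {C : Cov n Γ E} (X : XL C p) (hp : 1 ≤ p)
    (h : ∀ Pf : Cm p → ℂ, Differentiable ℂ Pf → Nonempty (LT X k Pf)) : Nonempty (BT C) := by
  let Pf : Option (Fin p) → Cm p → ℂ := fun i => i.elim (fun _ => 1) fun j t => t j - X.t₀ j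
  have hP : ∀ i, Differentiable ℂ (Pf i) := fun i => by
    cases i
    exacts [differentiable_const _, (differentiable_apply _).sub_const _]
  let L : ∀ i, LT X k (Pf i) := fun i => (h _ (hP i)).some
  have hz4 := C.B14 X.mem₀
  refine ⟨⟨p, k + 1, hp, Nat.succ_pos k, X.a₀, X.z₀, X.mem₀, fun w => X.s (C.pt 1 X.a₀ w),
    {z | z ∈ C.B 1 X.a₀ ∧ C.pt 1 X.a₀ z ∈ X.T}, ?_, X.sub.hol 1 _ _ hz4 X.base.1,
    X.sub.surj 1 _ _ hz4 X.base.1, fun i => (L i).T, fun i => (L i).h,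
    fun i γ z hz ξ => (L i).basic γ z hz.1 hz.2 ξ, fun i => X.base.2 ▸ (L i).an,
    ⟨?_, fun i => ?_⟩, fun η hη => ?_⟩⟩
  · exact inter_mem ((C.isOpen_B 1 _).mem_nhds X.mem₀)
      ((C.continuousAt_pt hz4 1).eventually_mem (X.sub.opn.mem_nhds X.base.1))
  · rw [X.base.2, (L none).jet0]
    exact one_ne_zero
  · rw [X.base.2, (L (some i)).jet0]
    exact sub_self _
  · ext i
    have h1 := hη i
    rw [X.base.2, (L (some i)).jet1] at h1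
    have h2 : HasFDerivAt (Pf (some i)) (ContinuousLinearMap.proj i : Cm p →L[ℂ] ℂ) X.t₀ :=
      (hasFDerivAt_apply i X.t₀).sub_const _
    rw [h2.fderiv] at h1
    exact h1

end Vale.Agent.P284Y.X56
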