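import Vale.Agent.P284Y.X56.Hil

/-!
# P284Y, row X5: the local engine
-/

open scoped ContDiff Topology ComplexConjugate ComplexOrder ENNReal
open Filter Set MeasureTheory

set_option linter.unusedSectionVars false

noncomputable section

namespace Vale.Agent.P284Y.X56

open Vale.Agent.P272.K Vale.Agent.P284.H608.K Vale.Agent.P284.H419.K
open Vale.Agent.P284.H286.K (ip_conj ip_zero_left ip_smul_left test_smul dT_nonneg)

variable {n p r : ℕ} {M : Type} [TopologicalSpace M] [T2Space M] [MeasurableSpace M] [BorelSpace M]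
  {K : KA n M}

/-- a cut-off function -/
structure CO (K : KA n M) (χ : M → ℝ) (e : ℝ) : Prop where
  sm : SmF K χ
  le : ∀ x, |χ x| ≤ 1
  cpt : ∃ D, IsCompact D ∧ ∀ x ∉ D, χ x = 0
  gb : ∀ x, ∃ i, x ∈ (K.e i).source ∧ GB χ e K i x

theorem SmF.cont {f : M → ℝ} (h : SmF K f) : Continuous f := continuous_iff_continuousAt.2 fun x => by
  obtain ⟨i, hi⟩ := K.cover x
  refine (((h i _ ((K.e i).map_source hi)).continuousAt).comp ((K.e i).continuousAt hi)).congr ?_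
  filter_upwards [(K.e i).open_source.mem_nhds hi] with y hy
  rw [Function.comp_apply, (K.e i).left_inv hy]

theorem tendsto_conj {f : ℕ → ℂ} (h : Tendsto f atTop (𝓝 0)) :
    Tendsto (fun k => conj (f k)) atTop (𝓝 0) := by
  have h1 := (Complex.continuous_conj.tendsto 0).comp h
  rwa [map_zero] at h1

theorem real_A {X u v w C ε N S : ℝ} (hX : 0 ≤ X) (hC : 0 ≤ C) (h1 : X ≤ u + v + w)
    (h2 : u ^ 2 ≤ C * (4 * X + N * ε)) (h3 : v ^ 2 ≤ ε * S) (h4 : w ^ 2 ≤ 1 / 4 * X)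
    (h5 : 4 * (C * N + S) * ε ≤ 1 / 2) : X ≤ 16 * C + 1 := by
  have b8 : X ^ 2 ≤ 4 * u ^ 2 + 4 * v ^ 2 + 2 * w ^ 2 := by
    nlinarith [pow_le_pow_left₀ hX h1 2, sq_nonneg (u - v), sq_nonneg (u + v - w)]
  have b9 : X ^ 2 ≤ (16 * C + 1 / 2) * X + 1 / 2 := by nlinarith
  refine not_lt.1 fun h => ?_
  nlinarith

theorem real_B {a b y s s' t e N : ℝ} (he : 0 ≤ e) (hN : 0 ≤ N) (hs : 0 ≤ s) (h1 : s' ≤ s)
    (h2 : t ≤ (N + 2) * e * s) (h3 : y ≤ 2 + 2 * s) (h4 : a ≤ 2 * e + 4 * 0 + 4 * e * s')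
    (h5 : b ≤ 2 * e + 4 * t + 4 * e * s') : a + b + e * N * y ≤ (6 * N + 20) * e * (s + 1) := by
  have b5 := mul_le_mul_of_nonneg_left h3 (mul_nonneg he hN)
  have b6 := mul_le_mul_of_nonneg_left h1 he
  nlinarith [mul_nonneg he hs, mul_nonneg he hN]

theorem mf_zero (f : M → ℝ) : mf f (0 : K.Fm p) = 0 := by
  funext i z
  ext v
  exact mul_zero _

theorem nc_zero : NC fun _ : ℕ => (0 : K.Fm p) := by
  simp only [NC, sub_zero, nq_zero]
  exact tendsto_const_nhds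

theorem nq_smul (c : ℝ) (η : K.Fm p) : K.nq ((c : ℂ) • η) = c ^ 2 * K.nq η := by
  rw [KA.nq, ip_smul_left, Vale.Agent.P284.H286.K.ip_smul_right, Complex.conj_ofReal,
    Complex.re_ofReal_mul, Complex.re_ofReal_mul, KA.nq]
  ring

variable (h1 : K1Stmt) (h3 : K3Stmt n M K) {χ : M → ℝ} {e : ℝ} (H : CO K χ e)

include h1 h3 H

theorem CO.w {η : K.Fm p} (h : K.Test η) : K.nq (wf χ η) ≤ e * K.nq η :=
  nq_le h3 (wf_test h3 H.sm h) h fun x =>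
    let ⟨_, hi, hg⟩ := H.gb x
    ds_wf h1 h3 H.sm h.form h.smooth hi hg

theorem CO.c {η : K.Fm (p + 1)} (h : K.Test η) : K.nq (cf χ η) ≤ e * K.nq η :=
  nq_le h3 (cf_test h3 H.sm h) h fun x =>
    let ⟨_, hi, hg⟩ := H.gb x
    ds_cf h1 h3 H.sm h.form h.smooth hi hg

omit H in
theorem nq_near {a b : K.Fm p} (ha : K.Test a) (hb : K.Test b) {ε : ℝ} (h : K.nq (a - b) ≤ ε) :
    K.nq a ≤ 2 * ε + 2 * K.nq b := by
  have := nq_add_le h1 h3 (test_sub ha hb) hb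
  rw [sub_add_cancel] at this
  linarith

/-- regularisation of `χ x`, degree `0` -/
theorem CO.reg0 {x : ℕ → K.Fm p} {α : ℕ → K.Fm (p + 1)} (hx : ∀ k, K.Test (x k)) (hN : NC x)
    (hα : ∀ k, K.Test (α k)) (hNα : NC α) (hw : WN fun k => K.dh (x k) - α k) {ε : ℝ}
    (hε : 0 < ε) : ∀ᶠ k in atTop, ∃ y, K.Test y ∧ K.nq (y - mf χ (x k)) ≤ ε ∧
      K.nq (K.dh y) ≤ 2 * ε + 4 * K.nq (α k) + 4 * e * K.nq (x k) := by
  obtain ⟨D, hD, h0⟩ := H.cpt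
  obtain ⟨J, f, i, hf, hb, hD, hg⟩ := pou_g H.sm H.le hD h0
  obtain ⟨m, k1, k2⟩ := ((mg_x h1 h3 hf hb hD hg hx hN hε).and
    (mg_dh h1 h3 hf hb hD hg hx hN hα hNα hw hε)).exists
  filter_upwards [k1, k2] with k k1 k2
  have hy := sum_test k1.1 Finset.univ
  have t1 := mf_test H.sm (hα k)
  have t2 := wf_test h3 H.sm (hx k)
  refine ⟨_, hy, k1.2, ?_⟩
  linarith [nq_near h1 h3 (h3.dh_test _ _ hy) (test_add t1 t2) k2, nq_add_le h1 h3 t1 t2,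
    nq_mf h3 h1 H.sm H.le (hα k), H.w h1 h3 (hx k)]

/-- regularisation of `χ x`, positive degree -/
theorem CO.reg1 {x : ℕ → K.Fm (p + 1)} {α : ℕ → K.Fm (p + 2)} {β : ℕ → K.Fm p}
    (hx : ∀ k, K.Test (x k)) (hN : NC x) (hα : ∀ k, K.Test (α k)) (hNα : NC α)
    (hw : WN fun k => K.dh (x k) - α k) (hβ : ∀ k, K.Test (β k)) (hNβ : NC β)
    (hw' : WN fun k => K.S (x k) - β k) {ε : ℝ} (hε : 0 < ε) :
    ∀ᶠ k in atTop, ∃ y, K.Test y ∧ K.nq (y - mf χ (x k)) ≤ ε ∧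
      K.nq (K.dh y) ≤ 2 * ε + 4 * K.nq (α k) + 4 * e * K.nq (x k) ∧
      K.nq (K.S y) ≤ 2 * ε + 4 * K.nq (β k) + 4 * e * K.nq (x k) := by
  obtain ⟨D, hD, h0⟩ := H.cpt
  obtain ⟨J, f, i, hf, hb, hD, hg⟩ := pou_g H.sm H.le hD h0
  obtain ⟨m, k1, k2, k3⟩ := ((mg_x h1 h3 hf hb hD hg hx hN hε).and
    ((mg_dh h1 h3 hf hb hD hg hx hN hα hNα hw hε).and
    (mg_S h1 h3 hf hb hD hg hx hN hβ hNβ hw' hε))).exists
  filter_upwards [k1, k2, k3] with k k1 k2 k3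
  have hy := sum_test k1.1 Finset.univ
  have t1 := mf_test H.sm (hα k)
  have t2 := wf_test h3 H.sm (hx k)
  have t3 := mf_test H.sm (hβ k)
  have t4 := cf_test h3 H.sm (hx k)
  refine ⟨_, hy, k1.2, ?_, ?_⟩
  · linarith [nq_near h1 h3 (h3.dh_test _ _ hy) (test_add t1 t2) k2, nq_add_le h1 h3 t1 t2,
      nq_mf h3 h1 H.sm H.le (hα k), H.w h1 h3 (hx k)]
  · linarith [nq_near h1 h3 (h3.S_test _ _ hy) (test_add t3 t4) k3, nq_add_le h1 h3 t3 t4,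
      nq_mf h3 h1 H.sm H.le (hβ k), H.c h1 h3 (hx k)]

/-- the curvature term of the regularisation of `χ τ` -/
theorem CO.tau {s : K.Fm (r + 1)} {c : ℝ} {τ : ℕ → K.Fm r} (T : MS K s c τ) (hs : K.Test s)
    (hc : 0 < c) {ε : ℝ} (hε : 0 < ε) : ∀ᶠ k in atTop, ∃ y, K.Test y ∧
      K.nq (y - mf χ (τ k)) ≤ ε ∧
      ∫ x, K.dA y x ∂K.μ ≤ 4 * ε + 4 * K.nq (K.dh (τ k)) + 8 * e * K.nq (τ k) := by
  obtain ⟨c1, c2⟩ := T.cau h1 h3 hs hc
  have w1 : WN fun k => K.dh (τ k) - K.dh (τ k) := fun ψ _ => by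
    simp only [sub_self, ip_zero_left]
    exact tendsto_const_nhds
  have d1 := fun k => h3.dh_test _ _ (T.test k)
  have n1 : ∀ {q} (y : K.Fm q), 0 ≤ ∫ x, K.dT y x ∂K.μ := fun y =>
    integral_nonneg fun x => dT_nonneg h1 y x
  cases r with
  | zero =>
    filter_upwards [H.reg0 h1 h3 T.test c1 d1 c2 w1 hε] with k ⟨y, k1, k2, k3⟩
    refine ⟨y, k1, k2, ?_⟩
    linarith [h3.bk0 y k1, n1 y, (nq_nn h1 h3 (wf_test h3 H.sm (T.test k))).trans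
      (H.w h1 h3 (T.test k))]
  | succ r =>
    have w2 : WN fun k => K.S (τ k) - (fun _ => 0) k :=
      wn_S h1 h3 T.test (fun _ => zero_test) fun ψ hψ => by
        have k1 := (T.lim (h3.dh_test _ _ hψ)).const_mul (-(c : ℂ))⁻¹
        rw [mul_zero] at k1
        refine (tendsto_conj k1).congr fun k => ?_
        have : (c : ℂ) ≠ 0 := Complex.ofReal_ne_zero.2 hc.ne'
        rw [h3.dh_dh _ _ hψ, ip_zero_left, ip_zero_left, sub_zero, zero_sub, ← neg_mul,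
          inv_mul_cancel_left₀ (neg_ne_zero.2 this), ← ip_conj h1]
    filter_upwards [H.reg1 h1 h3 T.test c1 d1 c2 w1 (fun _ => zero_test) nc_zero w2 hε]
      with k ⟨y, k1, k2, k3, k4⟩
    refine ⟨y, k1, k2, ?_⟩
    rw [nq_zero] at k4
    linarith [h3.bk r y k1, n1 y]

/-- the bound of `∂ τ` -/
theorem CO.bd (he : 0 < e) (he1 : e ≤ 1) {s : K.Fm (r + 1)} (hs : K.Test s)
    (f2 : mf χ (K.S s) = K.S s) {C₀ : ℝ} (hC : 0 ≤ C₀) (hS : ∀ τ : K.Fm r, K.Test τ →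
      ‖K.ip τ (K.S s)‖ ^ 2 ≤ C₀ * ((∫ x, K.dA τ x ∂K.μ) + e * n * K.nq τ))
    {τ : ℕ → K.Fm r} (T : MS K s ((n + 2) * e) τ) :
    ∀ᶠ k in atTop, K.nq (K.dh (τ k)) ≤ 16 * C₀ + 1 := by
  have hc : 0 < (n + 2) * e := by positivity
  have d1 := fun k => h3.dh_test _ _ (T.test k)
  have S1 := h3.S_test _ _ hs
  have n1 := fun k => nq_nn h1 h3 (T.test k)
  have n2 := fun k => nq_nn h1 h3 (d1 k)
  have n4 := nq_nn h1 h3 S1
  have q0 : 0 < 4 * (C₀ * (4 + 2 * n) + K.nq (K.S s)) + 1 := by positivity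
  obtain ⟨ε, q1, q2⟩ : ∃ ε > (0 : ℝ), 4 * (C₀ * (4 + 2 * n) + K.nq (K.S s)) * ε ≤ 1 / 2 :=
    ⟨1 / 2 / (4 * (C₀ * (4 + 2 * n) + K.nq (K.S s)) + 1), by positivity, by
      rw [mul_div_assoc', div_le_iff₀ q0]
      linarith⟩
  have q3 := (tendsto_one_div_add_atTop_nhds_zero_nat (𝕜 := ℝ)).eventually
    (eventually_le_nhds (by norm_num : (0 : ℝ) < 1 / 4))
  filter_upwards [H.tau h1 h3 T hs hc q1, q3] with k ⟨y, k1, k2, k3⟩ k4
  have t1 := mf_test H.sm (T.test k)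
  obtain ⟨X, hX⟩ : ∃ X, X = K.nq (K.dh (τ k)) + (n + 2) * e * K.nq (τ k) := ⟨_, rfl⟩
  have X0 : K.nq (K.dh (τ k)) ≤ X := hX ▸ le_add_of_nonneg_right (mul_nonneg hc.le (n1 k))
  have e1 : K.ip (K.dh (τ k)) s = K.ip y (K.S s) - K.ip (y - mf χ (τ k)) (K.S s) := by
    rw [ip_sub_left h3 k1 t1 S1, ip_mf, f2, sub_sub_cancel, h3.adj _ _ _ (T.test k).form
      (T.test k).smooth hs.form hs.smooth (Or.inr hs)]
  have e2 : (X : ℂ) = K.ip y (K.S s) - K.ip (y - mf χ (τ k)) (K.S s) -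
      (K.ip (K.dh (τ k)) (s - K.dh (τ k)) - (((n + 2) * e : ℝ) : ℂ) * K.ip (τ k) (τ k)) := by
    rw [← e1, ip_sub_right h3 hs (d1 k) (d1 k), ip_self h1, ip_self h1, hX]
    push_cast
    ring
  have e3 := congrArg norm e2
  rw [Complex.norm_real, Real.norm_of_nonneg ((n2 k).trans X0)] at e3
  have e4 := e3.trans_le ((norm_sub_le _ _).trans (add_le_add_left (norm_sub_le _ _) _))
  have b2 := (ip_cs h1 h3 (test_sub k1 t1) S1).trans (mul_le_mul_of_nonneg_right k2 n4)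
  have b3 := T.el k _ (T.test k)
  rw [← hX] at b3
  have b4 : K.nq y ≤ 2 * ε + 2 * K.nq (τ k) := by
    linarith [nq_near h1 h3 k1 t1 k2, nq_mf h3 h1 H.sm H.le (T.test k)]
  have b6 : (∫ x, K.dA y x ∂K.μ) + e * n * K.nq y ≤ 4 * X + (4 + 2 * n) * ε := by
    have := mul_le_mul_of_nonneg_left b4 (by positivity : 0 ≤ e * n)
    have := mul_le_mul_of_nonneg_right he1 (by positivity : 0 ≤ 2 * n * ε)
    have := mul_nonneg (Nat.cast_nonneg (α := ℝ) n) (mul_nonneg he.le (n1 k))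
    rw [hX]
    linarith
  exact X0.trans (real_A ((n2 k).trans X0) hC e4 ((hS y k1).trans (mul_le_mul_of_nonneg_left b6 hC))
    b2 (b3.trans (mul_le_mul_of_nonneg_right k4 ((n2 k).trans X0))) q2)

/-- **X5**: the local engine -/
theorem CO.eng (he : 0 < e) (he1 : e ≤ 1) {s : K.Fm (r + 1)} (hs : K.Test s) (hd : K.dh s = 0)
    (h0 : K.Off {x | χ x = 1} s) {C₀ : ℝ} (hC : 0 ≤ C₀) (hS : ∀ τ : K.Fm r, K.Test τ →
      ‖K.ip τ (K.S s)‖ ^ 2 ≤ C₀ * ((∫ x, K.dA τ x ∂K.μ) + e * n * K.nq τ)) :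
    ∃ y, K.Test y ∧ K.nq (y - s) ≤ 32 * C₀ + 4 ∧
      (∫ x, K.dT y x ∂K.μ) + (∫ x, K.dA y x ∂K.μ) + e * n * K.nq y ≤
        (6 * n + 20) * e * (K.nq s + 1) := by
  have hc : 0 < (n + 2) * e := by positivity
  obtain ⟨τ, T⟩ := exists_ms h1 h3 hs hc.le
  have f1 : mf χ s = s := mf_fix hs.form h0 fun _ h => h
  have A := H.bd h1 h3 he he1 hs (mf_fix (h3.S_test _ _ hs).form
    (off_S (isClosed_eq (SmF.cont H.sm) continuous_const) h0) fun _ h => h) hC hS T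
  obtain ⟨c, hce⟩ : ∃ c, c = (n + 2) * e := ⟨_, rfl⟩
  rw [← hce] at T hc
  obtain ⟨c1, c2⟩ := T.cau h1 h3 hs hc
  have d1 := fun k => h3.dh_test _ _ (T.test k)
  have s1 := fun k => test_sub hs (d1 k)
  have w1 : WN fun k => K.dh (s - K.dh (τ k)) - (fun _ => 0) k := fun ψ _ => by
    simp only [dh_sub h3 hs (d1 _), hd, h3.dh_dh _ _ (T.test _), sub_zero, ip_zero_left]
    exact tendsto_const_nhds
  have w2 : WN fun k => K.S (s - K.dh (τ k)) - (c : ℂ) • τ k :=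
    wn_S h1 h3 s1 (fun k => test_smul K _ (T.test k)) fun ψ hψ =>
      (tendsto_conj (T.lim hψ)).congr fun k => by
        rw [map_sub, map_mul, Complex.conj_ofReal, ← ip_conj h1, ← ip_conj h1, ip_smul_left]
  have c3 : NC fun k => s - K.dh (τ k) := c2.congr fun q => by
    rw [← nq_neg, neg_sub]
    exact congrArg K.nq (sub_sub_sub_cancel_left _ _ _).symm
  have c4 : NC fun k => (c : ℂ) • τ k := by
    have := c1.const_mul (c ^ 2)
    rw [mul_zero] at this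
    exact this.congr fun q => by rw [← nq_smul, smul_sub]
  obtain ⟨k, ⟨y, k1, k2, k3, k4⟩, k5⟩ := ((H.reg1 h1 h3 s1 c3 (fun _ => zero_test) nc_zero w1
    (fun k => test_smul K _ (T.test k)) c4 w2 he).and A).exists
  have t1 := mf_test H.sm (s1 k)
  refine ⟨y, k1, ?_, ?_⟩
  · have e1 : y - s = y - mf χ (s - K.dh (τ k)) - mf χ (K.dh (τ k)) := by
      rw [mf_sub, f1]
      abel
    rw [e1]
    linarith [nq_sub_le h1 h3 (test_sub k1 t1) (mf_test H.sm (d1 k)), nq_mf h3 h1 H.sm H.le (d1 k)]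
  · have b1 := T.le k
    have b2 : K.nq (s - K.dh (τ k)) ≤ K.nq s := by
      linarith [mul_nonneg hc.le (nq_nn h1 h3 (T.test k))]
    have b3 : c ^ 2 * K.nq (τ k) ≤ c * K.nq s := by
      rw [sq, mul_assoc]
      exact mul_le_mul_of_nonneg_left (by linarith [nq_nn h1 h3 (s1 k)]) hc.le
    rw [nq_zero] at k3
    rw [nq_smul] at k4
    rw [← h3.bk r y k1]
    exact real_B he.le (Nat.cast_nonneg n) (nq_nn h1 h3 hs) b2 (b3.trans_eq (by rw [hce]))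
      (by linarith [nq_near h1 h3 k1 t1 k2, nq_mf h3 h1 H.sm H.le (s1 k)]) k3 k4

end Vale.Agent.P284Y.X56
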