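import Vale.Agent.P284.H419.K.Den

/-!
# P284Y, row X5: the approximate minimiser
-/

open scoped ContDiff Topology ComplexConjugate ComplexOrder ENNReal
open Filter Set MeasureTheory

set_option linter.unusedSectionVars false

noncomputable section

namespace Vale.Agent.P284Y.X56

open Vale.Agent.P272.K Vale.Agent.P284.H608.K Vale.Agent.P284.H419.K
open Vale.Agent.P284.H286.K (qf TS tc dT' sT ng sq_norm)

section abstract

variable {E F : Type} [AddCommGroup E] [Module ℂ E] [AddCommGroup F] [Module ℂ F]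

theorem quad_le {a b δ : ℝ} (ha : 0 ≤ a) (hδ : 0 ≤ δ)
    (h : ∀ s : ℝ, 0 ≤ δ - 2 * s * b + s ^ 2 * (b * a)) (hb : 0 ≤ b) : b ≤ δ * a := by
  have h1 := discrim_le_zero (a := b * a) (b := -(2 * b)) (c := δ) fun s => by
    have := h s
    nlinarith
  rw [discrim] at h1
  rcases hb.eq_or_lt with h2 | h2
  · rw [← h2]
    positivity
  · exact le_of_mul_le_mul_left (by nlinarith) h2

theorem qf_line (b : PreInnerProductSpace.Core ℂ F) (u w : F) (s : ℝ) :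
    qf b (u - ((s : ℂ) * conj (b.inner u w)) • w) =
      qf b u - 2 * s * ‖b.inner u w‖ ^ 2 + s ^ 2 * (‖b.inner u w‖ ^ 2 * qf b w) := by
  let _ := ng b
  let _ : InnerProductSpace ℂ F := InnerProductSpace.ofCore b
  have h1 : b.inner u w = inner ℂ u w := rfl
  rw [← sq_norm, ← sq_norm, ← sq_norm, h1]
  change ‖_‖ ^ 2 = ‖u‖ ^ 2 - _ + s ^ 2 * (_ * ‖w‖ ^ 2)
  rw [@norm_sub_sq ℂ, inner_smul_right, norm_smul, mul_pow, norm_mul, mul_pow, Complex.norm_real,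
    Real.norm_eq_abs, sq_abs, RCLike.norm_conj, mul_assoc, Complex.conj_mul', ← Complex.ofReal_pow,
    ← Complex.ofReal_mul]
  rw [show RCLike.re ((s * ‖inner ℂ u w‖ ^ 2 : ℝ) : ℂ) = s * ‖inner ℂ u w‖ ^ 2 from rfl]
  ring

theorem core_cs (b : PreInnerProductSpace.Core ℂ F) (u w : F) :
    ‖b.inner u w‖ ^ 2 ≤ qf b u * qf b w :=
  quad_le (b.re_inner_nonneg w) (b.re_inner_nonneg u) (fun s => by
    rw [← qf_line]
    exact b.re_inner_nonneg _) (sq_nonneg _)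

/-- an almost orthogonal projection -/
theorem approx (b : PreInnerProductSpace.Core ℂ F) (D : E →ₗ[ℂ] F) (v : F) {δ : ℝ} (hδ : 0 < δ) :
    ∃ τ, qf b (v - D τ) ≤ qf b v ∧ ∀ σ, ‖b.inner (v - D τ) (D σ)‖ ^ 2 ≤ δ * qf b (D σ) := by
  have hb : BddBelow (range fun τ => qf b (v - D τ)) :=
    ⟨0, by rintro _ ⟨τ, rfl⟩; exact b.re_inner_nonneg _⟩
  obtain ⟨τ₁, h1⟩ := exists_lt_of_ciInf_lt
    (lt_add_of_pos_right (⨅ τ, qf b (v - D τ)) hδ)
  obtain ⟨τ, h2, h3⟩ : ∃ τ, qf b (v - D τ) ≤ qf b v ∧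
      qf b (v - D τ) < (⨅ τ, qf b (v - D τ)) + δ := by
    rcases le_total (qf b (v - D τ₁)) (qf b v) with h | h
    · exact ⟨τ₁, h, h1⟩
    · exact ⟨0, by rw [map_zero, sub_zero], by rw [map_zero, sub_zero]; exact h.trans_lt h1⟩
  refine ⟨τ, h2, fun σ => quad_le (b.re_inner_nonneg _) hδ.le (fun s => ?_) (sq_nonneg _)⟩
  have h4 := ciInf_le hb (τ + ((s : ℂ) * conj (b.inner (v - D τ) (D σ))) • σ)
  rw [map_add, map_smul, ← sub_sub, qf_line] at h4
  linarith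

/-- the form of the functional -/
@[reducible] def pc (b1 : PreInnerProductSpace.Core ℂ E) (b2 : PreInnerProductSpace.Core ℂ F)
    {c : ℝ} (hc : 0 ≤ c) : PreInnerProductSpace.Core ℂ (F × E) where
  inner x y := b2.inner x.1 y.1 + c * b1.inner x.2 y.2
  conj_inner_symm x y := by
    rw [map_add, map_mul, Complex.conj_ofReal, b1.conj_inner_symm, b2.conj_inner_symm]
  re_inner_nonneg x := by
    change 0 ≤ (b2.inner x.1 x.1 + c * b1.inner x.2 x.2).re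
    rw [Complex.add_re, Complex.re_ofReal_mul]
    exact add_nonneg (b2.re_inner_nonneg _) (mul_nonneg hc (b1.re_inner_nonneg _))
  add_left x y z := by
    rw [Prod.fst_add, Prod.snd_add, b1.add_left, b2.add_left]
    ring
  smul_left x y r := by
    rw [Prod.smul_fst, Prod.smul_snd, b1.smul_left, b2.smul_left]
    ring

theorem approx2 (b1 : PreInnerProductSpace.Core ℂ E) (b2 : PreInnerProductSpace.Core ℂ F)
    (d : E →ₗ[ℂ] F) (s : F) {c δ : ℝ} (hc : 0 ≤ c) (hδ : 0 < δ) :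
    ∃ τ, qf b2 (s - d τ) + c * qf b1 τ ≤ qf b2 s ∧ ∀ σ,
      ‖b2.inner (s - d τ) (d σ) - c * b1.inner τ σ‖ ^ 2 ≤ δ * (qf b2 (d σ) + c * qf b1 σ) := by
  obtain ⟨τ, k1, k2⟩ := approx (pc b1 b2 hc) (d.prod LinearMap.id) (s, 0) hδ
  have e0 : ∀ x, b1.inner (0 - τ) x = -b1.inner τ x := fun x => by
    rw [zero_sub, ← neg_one_smul ℂ τ, b1.smul_left, map_neg, map_one, neg_one_mul]
  have e1 : b1.inner 0 0 = 0 := by
    have := b1.smul_left 0 0 0
    rwa [zero_smul, map_zero, zero_mul] at this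
  have e2 : b1.inner τ (0 - τ) = -b1.inner τ τ := by
    rw [← b1.conj_inner_symm, e0, map_neg, b1.conj_inner_symm]
  refine ⟨τ, ?_, fun σ => ?_⟩
  · change (b2.inner (s - d τ) (s - d τ) + c * b1.inner (0 - τ) (0 - τ)).re ≤
      (b2.inner s s + c * b1.inner 0 0).re at k1
    rw [e1, mul_zero, add_zero, e0, e2, neg_neg, Complex.add_re, Complex.re_ofReal_mul] at k1
    exact k1
  · have k3 := k2 σ
    change ‖b2.inner (s - d τ) (d σ) + c * b1.inner (0 - τ) σ‖ ^ 2 ≤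
      δ * (b2.inner (d σ) (d σ) + c * b1.inner σ σ).re at k3
    rw [e0, mul_neg, ← sub_eq_add_neg, Complex.add_re, Complex.re_ofReal_mul] at k3
    exact k3

end abstract

variable {n p : ℕ} {M : Type} [TopologicalSpace M] [T2Space M] [MeasurableSpace M] [BorelSpace M]
  {K : KA n M} (h1 : K1Stmt) (h3 : K3Stmt n M K)

include h1 h3

theorem ip_cs {a b : K.Fm p} (ha : K.Test a) (hb : K.Test b) :
    ‖K.ip a b‖ ^ 2 ≤ K.nq a * K.nq b :=
  (core_cs (tc h1 h3 p) ⟨b, hb⟩ ⟨a, ha⟩).trans_eq (mul_comm _ _)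

/-- the approximate minimiser of `|s - ∂τ|² + c |τ|²` -/
theorem exists_min {s : K.Fm (p + 1)} (hs : K.Test s) {c δ : ℝ} (hc : 0 ≤ c) (hδ : 0 < δ) :
    ∃ τ : K.Fm p, K.Test τ ∧ K.nq (s - K.dh τ) + c * K.nq τ ≤ K.nq s ∧ ∀ σ, K.Test σ →
      ‖K.ip (K.dh σ) (s - K.dh τ) - c * K.ip σ τ‖ ^ 2 ≤ δ * (K.nq (K.dh σ) + c * K.nq σ) := by
  obtain ⟨τ, k1, k2⟩ := approx2 (tc h1 h3 p) (tc h1 h3 (p + 1)) (dT' h3 p) ⟨s, hs⟩ hc hδ
  exact ⟨τ.1, τ.2, k1, fun σ hσ => k2 ⟨σ, hσ⟩⟩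

omit h1 in
theorem ip_sub_right {a b ψ : K.Fm p} (ha : K.Test a) (hb : K.Test b) (hψ : K.Test ψ) :
    K.ip ψ (a - b) = K.ip ψ a - K.ip ψ b := by
  have h5 := Vale.Agent.P284.H286.K.ip_add_right h3 hψ (test_sub ha hb) hb
  rw [sub_add_cancel] at h5
  rw [h5]
  ring

omit h3 in
theorem ip_self (a : K.Fm p) : K.ip a a = (K.nq a : ℂ) :=
  (Complex.conj_eq_iff_re.1 (Vale.Agent.P284.H286.K.ip_conj h1 a a).symm).symm

/-- a minimising sequence -/
structure MS (K : KA n M) (s : K.Fm (p + 1)) (c : ℝ) (τ : ℕ → K.Fm p) : Prop where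
  test : ∀ k, K.Test (τ k)
  le : ∀ k, K.nq (s - K.dh (τ k)) + c * K.nq (τ k) ≤ K.nq s
  el : ∀ k σ, K.Test σ → ‖K.ip (K.dh σ) (s - K.dh (τ k)) - c * K.ip σ (τ k)‖ ^ 2 ≤
    1 / ((k : ℝ) + 1) * (K.nq (K.dh σ) + c * K.nq σ)

theorem exists_ms {s : K.Fm (p + 1)} (hs : K.Test s) {c : ℝ} (hc : 0 ≤ c) :
    ∃ τ : ℕ → K.Fm p, MS K s c τ := by
  choose τ k1 k2 k3 using fun k : ℕ => exists_min h1 h3 hs hc
    (by positivity : (0 : ℝ) < 1 / ((k : ℝ) + 1))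
  exact ⟨τ, k1, k2, k3⟩

variable {s : K.Fm (p + 1)} {c : ℝ} {τ : ℕ → K.Fm p}

theorem MS.cau (H : MS K s c τ) (hs : K.Test s) (hc : 0 < c) :
    NC τ ∧ NC fun k => K.dh (τ k) := by
  have key : ∀ q : ℕ × ℕ, K.nq (K.dh (τ q.1) - K.dh (τ q.2)) + c * K.nq (τ q.1 - τ q.2) ≤
      2 * (1 / ((q.1 : ℝ) + 1)) + 2 * (1 / ((q.2 : ℝ) + 1)) := by
    rintro ⟨k, l⟩
    have t1 := test_sub (H.test k) (H.test l)
    have d1 := h3.dh_test _ _ (H.test k)
    have d2 := h3.dh_test _ _ (H.test l)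
    have e1 := dh_sub h3 (H.test k) (H.test l)
    have k1 := H.el k _ t1
    have k2 := H.el l _ t1
    rw [e1] at k1 k2
    set X := K.nq (K.dh (τ k) - K.dh (τ l)) + c * K.nq (τ k - τ l) with hX
    have X0 : 0 ≤ X := add_nonneg (nq_nn h1 h3 (test_sub d1 d2)) (mul_nonneg hc.le (nq_nn h1 h3 t1))
    have e2 : (X : ℂ) = (K.ip (K.dh (τ k) - K.dh (τ l)) (s - K.dh (τ l)) -
        c * K.ip (τ k - τ l) (τ l)) - (K.ip (K.dh (τ k) - K.dh (τ l)) (s - K.dh (τ k)) -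
        c * K.ip (τ k - τ l) (τ k)) := by
      rw [hX, Complex.ofReal_add, Complex.ofReal_mul, ← ip_self h1, ← ip_self h1,
        ip_sub_right h3 d1 d2 (test_sub d1 d2), ip_sub_right h3 (H.test k) (H.test l) t1,
        ip_sub_right h3 hs d1 (test_sub d1 d2), ip_sub_right h3 hs d2 (test_sub d1 d2)]
      ring
    have e3 := congrArg norm e2
    rw [Complex.norm_real, Real.norm_of_nonneg X0] at e3
    have e4 := e3.trans_le (norm_sub_le _ _)
    rcases X0.eq_or_lt with h | h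
    · change X ≤ _
      rw [← h]
      positivity
    · refine le_of_mul_le_mul_right ?_ h
      nlinarith [sq_nonneg (‖K.ip (K.dh (τ k) - K.dh (τ l)) (s - K.dh (τ l)) -
        c * K.ip (τ k - τ l) (τ l)‖ - ‖K.ip (K.dh (τ k) - K.dh (τ l)) (s - K.dh (τ k)) -
        c * K.ip (τ k - τ l) (τ k)‖), mul_self_le_mul_self X0 e4]
  have lim : Tendsto (fun q : ℕ × ℕ => 2 * (1 / ((q.1 : ℝ) + 1)) + 2 * (1 / ((q.2 : ℝ) + 1)))
      atTop (𝓝 0) := by
    have a := (tendsto_one_div_add_atTop_nhds_zero_nat (𝕜 := ℝ)).const_mul 2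
    have b := (a.comp (tendsto_fst (f := atTop) (g := (atTop : Filter ℕ)))).add
      (a.comp (tendsto_snd (f := (atTop : Filter ℕ)) (g := atTop)))
    rw [prod_atTop_atTop_eq, mul_zero, add_zero] at b
    exact b
  have n1 := fun q : ℕ × ℕ => nq_nn h1 h3 (test_sub (H.test q.1) (H.test q.2))
  have n2 := fun q : ℕ × ℕ => nq_nn h1 h3
    (test_sub (h3.dh_test _ _ (H.test q.1)) (h3.dh_test _ _ (H.test q.2)))
  refine ⟨?_, squeeze_zero n2 (fun q => ?_) lim⟩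
  · have := lim.const_mul c⁻¹
    rw [mul_zero] at this
    refine squeeze_zero n1 (fun q => ?_) this
    rw [le_inv_mul_iff₀ hc]
    linarith [key q, n2 q]
  · linarith [key q, mul_nonneg hc.le (n1 q)]

omit h1 h3 in
theorem MS.lim (H : MS K s c τ) {σ : K.Fm p} (hσ : K.Test σ) :
    Tendsto (fun k => K.ip (K.dh σ) (s - K.dh (τ k)) - c * K.ip σ (τ k)) atTop (𝓝 0) := by
  have a := (tendsto_one_div_add_atTop_nhds_zero_nat (𝕜 := ℝ)).mul_const
    (K.nq (K.dh σ) + c * K.nq σ)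
  rw [zero_mul] at a
  have b := (squeeze_zero (fun _ => sq_nonneg _) (fun k => H.el k σ hσ) a).sqrt
  simp only [Real.sqrt_sq (norm_nonneg _), Real.sqrt_zero] at b
  exact tendsto_zero_iff_norm_tendsto_zero.2 b

end Vale.Agent.P284Y.X56
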