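import Vale.Agent.P284Y.X56.Defs
import Vale.Agent.P284Z.L.S8b.Loc

/-!
# P284Y, row X6b: extension of a tensor from the small charts to the large charts
-/

open scoped ContDiff Topology ENNReal
open Filter Set Function Metric MeasureTheory

noncomputable section

namespace Vale.Agent.P284Y.X56.Lt

open Vale.Agent.P272.K Vale.Agent.P284.H608.K Vale.Agent.P284Z Vale.Agent.P284Z.L
  Vale.Agent.P284Y.X

variable {n p k : ℕ} {Γ E : Type} [Group Γ] [TopologicalSpace E] [MulAction Γ E] {C : Cov n Γ E}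
  {γ g h : Γ} {a b c : C.I} {z : Cm n}

theorem tr_comp (h1 : C.Ov g a b z) : C.tr h b c (C.tr g a b z) = C.tr (h * g) a c z := by
  rw [Cov.tr, C.pt_tr h1]
  rfl

theorem Ov_comp (h1 : C.Ov g a b z) (h2 : C.Ov h b c (C.tr g a b z)) : C.Ov (h * g) a c z :=
  ⟨h1.1, C.pt_tr h1 h ▸ h2.2⟩

theorem Ov_div (h1 : C.Ov g a b z) (h2 : C.Ov h a c z) : C.Ov (h * g⁻¹) b c (C.tr g a b z) :=
  ⟨C.tr_mem h1, by rw [C.pt_tr h1, inv_mul_cancel_right]; exact h2.2⟩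

theorem trv_comp (h1 : C.Ov g a b z) (h2 : C.Ov h b c (C.tr g a b z)) (ξ : Fin p → Cm n) :
    trv C h b c (C.tr g a b z) (trv C g a b z ξ) = trv C (h * g) a c z ξ := by
  have e : C.tr h b c ∘ C.tr g a b =ᶠ[𝓝 z] C.tr (h * g) a c :=
    (C.ev_Ov h1).mono fun _ hw => tr_comp hw
  funext i
  simp only [trv]
  rw [← e.fderiv_eq, fderiv_comp z (C.an_tr h2).differentiableAt (C.an_tr h1).differentiableAt]
  rfl

theorem trv_one (hz : z ∈ C.B 4 a) (v : Fin p → Cm n) : trv C 1 a a z v = v := by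
  have h : C.tr 1 a a =ᶠ[𝓝 z] id :=
    ((C.isOpen_B 4 a).eventually_mem hz).mono fun w hw => C.tr_self hw
  funext j
  simp [trv, h.fderiv_eq]

theorem trv_mat (M : Matrix (Fin p) (Fin p) ℂ) (ξ : Fin p → Cm n) :
    trv C g a b z (fun j => ∑ j', M j j' • ξ j') = fun j => ∑ j', M j j' • trv C g a b z ξ j' := by
  funext j
  simp [trv]

theorem exists_small (hz : z ∈ C.B 4 a) : ∃ g b, C.Ov g a b z ∧ C.tr g a b z ∈ C.B 1 b := by
  obtain ⟨g, b, w, hw, e⟩ := C.exists_pt (C.pt 1 a z)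
  obtain ⟨h1, h2⟩ := C.Ov_of_eq hz (C.B14 hw) e
  exact ⟨_, b, h1, h2 ▸ hw⟩

/-- a tensor in the small charts -/
structure T1 (C : Cov n Γ E) (p k : ℕ) where
  τ : Γ → C.I → Cm n → (Fin p → Cm n) → ℂ
  an : ∀ γ a, AnalyticOnNhd ℂ (fun q : Cm n × (Fin p → Cm n) => τ γ a q.1 q.2) (C.B 1 a ×ˢ univ)
  ch : ∀ γ g a b z, C.Ov g a b z → z ∈ C.B 1 a → C.tr g a b z ∈ C.B 1 b → ∀ ξ,
    τ (γ * g) a z ξ = τ γ b (C.tr g a b z) (trv C g a b z ξ)
  det : ∀ γ a, ∀ z ∈ C.B 1 a, ∀ (M : Matrix (Fin p) (Fin p) ℂ) (ξ : Fin p → Cm n),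
    τ γ a z (fun i => ∑ i', M i i' • ξ i') = M.det ^ k * τ γ a z ξ
  N : Γ → C.I → Cm n → ℝ≥0∞
  le_N : ∀ R : ℝ, ∃ c < (⊤ : ℝ≥0∞), ∀ γ a z (ξ : Fin p → Cm n), ‖ξ‖ ≤ R →
    ‖τ γ a z ξ‖ₑ ^ 2 ≤ c * N γ a z
  l2 : ∀ a, ∑' γ : Γ, ∫⁻ z in C.B 1 a, N γ a z < ⊤

namespace T1
variable (T : T1 C p k)

theorem exists_ext : ∃ τ : Γ → C.I → Cm n → (Fin p → Cm n) → ℂ, ∀ γ g a b z, C.Ov g a b z →
    C.tr g a b z ∈ C.B 1 b → ∀ ξ,
      τ γ a z ξ = T.τ (γ * g⁻¹) b (C.tr g a b z) (trv C g a b z ξ) := by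
  have key : ∀ a z, ∃ q : Γ × C.I, z ∈ C.B 4 a →
      C.Ov q.1 a q.2 z ∧ C.tr q.1 a q.2 z ∈ C.B 1 q.2 := fun a z => by
    by_cases hz : z ∈ C.B 4 a
    · obtain ⟨g, b, h⟩ := exists_small hz
      exact ⟨(g, b), fun _ => h⟩
    · exact ⟨(1, a), fun h => (hz h).elim⟩
  choose q hq using key
  refine ⟨fun γ a z ξ => T.τ (γ * (q a z).1⁻¹) (q a z).2 (C.tr (q a z).1 a (q a z).2 z)
    (trv C (q a z).1 a (q a z).2 z ξ), fun γ g a b z h1 h2 ξ => ?_⟩
  obtain ⟨h3, h4⟩ := hq a z h1.1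
  have h5 := Ov_div h3 h1
  have h6 := T.ch (γ * g⁻¹) _ _ _ _ h5 h4 (by rwa [tr_comp h3, inv_mul_cancel_right])
    (trv C (q a z).1 a (q a z).2 z ξ)
  rw [trv_comp h3 h5, tr_comp h3, inv_mul_cancel_right, ← mul_assoc, inv_mul_cancel_right] at h6
  exact h6

/-- change of variables near a point of an overlap -/
theorem cov_loc (h1 : C.Ov g a b z) (h2 : C.tr g a b z ∈ C.B 1 b) : ∃ V ∈ 𝓝 z,
    ∃ K < (⊤ : ℝ≥0∞), ∀ f : Cm n → ℝ≥0∞,
      ∫⁻ w in V, f (C.tr g a b w) ≤ K * ∫⁻ w in C.B 1 b, f w := by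
  have h3 := C.Ov_symm h1
  have hc : ContinuousAt (fun w => |(fderiv ℝ (C.tr g⁻¹ b a) w).det|) (C.tr g a b z) :=
    (ContinuousLinearMap.continuous_det.continuousAt.comp
      ((((C.an_tr h3).contDiffAt (n := 1)).restrict_scalars ℝ).continuousAt_fderiv
        one_ne_zero)).abs
  obtain ⟨r, hr, h4⟩ := Metric.eventually_nhds_iff_ball.1
    ((hc.eventually (gt_mem_nhds (lt_add_one _))).and
      ((C.ev_Ov h3).and ((C.isOpen_B 1 b).eventually_mem h2)))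
  have hi : InjOn (C.tr g⁻¹ b a) (ball (C.tr g a b z) r) := fun w hw w' hw' e => by
    rw [← C.tr_tr (h4 w hw).2.1, e, C.tr_tr (h4 w' hw').2.1]
  have hd : ∀ w ∈ ball (C.tr g a b z) r, HasFDerivWithinAt (C.tr g⁻¹ b a)
      (fderiv ℝ (C.tr g⁻¹ b a) w) (ball (C.tr g a b z) r) w := fun w hw =>
    ((C.an_tr (h4 w hw).2.1).differentiableAt.restrictScalars ℝ).hasFDerivAt.hasFDerivWithinAt
  refine ⟨C.tr g⁻¹ b a '' ball (C.tr g a b z) r, ?_,
    ENNReal.ofReal (|(fderiv ℝ (C.tr g⁻¹ b a) (C.tr g a b z)).det| + 1), ENNReal.ofReal_lt_top,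
    fun f => ?_⟩
  · have := image_mem_map (m := C.tr g⁻¹ b a) (ball_mem_nhds (C.tr g a b z) hr)
    rwa [C.map_tr h3, C.tr_tr h1] at this
  · rw [lintegral_image_eq_lintegral_abs_det_fderiv_mul volume measurableSet_ball hd hi,
      ← lintegral_const_mul' _ _ ENNReal.ofReal_ne_top]
    refine (setLIntegral_mono' measurableSet_ball fun w hw => ?_).trans
      (lintegral_mono_set fun w hw => (h4 w hw).2.2)
    have e := C.tr_tr (h4 w hw).2.1
    rw [inv_inv] at e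
    rw [e]
    exact mul_le_mul_left (ENNReal.ofReal_le_ofReal (h4 w hw).1.le) _

/-- **extension** -/
theorem ext : ∃ T' : Ten C p k, ∀ γ a, ∀ z ∈ C.B 1 a, ∀ ξ, T'.τ γ a z ξ = T.τ γ a z ξ := by
  obtain ⟨τ, hτ⟩ := T.exists_ext
  refine ⟨⟨τ, fun γ a q hq => ?_, fun γ g a b z h1 ξ => ?_, fun γ a z hz M ξ => ?_, fun a => ?_⟩,
    fun γ a z hz ξ => ?_⟩
  · obtain ⟨g, b, h1, h2⟩ := exists_small hq.1
    have h3 : AnalyticAt ℂ (fun x : Cm n × (Fin p → Cm n) =>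
        T.τ (γ * g⁻¹) b (C.tr g a b x.1) (trv C g a b x.1 x.2)) q :=
      AnalyticAt.comp (g := fun q : Cm n × (Fin p → Cm n) => T.τ (γ * g⁻¹) b q.1 q.2)
        (f := fun x : Cm n × (Fin p → Cm n) => (C.tr g a b x.1, trv C g a b x.1 x.2))
        (T.an (γ * g⁻¹) b _ (mk_mem_prod h2 (mem_univ _))) (S8b.an_frame (q := q) (C.an_tr h1))
    refine h3.congr ?_
    filter_upwards [continuous_fst.continuousAt.eventually ((C.ev_Ov h1).and
      ((C.an_tr h1).continuousAt.eventually ((C.isOpen_B 1 b).mem_nhds h2)))] with x hx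
    exact (hτ γ g a b x.1 hx.1 hx.2 x.2).symm
  · obtain ⟨h, c, h2, h3⟩ := exists_small (C.tr_mem h1)
    rw [hτ γ h b c _ h2 h3, hτ (γ * g) (h * g) a c z (Ov_comp h1 h2) (tr_comp h1 ▸ h3),
      ← trv_comp h1 h2, ← tr_comp h1, mul_inv_rev, ← mul_assoc, mul_inv_cancel_right]
    rfl
  · obtain ⟨g, b, h1, h2⟩ := exists_small hz
    rw [hτ γ g a b z h1 h2, hτ γ g a b z h1 h2, trv_mat, T.det _ _ _ h2]
  · refine lt_of_le_of_lt (ENNReal.tsum_le_tsum fun γ => lintegral_mono_set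
      (prod_mono (C.B_sub_cB 3 a) subset_rfl)) ?_
    refine (C.isCompact_cB 3 a).induction_on (p := fun V => ∑' γ : Γ,
      ∫⁻ q in V ×ˢ ball (0 : Fin p → Cm n) 1, ‖τ γ a q.1 q.2‖ₑ ^ 2 < ⊤) (by simp)
      (fun s t hst ht => (ENNReal.tsum_le_tsum fun γ =>
        lintegral_mono_set (prod_mono hst subset_rfl)).trans_lt ht) (fun s t hs ht => ?_)
      fun z hz => ?_
    · simp only [union_prod]
      refine (ENNReal.tsum_le_tsum fun γ => lintegral_union_le _ _ _).trans_lt ?_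
      rw [ENNReal.tsum_add]
      exact ENNReal.add_lt_top.2 ⟨hs, ht⟩
    · obtain ⟨g, b, h1, h2⟩ := exists_small (C.cB_sub_B (by norm_num : (3 : ℝ) < 4) a hz)
      obtain ⟨V, hV, K, hK, h3⟩ := cov_loc h1 h2
      have hc := (C.an_tr h1).fderiv.continuousAt.norm
      obtain ⟨c, hc', h4⟩ := T.le_N (‖fderiv ℂ (C.tr g a b) z‖ + 1)
      obtain ⟨r, hr, h5⟩ := Metric.eventually_nhds_iff_ball.1
        ((hc.eventually (gt_mem_nhds (lt_add_one _))).and ((C.ev_Ov h1).and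
          (((C.an_tr h1).continuousAt.eventually ((C.isOpen_B 1 b).mem_nhds h2)).and hV)))
      have hv : volume (ball (0 : Fin p → Cm n) 1) ≠ ⊤ := measure_ball_lt_top.ne
      refine ⟨ball z r, mem_nhdsWithin_of_mem_nhds (ball_mem_nhds z hr), lt_of_le_of_lt
        (ENNReal.tsum_le_tsum (g := fun γ => volume (ball (0 : Fin p → Cm n) 1) * c * K *
          ∫⁻ w in C.B 1 b, T.N (γ * g⁻¹) b w) fun γ => ?_) ?_⟩
      · rw [Measure.volume_eq_prod, ← Measure.prod_restrict]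
        refine (lintegral_prod_le _).trans ?_
        rw [mul_assoc]
        refine le_trans ?_ (mul_le_mul_right (h3 _) _)
        rw [← lintegral_const_mul' _ _ (ENNReal.mul_ne_top hv hc'.ne)]
        refine (setLIntegral_mono' measurableSet_ball fun w hw => ?_).trans
          (lintegral_mono_set fun w hw => (h5 w hw).2.2.2)
        rw [mul_assoc, mul_comm, ← setLIntegral_const]
        refine setLIntegral_mono' measurableSet_ball fun ξ hξ => ?_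
        rw [hτ γ g a b w (h5 w hw).2.1 (h5 w hw).2.2.1]
        refine h4 _ _ _ _ ((pi_norm_le_iff_of_nonneg (by positivity)).2 fun i => ?_)
        refine ((fderiv ℂ (C.tr g a b) w).le_opNorm _).trans ?_
        exact (mul_le_of_le_one_right (norm_nonneg _) ((norm_le_pi_norm ξ i).trans
          (mem_ball_zero_iff.1 hξ).le)).trans (h5 w hw).1.le
      · have e : ∑' γ : Γ, ∫⁻ w in C.B 1 b, T.N (γ * g⁻¹) b w = _ :=
          (Equiv.mulRight g⁻¹).tsum_eq fun γ => ∫⁻ w in C.B 1 b, T.N γ b w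
        rw [ENNReal.tsum_mul_left, e]
        exact ENNReal.mul_lt_top (ENNReal.mul_lt_top (ENNReal.mul_lt_top hv.lt_top hc') hK) (T.l2 b)
  · have hz4 := C.B14 hz
    change τ γ a z ξ = _
    rw [hτ γ 1 a a z (C.Ov_self hz4) ((C.tr_self hz4).symm ▸ hz), trv_one hz4, C.tr_self hz4,
      inv_one, mul_one]

end T1

end Vale.Agent.P284Y.X56.Lt
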