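import Vale.Agent.P284Y.X56.Spec
import Vale.Agent.P284Y.X56.Eng
import Vale.Agent.P284Y.X56.Lt1
import Vale.Agent.P284Z.L.S3.B
import Vale.Agent.P284Z.L.S1.Loc

/-!
# P284Y, row X6a: the line bundle over the open set `O`
-/

open scoped ContDiff Topology ComplexOrder ComplexConjugate ENNReal
open Filter Set Function Metric MeasureTheory

noncomputable section

namespace Vale.Agent.P284Y.X56

open Vale.Agent.P272.K Vale.Agent.P284.H608.K Vale.Agent.P284Z Vale.Agent.P284Z.J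
  Vale.Agent.P284Z.L Vale.Agent.P284Y.X Vale.Agent.P284Y.X4 Vale.Agent.P284Z.L.S3

variable {n p k j : ℕ} {Γ E : Type} [Group Γ] [TopologicalSpace E] [MulAction Γ E] {C : Cov n Γ E}
  {X : XL C p} {F : XF X} {Pf : Cm p → ℂ} {N e : ℝ} {γ g : Γ} {a b : C.I} {z : Cm n}
  {I J : Fin p → Fin n}

theorem an_th (ho : C.Ov g a b z) (hz : C.tr g a b z ∈ X.U b J) (v : Fin p → Cm n) :
    AnalyticAt ℂ (fun w => X.θ b J (C.tr g a b w) (trv C g a b w v)) z := by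
  simp only [fun w => P284.H619.K.map_expand (X.θ b J (C.tr g a b w)) (trv C g a b w v)]
  refine Finset.analyticAt_fun_sum _ fun σ _ => AnalyticAt.mul (Finset.analyticAt_fun_prod _
    fun l _ => analyticAt_pi_iff.1 (S8b.an_fd (C.an_tr ho) (v l)) _) ?_
  exact ((ContinuousAlternatingMap.apply ℂ (Cm n) ℂ (eb σ)).analyticAt _).comp
    ((X.θ_an b J _ hz).comp (C.an_tr ho))

theorem sg_ch (ho : C.Ov g a b z) (I : Fin p → Fin n) (hz' : C.tr g a b z ∈ X.U b J) :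
    sg X k (γ * g) a I z = X.θ b J (C.tr g a b z) (trv C g a b z (eb I)) ^ k •
      (sg X k γ b J (C.tr g a b z)).compContinuousLinearMap (fderiv ℂ (C.tr g a b) z) := by
  unfold sg
  rw [C.pt_tr ho]
  split_ifs with h
  · have h' : C.pt γ b (C.tr g a b z) ∈ X.T := (C.pt_tr ho γ).symm ▸ h
    have h1 := S1.dF_comp (b' := fun w => X.s (C.pt γ b w)) (C.an_tr ho).differentiableAt
      (X.sub.hol γ b _ (C.tr_mem ho) h').differentiableAt (JGx.pt_tr_ev ho γ X.s)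
    have h2 : ds C X.s (γ * g) a z (eb I) = ds C X.s γ b (C.tr g a b z) (trv C g a b z (eb I)) := by
      rw [ds, ds, ← dF_apply, ← dF_apply, h1]
      rfl
    rw [h2, (X.tube_U γ b J _ (X.U_sub b J hz') h' hz').2, h1, mul_pow, mul_comm, mul_smul]
    rfl
  · ext v
    exact (mul_zero _).symm

variable [MeasurableSpace E] (S : XS F k Pf j N e) (P : Pre C S.O)

/-- the framed charts -/
def ec (i : Γ × C.I × (Fin p → Fin n)) : OpenPartialHomeomorph S.O (Cm n) :=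
  ((ech C P.hO P.y₀ (i.1, i.2.1)).symm.restrOpen (X.U i.2.1 i.2.2) (X.U_opn _ _)).symm

variable {S P} in
theorem ec_tr {i l : Γ × C.I × (Fin p → Fin n)} {x : S.O} (hi : x ∈ (ec S P i).source)
    (hl : x ∈ (ec S P l).source) : C.Ov (l.1⁻¹ * i.1) i.2.1 l.2.1 (ec S P i x) ∧
      C.tr (l.1⁻¹ * i.1) i.2.1 l.2.1 (ec S P i x) = ec S P l x :=
  C.Ov_of_eq (C.co_mem hi.1) (C.co_mem hl.1) ((C.pt_co hi.1).trans (C.pt_co hl.1).symm)

variable {S} in
theorem mem_ec (hz : z ∈ X.U a I) (hO : C.pt γ a z ∈ S.O) :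
    (⟨_, hO⟩ : S.O) ∈ (ec S P (γ, a, I)).source ∧ ec S P (γ, a, I) ⟨_, hO⟩ = z := by
  have h4 := C.B_mono (by norm_num : (2 : ℝ) ≤ 4) a (X.U_sub a I hz)
  exact ⟨⟨C.pt_mem h4 γ, show C.co γ a _ ∈ X.U a I from (C.co_pt h4 γ).symm ▸ hz⟩, C.co_pt h4 γ⟩

/-- the `k`-th power of the line bundle -/
def KL [BorelSpace E] : KA n S.O where
  I := Γ × C.I × (Fin p → Fin n)
  e := ec S P
  w i := P.w i.1 i.2.1
  φ i := S.ψ i.1 i.2.1 i.2.2
  a i l z := X.θ l.2.1 l.2.2 (C.tr (l.1⁻¹ * i.1) i.2.1 l.2.1 z)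
    (trv C (l.1⁻¹ * i.1) i.2.1 l.2.1 z (eb i.2.2)) ^ k
  μ := P.μ
  cover x := by
    obtain ⟨γ, a, z, hz, h⟩ := C.exists_pt x.1
    have hO : C.pt γ a z ∈ S.O := h ▸ x.2
    obtain ⟨I, hI⟩ := S.cover γ a z (C.B_sub_cB _ a (C.B_mono (by norm_num) a hz)) hO
    exact ⟨(γ, a, I), (Subtype.ext h.symm : (⟨_, hO⟩ : S.O) = x) ▸ (mem_ec P hI hO).1⟩
  wsm i z hz := (P.cf.2 i.1 i.2.1).sm z hz.1
  wpos i z hz := P.pos _ _ z hz.1.1 hz.1.2
  wcl i z hz a b c := (P.cf.2 i.1 i.2.1).cl z hz.1 c a b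
  φsm i z hz := S.ψ_sm _ _ _ z hz.2 hz.1.2
  hol i l z hz h := (C.an_tr (ov (hO := P.hO) (j := (l.1, l.2.1)) hz.1 h.1)).congr
    (tr_ev (hO := P.hO) hz.1 (l.1, l.2.1)).symm
  wch i l x hi hl := fm_ch (hO := P.hO) (P.cf.1 x x.2) hi.1 hl.1
  ahol i l z hz h := by
    have h1 := ec_tr ((ec S P i).map_target hz) h
    rw [(ec S P i).right_inv hz] at h1
    exact (an_th h1.1 (h1.2 ▸ h.2) _).pow k
  coc i l m x hi hl hm := by
    obtain ⟨h1, h2⟩ := ec_tr hi hl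
    obtain ⟨h3, h4⟩ := ec_tr hl hm
    have h5 := (X.θ_ch _ _ _ l.2.2 m.2.2 _ h3 hl.2 (h4 ▸ hm.2)).2
      (trv C (l.1⁻¹ * i.1) i.2.1 l.2.1 (ec S P i x) (eb i.2.2))
    rw [← h2] at h3
    rw [← mul_pow, (ec_tr hi hm).2, h2, mul_comm, ← h5, h4, ← h2, Lt.trv_comp h1 h3, mul_assoc,
      mul_inv_cancel_left]
  aself i x hi := by
    have h : ec S P i x ∈ C.B 4 i.2.1 := C.co_mem hi.1
    rw [inv_mul_cancel, C.tr_self h, Lt.trv_one h, X.θ_one _ _ (ec S P i x) hi.2, one_pow]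
  φch i l x hi hl := by
    obtain ⟨h1, h2⟩ := ec_tr hi hl
    have h3 := S.ψ_ch l.1 _ _ _ i.2.2 l.2.2 _ h1 hi.2 (h2 ▸ hl.2)
    have h4 := norm_pos_iff.2 (X.θ_ch _ _ _ i.2.2 l.2.2 _ h1 hi.2 (h2 ▸ hl.2)).1
    rw [mul_inv_cancel_left] at h3
    rw [h3, norm_pow, neg_add, Real.exp_add, Real.exp_neg (_ * _), Real.exp_nat_mul,
      Real.exp_log (by positivity), h2, ← pow_mul, ← pow_mul, mul_comm k, mul_assoc,
      inv_mul_cancel₀ (by rw [← h2]; positivity), mul_one]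
  hμ i f hf h0 := by
    rw [P.hμ (i.1, i.2.1) f hf fun x hx => h0 x fun h => hx h.1,
      ← lintegral_indicator (OpenPartialHomeomorph.open_target _).measurableSet,
      ← lintegral_indicator (OpenPartialHomeomorph.open_target _).measurableSet]
    refine lintegral_congr fun z => ?_
    by_cases h : z ∈ (ec S P i).target
    · rw [indicator_of_mem h]
      exact indicator_of_mem h.1 _
    · rw [indicator_of_notMem h, indicator_apply_eq_zero.2 fun hz => ?_]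
      rw [h0 _ fun h1 => h ⟨hz, ?_⟩, zero_mul]
      exact (ech C P.hO P.y₀ (i.1, i.2.1)).right_inv hz ▸ h1.2

variable [BorelSpace E]

open Classical in
/-- the section `ds ⊗ ds^k` -/
def sK : (KL S P).Fm p := fun i z => if z ∈ (ec S P i).target then sg X k i.1 i.2.1 i.2.2 z else 0

/-- the model -/
def s0 : (KL S P).Fm p := fun i z => S.gb (X.s (C.pt i.1 i.2.1 z)) • sK S P i z

variable {S P} in
theorem sK_in {i : (KL S P).I} (hz : z ∈ ((KL S P).e i).target) :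
    sK S P i z = sg X k i.1 i.2.1 i.2.2 z := if_pos hz

variable {S P} in
theorem fd_ec {i : (KL S P).I} (hz : z ∈ ((KL S P).e i).target) (l : (KL S P).I) :
    fderiv ℂ (fun z => (KL S P).e l (((KL S P).e i).symm z)) z =
      fderiv ℂ (C.tr (l.1⁻¹ * i.1) i.2.1 l.2.1) z :=
  (tr_ev (hO := P.hO) hz.1 (l.1, l.2.1)).fderiv_eq

theorem sK_form : (KL S P).IsForm (sK S P) where
  off _ _ hz := if_neg hz
  change i l x hi hl := by
    obtain ⟨h1, h2⟩ := ec_tr hi hl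
    have h3 := sg_ch (X := X) (k := k) (γ := l.1) (J := l.2.2) h1 i.2.2 (h2 ▸ hl.2)
    rw [mul_inv_cancel_left] at h3
    rw [sK_in (((KL S P).e i).map_source hi), sK_in (((KL S P).e l).map_source hl),
      fd_ec (((KL S P).e i).map_source hi)]
    exact h3.trans (congrArg (fun u => _ • (sg X k l.1 l.2.1 l.2.2 u).compContinuousLinearMap _) h2)

variable {O : Set E} (Q : Pre C O) [Countable Γ]

theorem up_le (f : E → ℝ≥0∞) : ∫⁻ x : O, f x ∂Q.μ ≤ ∑' γ, ∑ a,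
    ∫⁻ z in {z ∈ C.B 1 a | C.pt γ a z ∈ O}, f (C.pt γ a z) * ENNReal.ofReal (Q.w γ a z).det.re := by
  obtain ⟨g, h1, h2, h3⟩ := exists_measurable_le_lintegral_eq (μ := Q.μ) fun x : O => f x
  have h4 : ∀ x : O, extend Subtype.val g 0 x.1 = g x := Subtype.val_injective.extend_apply g 0
  rw [h3, ← setLIntegral_univ]
  refine (lintegral_mono_set (t := ⋃ γ, ⋃ a, Pre.pc (C := C) O 1 γ a) fun y _ => ?_).trans
    ((lintegral_iUnion_le _ _).trans (ENNReal.tsum_le_tsum fun γ =>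
      (lintegral_iUnion_le _ _).trans ?_))
  · obtain ⟨γ, a, z, hz, h⟩ := C.exists_pt y.1
    exact mem_iUnion.2 ⟨γ, mem_iUnion.2 ⟨a, y.2, z, hz, h.symm⟩⟩
  rw [tsum_fintype]
  refine Finset.sum_le_sum fun a _ => ?_
  have h5 := Q.lint Q.hO subset_rfl (by norm_num : (1 : ℝ) ≤ 4) γ a (f := extend Subtype.val g 0)
    (by simpa only [h4] using h1)
  simp only [h4] at h5
  refine h5.trans_le (setLIntegral_mono' (((C.continuousOn_pt γ a).mono fun _ => C.B14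
    ).isOpen_inter_preimage (C.isOpen_B 1 a) Q.hO).measurableSet fun z hz => ?_)
  exact mul_le_mul_left ((h4 ⟨_, hz.2⟩).trans_le (h2 ⟨_, hz.2⟩)) _

theorem low_le {f : E → ℝ≥0∞} (hf : Measurable fun y : O => f y) (a : C.I) :
    ∑' γ, ∫⁻ z in {z ∈ C.B 1 a | C.pt γ a z ∈ O},
      f (C.pt γ a z) * ENNReal.ofReal (Q.w γ a z).det.re ≤ ∫⁻ y : O, f y ∂Q.μ := by
  simp only [fun γ => (Q.lint Q.hO subset_rfl (by norm_num : (1 : ℝ) ≤ 4) γ a hf).symm]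
  rw [← lintegral_iUnion fun γ => Pre.pc_meas Q.hO (by norm_num) γ a]
  · exact setLIntegral_le_lintegral _ _
  · refine fun γ γ' h => disjoint_left.2 ?_
    rintro y ⟨-, z, k1, k2⟩ ⟨-, z', k3, k4⟩
    have k5 := C.Ov_of_eq (C.B14 k1) (C.B14 k3) (k2.trans k4.symm)
    exact h (inv_mul_eq_one.1 (C.disj _ a _ ((C.e a).map_target (C.mem_tgt.2 k5.1.1)) k5.1.2)).symm

/-- **A1**: the model is a closed test form; the cut-off function -/
def StA1 : Prop := ∀ (n p k : ℕ) (Γ E : Type) [Group Γ] [TopologicalSpace E] [T2Space E]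
  [MulAction Γ E] [MeasurableSpace E] [BorelSpace E] (C : Cov n Γ E) (X : XL C p) (F : XF X)
  (Pf : Cm p → ℂ) (j : ℕ) (N e : ℝ) (S : XS F k Pf j N e) (P : Pre C S.O),
  P.w = C.om F.A S.κ → 0 ≤ e → (KL S P).Test (s0 S P) ∧ (KL S P).dh (s0 S P) = 0 ∧
    (KL S P).Off {x | S.χ x = 1} (s0 S P) ∧ CO (KL S P) (fun x => S.χ x) e

/-- **A2**: the estimates of the model -/
def StA2 : Prop := AlgSt → PfT → StA1 → ∀ (n r k : ℕ) (Γ E : Type) [Group Γ] [Countable Γ]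
  [TopologicalSpace E] [T2Space E] [MulAction Γ E] [MeasurableSpace E] [BorelSpace E]
  (C : Cov n Γ E) (X : XL C (r + 1)) (F : XF X) (Pf : Cm (r + 1) → ℂ), ∃ C₀ : ℝ, 0 ≤ C₀ ∧
  ∀ (j : ℕ) (N e : ℝ), 0 ≤ N → 0 ≤ e → ∀ (S : XS F k Pf j N e) (P : Pre C S.O),
    P.w = C.om F.A S.κ → K3Stmt n S.O (KL S P) → (KL S P).nq (s0 S P) ≤ C₀ * N ∧
    ∀ τ : (KL S P).Fm r, (KL S P).Test τ → ‖(KL S P).ip τ ((KL S P).S (s0 S P))‖ ^ 2 ≤
      C₀ * ((∫ x, (KL S P).dA τ x ∂(KL S P).μ) + e * n * (KL S P).nq τ)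

end Vale.Agent.P284Y.X56
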