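import Vale.Agent.P284Y.X56.Lt2

/-!
# P284Y, row X6b: the limit tensor
-/

open scoped ContDiff Topology ENNReal
open Filter Set Function Metric MeasureTheory

noncomputable section

namespace Vale.Agent.P284Y.X56.Lt

open Vale.Agent.P272.K Vale.Agent.P284.H608.K Vale.Agent.P284Z Vale.Agent.P284Z.L
  Vale.Agent.P284Y.X Vale.Agent.P284.H619.K

variable {n p k : ℕ} {Γ E : Type} [Group Γ] [TopologicalSpace E] [MulAction Γ E] {C : Cov n Γ E}
  {X : XL C p} {Pf : Cm p → ℂ}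

theorem sm_ev (S : SY X k Pf) (i : ℕ) (γ : Γ) (a : C.I) (T : Fin k → Fin p → Fin n)
    (σ : Fin p → Fin n) : ∀ z ∈ C.B 1 a, ContDiffAt ℝ ∞ (fun w => ev (S.Y i γ a w T) σ) z :=
  fun z hz => ((ContinuousAlternatingMap.apply ℂ (Cm n) ℂ (eb σ)).restrictScalars
    ℝ).contDiff.contDiffAt.comp z (S.sm i γ a T z hz)

theorem exists_ten [Countable Γ] (hL : LimSt) (S : SY X k Pf) :
    ∃ (T : Ten C p (k + 1)) (u : ℕ → ℕ), Tendsto u atTop atTop ∧ ∀ᵐ z, z ∈ C.B 1 X.a₀ →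
      (∀ ξ, Tendsto (fun m => tau (S.Y (u m) 1 X.a₀ z) ξ) atTop (𝓝 (T.τ 1 X.a₀ z ξ))) ∧
        ∀ T' σ, ∃ c, Tendsto (fun m => ev (S.Y (u m) 1 X.a₀ z T') σ) atTop (𝓝 c) := by
  obtain ⟨B, hB, hl⟩ := S.l2
  obtain ⟨u, hu, F, F1, F2⟩ := hL n (Γ × C.I × (Fin k → Fin p → Fin n) × (Fin p → Fin n))
    (fun x => C.B 1 x.2.1) (fun x i z => ev (S.Y i x.1 x.2.1 z x.2.2.1) x.2.2.2)
    (fun x => C.isOpen_B 1 _) (fun x i => sm_ev S i _ _ _ _)
    (fun x => ⟨B, hB, fun i => (ENNReal.le_tsum x.1).trans (hl i _ _ _)⟩)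
    fun x c => S.db _ _ _ _ c
  have G : ∀ a, ∀ᵐ z, z ∈ C.B 1 a → ∀ γ (x : (Fin k → Fin p → Fin n) × (Fin p → Fin n)),
      Tendsto (fun m => ev (S.Y (u m) γ a z x.1) x.2) atTop (𝓝 (F (γ, a, x) z)) := fun a =>
    (ae_all_iff.2 fun q : Γ × (Fin k → Fin p → Fin n) × (Fin p → Fin n) =>
      F2 (q.1, a, q.2)).mono fun z hz h γ x => hz (γ, x) h
  set τ : Γ → C.I → Cm n → (Fin p → Cm n) → ℂ := fun γ a z ξ => ∑ x, cf x ξ * F (γ, a, x) z
    with hτ
  have G' : ∀ a, ∀ᵐ z, z ∈ C.B 1 a → ∀ γ ξ,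
      Tendsto (fun m => tau (S.Y (u m) γ a z) ξ) atTop (𝓝 (τ γ a z ξ)) := fun a =>
    (G a).mono fun z hz h γ ξ => by
      simp only [tau_expand]
      exact tendsto_finsetSum _ fun x _ => (hz h γ x).const_mul _
  have an : ∀ γ a, AnalyticOnNhd ℂ (fun q : Cm n × (Fin p → Cm n) => τ γ a q.1 q.2)
      (C.B 1 a ×ˢ univ) := fun γ a q hq => Finset.analyticAt_fun_sum _ fun x _ =>
    ((an_cf x _).comp analyticAt_snd).mul ((F1 (γ, a, x) _ hq.1).comp analyticAt_fst)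
  have hc : ∀ γ a, ∀ z ∈ C.B 1 a, ∀ ξ, ContinuousAt (fun w => τ γ a w ξ) z := fun γ a z hz ξ =>
    (Finset.analyticAt_fun_sum _ fun x _ =>
      analyticAt_const.mul (F1 (γ, a, x) _ hz)).continuousAt
  obtain ⟨T, hT⟩ := T1.ext (C := C) (p := p) (k := k + 1) ⟨τ, an, fun γ g a b z h1 h2 h3 ξ => by
      refine tendsto_nhds_unique_of_frequently_eq (f := fun w => τ (γ * g) a w ξ)
        (g := fun w => τ γ b (C.tr g a b w) (trv C g a b w ξ)) (hc _ _ _ h2 _) ?_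
        (freq_ae (U := {w | C.Ov g a b w ∧ w ∈ C.B 1 a ∧ C.tr g a b w ∈ C.B 1 b})
          ((C.ev_Ov h1).and (((C.isOpen_B 1 a).eventually_mem h2).and
            ((C.an_tr h1).continuousAt.eventually ((C.isOpen_B 1 b).mem_nhds h3)))) ?_)
      · exact ContinuousAt.comp (g := fun q : Cm n × (Fin p → Cm n) => τ γ b q.1 q.2)
          (f := fun w => (C.tr g a b w, trv C g a b w ξ))
          (an γ b _ (mk_mem_prod h3 (mem_univ _))).continuousAt ((C.an_tr h1).continuousAt.prodMk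
            (continuousAt_pi.2 fun i => (S8b.an_fd (C.an_tr h1) _).continuousAt))
      · filter_upwards [G' a, C.ae_tr g a b ((G' b).mono fun w hw _ => hw)] with w w1 w2 hw
        exact tendsto_nhds_unique (w1 hw.2.1 _ ξ) ((w2 hw.1 hw.2.2 γ _).congr fun m =>
          (S.ch _ γ g a b w hw.1 hw.2.1 hw.2.2 ξ).symm),
    fun γ a z hz M ξ => by
      refine tendsto_nhds_unique_of_frequently_eq
        (f := fun w => τ γ a w fun i => ∑ i', M i i' • ξ i')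
        (g := fun w => M.det ^ (k + 1) * τ γ a w ξ) (hc _ _ _ hz _)
        (continuousAt_const.mul (hc _ _ _ hz _)) (freq_ae ((C.isOpen_B 1 a).mem_nhds hz) ?_)
      filter_upwards [G' a] with w w1 hw
      exact tendsto_nhds_unique (w1 hw γ _) (((w1 hw γ ξ).const_mul _).congr fun m =>
        (S.det _ γ a w hw M ξ).symm),
    fun γ a z => ∑ x, ‖F (γ, a, x) z‖ₑ ^ 2,
    fun R => (cf_le R).imp fun c h => ⟨h.1, fun γ a z ξ hξ => h.2 _ ξ hξ⟩, fun a => by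
      have hm := (C.isOpen_B 1 a).measurableSet
      have e : ∀ γ, ∫⁻ z in C.B 1 a, ∑ x, ‖F (γ, a, x) z‖ₑ ^ 2 =
          ∑ x, ∫⁻ z in C.B 1 a, ‖F (γ, a, x) z‖ₑ ^ 2 := fun γ => lintegral_finsetSum' _ fun x _ =>
        ((F1 (γ, a, x)).continuousOn.aemeasurable hm).enorm.pow_const 2
      simp only [e]
      rw [Summable.tsum_finsetSum fun _ _ => ENNReal.summable]
      refine ENNReal.sum_lt_top.2 fun x _ => lt_of_le_of_lt ?_ hB
      refine le_trans (ENNReal.tsum_le_tsum fun γ => ?_) ((S8a.tsum_liminf fun m γ =>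
        ∫⁻ z in C.B 1 a, ‖ev (S.Y (u m) γ a z x.1) x.2‖ₑ ^ 2).trans
          (liminf_le_of_frequently_le' (Frequently.of_forall fun m => hl _ _ _ _)))
      refine le_trans (lintegral_mono_ae ?_) (lintegral_liminf_le' fun m =>
        (ContinuousOn.aemeasurable (fun z hz => (sm_ev S _ γ a x.1 x.2 z
          hz).continuousAt.continuousWithinAt) hm).enorm.pow_const 2)
      filter_upwards [(ae_restrict_iff' hm).2 (G a)] with z hz
      exact (((ENNReal.continuous_pow 2).tendsto _).comp (hz γ x).enorm).liminf_eq.ge⟩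
  refine ⟨T, u, hu, ?_⟩
  filter_upwards [G X.a₀, G' X.a₀] with z z1 z2 hz
  exact ⟨fun ξ => (hT 1 _ z hz ξ).symm ▸ z2 hz 1 ξ, fun T' σ => ⟨_, z1 hz 1 (T', σ)⟩⟩

end Vale.Agent.P284Y.X56.Lt
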