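import Vale.Agent.P284Y.X56.Defs
import Vale.Agent.P284Y.X4.Defs

/-!
# P284Y, row X6a: the output of the engine in the charts, and the statements of the pieces
-/

open scoped ContDiff Topology ComplexOrder ComplexConjugate ENNReal
open Filter Set Function Metric MeasureTheory

noncomputable section

namespace Vale.Agent.P284Y.X56

open Vale.Agent.P272.K Vale.Agent.P284.H608.K Vale.Agent.P284Z Vale.Agent.P284Z.J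
  Vale.Agent.P284Z.L Vale.Agent.P284Y.X Vale.Agent.P284Y.X4

variable {n p k j : ℕ} {Γ E : Type} [Group Γ] [TopologicalSpace E] [MulAction Γ E] {C : Cov n Γ E}
  {X : XL C p} {F : XF X} {Pf : Cm p → ℂ} {N e : ℝ}

open Classical in
/-- the section `ds ⊗ ds^k` over the tube, in the frame `θ a I` -/
def sg (X : XL C p) (k : ℕ) (γ : Γ) (a : C.I) (I : Fin p → Fin n) (z : Cm n) : Af n p :=
  if C.pt γ a z ∈ X.T then ds C X.s γ a z (eb I) ^ k • dF (fun w => X.s (C.pt γ a w)) z else 0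

/-- The output of the engine at one stage: the components `y γ a I` of the solution, the tensor `Y`, and
the densities `f₀`, `f₁`. -/
structure EO (S : XS F k Pf j N e) (K₀ K₁ : ℝ≥0∞) where
  y : Γ → C.I → (Fin p → Fin n) → Cm n → Af n p
  sm : ∀ γ a I, ∀ z ∈ X.U a I, C.pt γ a z ∈ S.O → ContDiffAt ℝ ∞ (y γ a I) z
  ch : ∀ γ g a b I J z, C.Ov g a b z → z ∈ X.U a I → C.tr g a b z ∈ X.U b J →
    C.pt (γ * g) a z ∈ S.O → ∀ ξ, y (γ * g) a I z ξ =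
      X.θ b J (C.tr g a b z) (trv C g a b z (eb I)) ^ k * y γ b J (C.tr g a b z) (trv C g a b z ξ)
  supp : ∃ L, IsCompact L ∧ L ⊆ S.O ∧ ∀ γ a I, ∀ z ∈ X.U a I, C.pt γ a z ∉ L → y γ a I z = 0
  Y : Γ → C.I → Cm n → (Fin k → Fin p → Fin n) → Af n p
  Y_eq : ∀ γ a I, ∀ z ∈ X.U a I, C.pt γ a z ∈ S.O → ∀ T,
    Y γ a z T = (∏ l, X.θ a I z (eb (T l))) • y γ a I z
  Y_off : ∀ γ a z, C.pt γ a z ∉ S.O → ∀ T, Y γ a z T = 0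
  f₀ : Γ → C.I → Cm n → ℝ≥0∞
  f₁ : Γ → C.I → Cm n → ℝ≥0∞
  meas₀ : ∀ γ a, AEMeasurable (f₀ γ a) (volume.restrict (C.B 1 a))
  meas₁ : ∀ γ a, AEMeasurable (f₁ γ a) (volume.restrict (C.B 1 a))
  int₀ : ∀ a, ∑' γ, ∫⁻ z in C.B 1 a, f₀ γ a z ≤ K₀
  int₁ : ∀ a, ∑' γ, ∫⁻ z in C.B 1 a, f₁ γ a z ≤ K₁
  p₀ : ∀ γ a I, ∀ z ∈ C.B 1 a, z ∈ X.U a I → C.pt γ a z ∈ S.O → ∀ ξ : Fin p → Cm n, ‖ξ‖ ≤ 1 →
    ENNReal.ofReal (Real.exp (-S.ψ γ a I z) *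
      ‖y γ a I z ξ - S.gb (X.s (C.pt γ a z)) * sg X k γ a I z ξ‖ ^ 2) ≤ f₀ γ a z
  p₁ : ∀ γ a I, ∀ z ∈ C.B 1 a, z ∈ X.U a I → C.pt γ a z ∈ S.O → ∀ c σ,
    ENNReal.ofReal (Real.exp (-S.ψ γ a I z) * ‖dzb c (fun w => ev (y γ a I w) σ) z‖ ^ 2) ≤
      ENNReal.ofReal (C.om F.A S.κ γ a z c c).re * f₁ γ a z
  p₂ : ∀ γ a I, ∀ z ∈ C.B 1 a, z ∈ X.U a I → C.pt γ a z ∈ S.O → C.pt γ a z ∈ X.T →
    X.s (C.pt γ a z) ∈ F.G → X.s (C.pt γ a z) ∈ ball X.t₀ F.R₂ →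
    ∀ c (v : Fin (p + 1) → Cm n), ‖v‖ ≤ 1 → ENNReal.ofReal (Real.exp (-S.ψ γ a I z) *
      ‖P284.H619.K.wd (P284.H619.K.tL (fderiv ℂ (fun w => X.s (C.pt γ a w)) z) c) (y γ a I z) v‖ ^ 2)
        ≤ f₁ γ a z

/-- the sequence of the stages -/
structure SS (F : XF X) (k : ℕ) (Pf : Cm p → ℂ) where
  u : ℕ → ℕ
  u_tend : Tendsto u atTop atTop
  N : ℕ → ℝ
  e : ℕ → ℝ
  S : ∀ i, XS F k Pf (u i) (N i) (e i)
  K₀ : ℝ≥0∞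
  K₀_lt : K₀ < ⊤
  K₁ : ℕ → ℝ≥0∞
  K₁_tend : Tendsto K₁ atTop (𝓝 0)
  Q : ∀ i, EO (S i) K₀ (K₁ i)

/-- **ALG1**: the density of `|db|² dV` only depends on the metric along the fibres -/
def AlgSt : Prop := ∀ (n p : ℕ) (h : Mx n) (H : Mx p) (b : Cm n → Cm p) (z : Cm n), h.PosDef →
  (h + pb (jm b z) H).PosDef →
  (hn (h + pb (jm b z) H) (dF b z) (dF b z)).re * (h + pb (jm b z) H).det.re =
    (hn h (dF b z) (dF b z)).re * h.det.re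

/-- **ALG2**: one component of `∂̄ y` -/
def Alg2St : Prop := ∀ (n p : ℕ) (w : Mx n), w.PosDef → ∀ (T : Fin n → Af n p) (c : Fin n),
  (hn w (T c) (T c)).re ≤ (w c c).re * (Tn w T).re

/-- **TR**: the mass of the Hessian -/
def TrSt : Prop := ∀ (n : ℕ) (c : Cm n) (r r' : ℝ), r < r' → ∃ K < (⊤ : ℝ≥0∞), ∀ u : Cm n → ℝ,
  (∀ z ∈ ball c r', ContDiffAt ℝ ∞ u z ∧ (cHess u z).PosSemidef) → ∀ l,
  ∫⁻ z in ball c r, ENNReal.ofReal (cHess u z l l).re ≤ K * ∫⁻ z in ball c r', ‖u z‖ₑ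

/-- **PFT**: integrals over the tube -/
def PfT : Prop := ∀ (n p : ℕ) (Γ E : Type) [Group Γ] [Countable Γ] [TopologicalSpace E] [T2Space E]
  [MulAction Γ E] (C : Cov n Γ E) (X : XL C p), ∀ R₂ < X.R, ∀ H : Γ → C.I → Cm n → ℝ,
  (∀ γ a, ∀ z ∈ C.B 4 a, C.pt γ a z ∈ X.T → ContinuousAt (H γ a) z) →
  ∃ V < (⊤ : ℝ≥0∞), ∀ g : Cm p → ℝ≥0∞, Measurable g →
    ∑' γ, ∑ a, ∫⁻ z in {z ∈ C.B 1 a | C.pt γ a z ∈ X.T ∧ X.s (C.pt γ a z) ∈ ball X.t₀ R₂},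
      g (X.s (C.pt γ a z)) * ENNReal.ofReal (H γ a z) ≤ V * ∫⁻ t in ball X.t₀ R₂, g t

/-- **B1**: the tensor `Y` -/
def StB1 : Prop := ∀ (n p k : ℕ) (Γ E : Type) [Group Γ] [TopologicalSpace E] [T2Space E]
  [MulAction Γ E] (C : Cov n Γ E) (X : XL C p) (F : XF X) (Pf : Cm p → ℂ) (j : ℕ) (N e : ℝ)
  (S : XS F k Pf j N e) (K₀ K₁ : ℝ≥0∞) (Q : EO S K₀ K₁),
  (∀ γ a T, ∀ z ∈ C.B 1 a, ContDiffAt ℝ ∞ (fun w => Q.Y γ a w T) z) ∧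
  (∀ γ g a b z, C.Ov g a b z → z ∈ C.B 1 a → C.tr g a b z ∈ C.B 1 b → ∀ ξ,
    tau (Q.Y (γ * g) a z) ξ = tau (Q.Y γ b (C.tr g a b z)) (trv C g a b z ξ)) ∧
  ∀ γ a, ∀ z ∈ C.B 1 a, ∀ (M : Matrix (Fin p) (Fin p) ℂ) (ξ : Fin p → Cm n),
    tau (Q.Y γ a z) (fun j => ∑ j', M j j' • ξ j') = M.det ^ (k + 1) * tau (Q.Y γ a z) ξ

/-- **B2**: the bound in `L²` -/
def StB2 : Prop := PfT → ∀ (n p k : ℕ) (Γ E : Type) [Group Γ] [Countable Γ] [TopologicalSpace E]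
  [T2Space E] [MulAction Γ E] (C : Cov n Γ E) (X : XL C p) (F : XF X) (Pf : Cm p → ℂ), 1 ≤ k →
  Continuous Pf → ∀ Z : SS F k Pf, ∃ B < (⊤ : ℝ≥0∞), ∀ i a T σ,
    ∑' γ : Γ, ∫⁻ z in C.B 1 a, ‖ev ((Z.Q i).Y γ a z T) σ‖ₑ ^ 2 ≤ B

/-- **B3**: `∂̄ Y` tends to zero -/
def StB3 : Prop := TrSt → ∀ (n p k : ℕ) (Γ E : Type) [Group Γ] [Countable Γ] [TopologicalSpace E]
  [T2Space E] [MulAction Γ E] (C : Cov n Γ E) (X : XL C p) (F : XF X) (Pf : Cm p → ℂ), 1 ≤ k →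
  ∀ (Z : SS F k Pf) γ a T σ c, Tendsto (fun i => ∫⁻ z in C.B 1 a,
    ‖dzb c (fun w => ev ((Z.Q i).Y γ a w T) σ) z‖ₑ) atTop (𝓝 0)

/-- **B4**: near the base point -/
def StB4 : Prop := PfT → StB1 → ∀ (n p k : ℕ) (Γ E : Type) [Group Γ] [Countable Γ]
  [TopologicalSpace E] [T2Space E] [MulAction Γ E] (C : Cov n Γ E) (X : XL C p) (F : XF X)
  (Pf : Cm p → ℂ) (Z : SS F k Pf), ∃ W : Set (Cm n), IsOpen W ∧ X.z₀ ∈ W ∧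
  (∀ z ∈ W, z ∈ C.B 1 X.a₀ ∧ C.pt 1 X.a₀ z ∈ X.T) ∧ ∃ y : ℕ → Cm n → Af n p,
  (∀ i, ContinuousOn (y i) W) ∧
  (∀ i, ∀ z ∈ W, ∀ T, (Z.Q i).Y 1 X.a₀ z T = (∏ l, ds C X.s 1 X.a₀ z (eb (T l))) • y i z) ∧
  (∃ G : ℕ → Cm n → ℝ≥0∞, (∀ i, AEMeasurable (G i) (volume.restrict W)) ∧
    Tendsto (fun i => ∫⁻ z in W, G i z) atTop (𝓝 0) ∧
    ∀ i, ∀ z ∈ W, X.s (C.pt 1 X.a₀ z) ∈ F.G → ∀ c (v : Fin (p + 1) → Cm n), ‖v‖ ≤ 1 →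
      ‖P284.H619.K.wd (P284.H619.K.tL (fderiv ℂ (fun w => X.s (C.pt 1 X.a₀ w)) z) c) (y i z) v‖ₑ
        ^ 2 ≤ G i z) ∧
  ∃ B < (⊤ : ℝ≥0∞), ∀ i σ, ∫⁻ z in W, ENNReal.ofReal (‖ev (y i z) σ -
    Pf (X.s (C.pt 1 X.a₀ z)) * ds C X.s 1 X.a₀ z (eb σ)‖ ^ 2 *
      pw n X.t₀ (Z.u i) (X.s (C.pt 1 X.a₀ z))) ≤ B

/-- **A**: one stage -/
def StA : Prop := ∀ (n p k : ℕ) (Γ E : Type) [Group Γ] [Countable Γ] [TopologicalSpace E]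
  [T2Space E] [MulAction Γ E] (C : Cov n Γ E), 1 ≤ p → ∀ (X : XL C p) (F : XF X) (Pf : Cm p → ℂ),
  ∃ K < (⊤ : ℝ≥0∞), ∀ (j : ℕ) (N e : ℝ), 0 ≤ N → 0 < e → e ≤ 1 → ∀ S : XS F k Pf j N e,
    Nonempty (EO S K (K * ENNReal.ofReal (e * (1 + N))))

theorem stX46_of (h4 : StX4) (hA : StA) (h1 : StB1) (h2 : StB2) (h3 : StB3) (h5 : StB4) (hT : TrSt)
    (hP : PfT) (h6 : StX6b) (hL : LimSt) (hF : PfSt) : StX46 := by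
  intro n p Γ E _ _ _ _ _ _ C hp X
  obtain ⟨k, hk, h⟩ := h4 n p Γ E C X
  refine bt_of (k := k) X hp fun Pf hPf => h6 hL hF n p k Γ E C hp X Pf hPf (Nonempty.some ?_)
  obtain ⟨F, hF⟩ := h Pf hPf
  obtain ⟨j₀, hj⟩ := eventually_atTop.1 hF
  choose N hN hS using fun i => hj (i + j₀) (Nat.le_add_left _ _)
  obtain ⟨K, hK, hQ⟩ := hA n p k Γ E C hp X F Pf
  have h0 : ∀ i : ℕ, (1 : ℝ) ≤ (i + 1) * (1 + N i) := fun i =>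
    one_le_mul_of_one_le_of_one_le (by simp) (le_add_of_nonneg_right (hN i))
  have he : ∀ i : ℕ, (0 : ℝ) < 1 / ((i + 1) * (1 + N i)) := fun i =>
    one_div_pos.2 (one_pos.trans_le (h0 i))
  let Z : SS F k Pf := ⟨fun i => i + j₀, tendsto_add_atTop_nat j₀, N, _, fun i => (hS i _ (he i)).some,
    K, hK, _, ?_, fun i => (hQ _ _ _ (hN i) (he i) ((div_le_one (one_pos.trans_le (h0 i))).2 (h0 i))
      _).some⟩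
  · obtain ⟨W, w1, w2, w3, y, w4, w5, w6, w7⟩ := h5 hP h1 n p k Γ E C X F Pf Z
    have b := fun i => h1 n p k Γ E C X F Pf _ _ _ _ _ _ (Z.Q i)
    exact ⟨⟨fun i => (Z.Q i).Y, fun i => (b i).1, fun i => (b i).2.1, fun i => (b i).2.2,
      h2 hP n p k Γ E C X F Pf hk hPf.continuous Z, h3 hT n p k Γ E C X F Pf hk Z, F.G, F.G_pos,
      W, w1, w2, w3, y, w4, w5, w6, Z.u, Z.u_tend, w7⟩⟩
  · have t := ENNReal.Tendsto.const_mul (ENNReal.tendsto_ofReal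
      (tendsto_one_div_add_atTop_nhds_zero_nat (𝕜 := ℝ))) (Or.inr hK.ne)
    rw [ENNReal.ofReal_zero, mul_zero] at t
    refine t.congr fun i => ?_
    have := hN i
    congr 2
    field_simp

end Vale.Agent.P284Y.X56
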